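import Vale.Agent.P092.H183.Cl1
import Vale.Agent.P092.SR.Defs

/-!
P092, block B-CLASS (helper183), part 2: the groups between the group generated by the transvections
of a hermitian form and the isometry group, modulo their centre: topology, centralisers, recurrence.
-/

set_option linter.all false

namespace Vale.Agent.P092.H183.Cl

open Matrix Topology Filter
open Vale.Agent.P092.H303 (FormGroup)
open Vale.Agent.P092.H714.Cl

variable {k : Type} [NontriviallyNormedField k] {n : Type} [Fintype n] [DecidableEq n]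

/-- A closed group between the group generated by the transvections and the isometry group. -/
structure ClG (σ : k →+* k) (ε : k) (J : Matrix n n k) (G : Subgroup (SpecialLinearGroup n k)) :
    Prop where
  hσ : ∀ x, ‖σ x‖ = ‖x‖
  hF : Frm σ ε J
  hG : GT σ ε J ≤ G
  hGF : G ≤ FormGroup σ J
  hGc : IsClosed (G : Set (SpecialLinearGroup n k))

namespace ClG

variable {σ : k →+* k} {ε : k} {J : Matrix n n k} {G : Subgroup (SpecialLinearGroup n k)}
  (C : ClG σ ε J G)

include C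

/-- The centre is finite. -/
theorem finC : ((Subgroup.center G : Subgroup G) : Set G).Finite := by
  haveI := finite_center C.hF C.hG C.hGF
  exact Set.toFinite _

theorem t2G : T2Space G := by
  haveI : T2Space (SpecialLinearGroup n k) := t2_SL
  infer_instance

theorem scG [ProperSpace k] : SecondCountableTopology G := by
  haveI : SecondCountableTopology (SpecialLinearGroup n k) := sc_SL
  exact (IsInducing.subtypeVal (Y := SpecialLinearGroup n k)
    (t := {x | x ∈ G})).secondCountableTopology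

theorem lcG [ProperSpace k] : LocallyCompactSpace G := by
  haveI : LocallyCompactSpace (SpecialLinearGroup n k) := lc_SL
  exact C.hGc.isClosedEmbedding_subtypeVal.locallyCompactSpace

theorem compC : IsCompact ((Subgroup.center G : Subgroup G) : Set G) := C.finC.isCompact

theorem closC : IsClosed ((Subgroup.center G : Subgroup G) : Set G) := by
  haveI := C.t2G
  exact C.finC.isClosed

theorem top : IsTopologicalGroup (G ⧸ Subgroup.center G) := inferInstance

theorem t2 : T2Space (G ⧸ Subgroup.center G) := by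
  haveI : IsClosed ((Subgroup.center G : Subgroup G) : Set G) := C.closC
  infer_instance

theorem sc [ProperSpace k] : SecondCountableTopology (G ⧸ Subgroup.center G) := by
  haveI := C.scG
  infer_instance

theorem lc [ProperSpace k] : LocallyCompactSpace (G ⧸ Subgroup.center G) := by
  haveI := C.lcG
  infer_instance

/-- Compact open subgroups form a basis of neighbourhoods of `1`. -/
theorem basisG [ProperSpace k] [IsUltrametricDist k] {W : Set G} (hW : W ∈ 𝓝 (1 : G)) :
    ∃ K : Subgroup G, IsOpen (K : Set G) ∧ IsCompact (K : Set G) ∧ (K : Set G) ⊆ W :=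
  exists_cos_sub (fun _ hW => exists_cos hW) C.hGc hW

theorem basis [ProperSpace k] [IsUltrametricDist k] (U : Set (G ⧸ Subgroup.center G))
    (hU : IsOpen U) (h1 : (1 : G ⧸ Subgroup.center G) ∈ U) :
    ∃ K : Subgroup (G ⧸ Subgroup.center G), SR.COS K ∧ (K : Set (G ⧸ Subgroup.center G)) ⊆ U :=
  basis_quot _ (fun _ hW => C.basisG hW) U hU h1

/-! ### Hyperbolic elements -/

/-- A hyperbolic element in the group. -/
theorem exists_dil {u w : n → k} (hu : hf σ J u u = 0) (hw : hf σ J w w = 0)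
    (huw : hf σ J u w = 1) : ∃ (r : k) (h : G), σ r = r ∧ 1 < ‖r‖ ∧ u ᵥ* h.1.1 = r • u ∧
      w ᵥ* h.1.1 = r⁻¹ • w ∧ ∀ y, hf σ J y u = 0 → hf σ J y w = 0 → y ᵥ* h.1.1 = y := by
  obtain ⟨r, hr, hr1⟩ := exists_fix C.hF C.hσ
  obtain ⟨s, hs0, hs⟩ := C.hF.cc
  have hr0 : r ≠ 0 := by
    rintro rfl
    rw [norm_zero] at hr1
    linarith
  refine ⟨r, (dg C.hG C.hF hu hw hs0 hs hr0 hr)⁻¹, hr, hr1, ?_, ?_, ?_⟩
  · have h1 : u ᵥ* (dg C.hG C.hF hu hw hs0 hs hr0 hr).1.1 = r⁻¹ • u :=
      u_dv C.hF hu hw huw hs0 hr0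
    have h2 := inv_of_smul (inv_ne_zero hr0) h1
    rwa [inv_inv] at h2
  · have h1 : w ᵥ* (dg C.hG C.hF hu hw hs0 hs hr0 hr).1.1 = r • w :=
      w_dv C.hF hu hw huw hs0 hr0
    exact inv_of_smul hr0 h1
  · intro y h1 h2
    have h3 : y ᵥ* (dg C.hG C.hF hu hw hs0 hs hr0 hr).1.1 = y := y_dv hu hw h1 h2
    have h4 := vecMul_cancel_inv y (dg C.hG C.hF hu hw hs0 hs hr0 hr).1
    rw [h3] at h4
    exact h4

/-- Powers of a hyperbolic element are unbounded. -/
theorem hypG : ∃ g : G, ∀ D : Set G, IsCompact D → ∃ m : ℕ, g ^ m ∉ D := by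
  obtain ⟨u, hu0, hu⟩ := C.hF.iso
  obtain ⟨w, hw, huw⟩ := C.hF.exists_hyp hu0 hu
  obtain ⟨r, h, hr, hr1, hhu, -, -⟩ := C.exists_dil hu hw huw
  refine ⟨h, fun D hD => ?_⟩
  obtain ⟨i, hi⟩ : ∃ i, u i ≠ 0 := by
    by_contra hcon
    push Not at hcon
    exact hu0 (funext hcon)
  have hcont : Continuous fun g : G => ‖(u ᵥ* g.1.1) i‖ := by
    have h1 : Continuous fun g : G => u ᵥ* g.1.1 :=
      Continuous.matrix_vecMul continuous_const (continuous_subtype_val.comp continuous_subtype_val)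
    exact ((continuous_apply i).comp h1).norm
  obtain ⟨R, hR⟩ := (hD.image hcont).bddAbove
  have hpow : ∀ m : ℕ, u ᵥ* ((h ^ m : G)).1.1 = r ^ m • u := by
    intro m
    induction m with
    | zero => rw [pow_zero, pow_zero, one_smul]; exact vecMul_one' u
    | succ m ih =>
      have e : ((h ^ (m + 1) : G)).1 = (h ^ m : G).1 * h.1 := by rw [pow_succ]; rfl
      rw [e, vecMul_mul', ih, smul_vecMul, hhu, smul_smul, pow_succ]
  obtain ⟨m, hm⟩ := pow_unbounded_of_one_lt (R / ‖u i‖) hr1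
  refine ⟨m, fun hmD => ?_⟩
  have h1 := hR ⟨_, hmD, rfl⟩
  have hp : 0 < ‖u i‖ := norm_pos_iff.2 hi
  rw [div_lt_iff₀ hp] at hm
  have h2 : ‖(u ᵥ* ((h ^ m : G)).1.1) i‖ = ‖r‖ ^ m * ‖u i‖ := by
    rw [hpow, Pi.smul_apply, smul_eq_mul, norm_mul, norm_pow]
  change ‖(u ᵥ* ((h ^ m : G)).1.1) i‖ ≤ R at h1
  rw [h2] at h1
  linarith

theorem hyp : ∃ g : G ⧸ Subgroup.center G, ∀ D : Set (G ⧸ Subgroup.center G), IsCompact D →
    ∃ m : ℕ, g ^ m ∉ D := by
  obtain ⟨g, hg⟩ := C.hypG
  exact ⟨_, hyp_quot _ C.compC hg⟩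

theorem noncompact : ¬ IsCompact (Set.univ : Set (G ⧸ Subgroup.center G)) := by
  intro h
  obtain ⟨g, hg⟩ := C.hyp
  obtain ⟨m, hm⟩ := hg _ h
  exact hm (Set.mem_univ _)

theorem ncG : ¬ CompactSpace G := by
  rintro ⟨h⟩
  obtain ⟨g, hg⟩ := C.hypG
  obtain ⟨m, hm⟩ := hg _ h
  exact hm (Set.mem_univ _)

/-! ### Centralisers -/

/-- Small transvections. -/
theorem exists_small {u : n → k} (hu : hf σ J u u = 0) {W : Set G} (hW : W ∈ 𝓝 (1 : G)) :
    ∃ (c : k) (hc : c + ε * σ c = 0), c ≠ 0 ∧ tg C.hG hu hc ∈ W := by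
  obtain ⟨c, hc0, hc⟩ := C.hF.cc
  obtain ⟨r, hr, hr1⟩ := exists_fix C.hF C.hσ
  have hr0 : r ≠ 0 := by
    rintro rfl
    rw [norm_zero] at hr1
    linarith
  have hri : σ r⁻¹ = r⁻¹ := by rw [map_inv₀, hr]
  have hcm : ∀ m : ℕ, r⁻¹ ^ m * c + ε * σ (r⁻¹ ^ m * c) = 0 := fun m =>
    cc_fix (by rw [map_pow, hri]) hc
  have ht : Tendsto (fun m : ℕ => r⁻¹ ^ m * c) atTop (𝓝 0) := by
    have h1 : Tendsto (fun m : ℕ => r⁻¹ ^ m) atTop (𝓝 0) := by
      refine tendsto_pow_atTop_nhds_zero_of_norm_lt_one ?_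
      rw [norm_inv]
      exact inv_lt_one_of_one_lt₀ hr1
    have h2 := h1.mul_const c
    rwa [zero_mul] at h2
  have h1 := tendsto_tg_one (continuous_of_norm C.hσ) C.hG hu hcm ht
  obtain ⟨m, hm⟩ := (h1.eventually hW).exists
  exact ⟨_, hcm m, mul_ne_zero (pow_ne_zero _ (inv_ne_zero hr0)) hc0, hm⟩

/-- An element with an open centraliser is central. -/
theorem cent0 (g : G) (h : ((Subgroup.centralizer {g} : Subgroup G) : Set G) ∈ 𝓝 1) :
    g ∈ Subgroup.center G := by
  refine mem_center_of_lines C.hF fun u hu => ?_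
  obtain ⟨c, hc, hc0, hm⟩ := C.exists_small hu h
  have h1 := Subgroup.mem_centralizer_iff.1 hm g rfl
  exact line_of_comm C.hF (C.hGF g.2) hu hc0 (congrArg Subtype.val h1)

theorem cent (g : G ⧸ Subgroup.center G) (hg : g ≠ 1) :
    ¬ IsOpen ((Subgroup.centralizer {g} : Subgroup (G ⧸ Subgroup.center G)) :
      Set (G ⧸ Subgroup.center G)) := by
  haveI := C.t2G
  exact PA.cent_quot C.finC C.cent0 g hg

theorem nondisc : ¬ IsOpen ({1} : Set (G ⧸ Subgroup.center G)) := by
  intro h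
  haveI : DiscreteTopology (G ⧸ Subgroup.center G) := by
    haveI := C.top
    exact discreteTopology_of_isOpen_singleton_one h
  by_cases hs : ∀ g : G ⧸ Subgroup.center G, g = 1
  · refine C.noncompact ?_
    have : (Set.univ : Set (G ⧸ Subgroup.center G)) = {1} := by
      ext g; simp [hs g]
    rw [this]
    exact isCompact_singleton
  · push Not at hs
    obtain ⟨g, hg⟩ := hs
    exact C.cent g hg (isOpen_discrete _)

/-! ### Recurrence -/

/-- Central elements are scalars of norm one. -/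
theorem scalar_of_center {z : G} (hz : z ∈ Subgroup.center G) :
    ∃ a : k, ‖a‖ = 1 ∧ ∀ x, x ᵥ* z.1.1 = a • x := by
  have hz' : ∀ g : G, g * z = z * g := Subgroup.mem_center_iff.mp hz
  obtain ⟨c, hc0, hc⟩ := C.hF.cc
  obtain ⟨a, ha⟩ := scalar_of_lines C.hF z.1 fun u hu =>
    line_of_comm C.hF (C.hGF z.2) hu hc0 (congrArg Subtype.val (hz' (tg C.hG hu hc))).symm
  refine ⟨a, ?_, ha⟩
  obtain ⟨u, hu0, hu⟩ := C.hF.iso
  obtain ⟨w, hw, huw⟩ := C.hF.exists_hyp hu0 hu
  have h1 := mem_formGroup.mp (C.hGF z.2) u w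
  rw [ha, ha, hf_smul_left, hf_smul_right, huw, mul_one] at h1
  have h2 := congrArg norm h1
  rw [norm_mul, C.hσ, norm_one] at h2
  nlinarith [norm_nonneg a]

/-- The function of the recurrence. -/
theorem continuous_fun (u y : n → k) : Continuous fun g : G => ‖hf σ J (u ᵥ* g.1.1) y‖ := by
  have h1 : Continuous fun g : G => u ᵥ* g.1.1 :=
    Continuous.matrix_vecMul continuous_const (continuous_subtype_val.comp continuous_subtype_val)
  exact ((continuous_hf (J := J) (continuous_of_norm C.hσ)).comp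
    (h1.prodMk continuous_const)).norm

theorem rec_aux {z : G} (hz : z ∉ Subgroup.center G) :
    ∃ (h : G) (f : G → ℝ) (q : ℝ), Continuous f ∧ 1 < q ∧ (∀ x, f (h * x * h⁻¹) = q * f x) ∧
      0 < f z ∧ ∀ x, ∀ y ∈ Subgroup.center G, f (x * y) = f x := by
  obtain ⟨u, hu, hline⟩ : ∃ u, hf σ J u u = 0 ∧ ∀ a : k, u ᵥ* z.1.1 ≠ a • u := by
    by_contra hcon
    push Not at hcon
    exact hz (mem_center_of_lines C.hF hcon)
  have hu0 : u ≠ 0 := by
    rintro rfl
    exact hline 0 (by rw [zero_vecMul, smul_zero])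
  set v : n → k := u ᵥ* z.1.1 with hv
  have hinv : ∀ (y : n → k) (x : G), ∀ c ∈ Subgroup.center G,
      ‖hf σ J (u ᵥ* (x * c : G).1.1) y‖ = ‖hf σ J (u ᵥ* x.1.1) y‖ := by
    intro y x c hc
    obtain ⟨a, ha1, ha⟩ := C.scalar_of_center hc
    have e : (x * c : G).1 = x.1 * c.1 := rfl
    rw [e, vecMul_mul', ha, hf_smul_left, norm_mul, ha1, one_mul]
  -- conjugation
  have hconj : ∀ (h x : G) (y : n → k), hf σ J (u ᵥ* (h * x * h⁻¹ : G).1.1) y =
      hf σ J ((u ᵥ* h.1.1) ᵥ* x.1.1) (y ᵥ* h.1.1) := by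
    intro h x y
    have e : (h * x * h⁻¹ : G).1 = h.1 * x.1 * (h.1)⁻¹ := rfl
    rw [e, vecMul_mul', vecMul_mul']
    have h1 := mem_formGroup.mp (C.hGF h.2) (((u ᵥ* h.1.1) ᵥ* x.1.1) ᵥ* ((h.1)⁻¹).1) y
    rw [vecMul_inv_cancel] at h1
    exact h1.symm
  by_cases huv : hf σ J v u = 0
  · have hind : ∀ a b : k, a • u + b • v = 0 → a = 0 ∧ b = 0 := by
      intro a b hab
      have hb : b = 0 := by
        by_contra hb
        refine hline (-(b⁻¹ * a)) ?_
        have h1 : b⁻¹ • (a • u + b • v) = 0 := by rw [hab, smul_zero]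
        rw [smul_add, smul_smul, smul_smul, inv_mul_cancel₀ hb, one_smul] at h1
        rw [neg_smul]
        exact eq_neg_of_add_eq_zero_right h1
      subst hb
      rw [zero_smul, add_zero] at hab
      exact ⟨(smul_eq_zero.mp hab).resolve_right hu0, rfl⟩
    have hv0 : v ≠ 0 := by
      intro h0
      have := (hind 0 1 (by rw [h0]; simp)).2
      exact one_ne_zero this
    obtain ⟨w, hw, huw, hvw⟩ := C.hF.exists_hyp' hu huv hind
    obtain ⟨r, h, hr, hr1, hhu, hhw, hhy⟩ := C.exists_dil hu hw huw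
    obtain ⟨y₀, hy₀⟩ := C.hF.nondeg v hv0
    -- the component of `y₀` orthogonal to `u` and `w`
    have hwu := C.hF.swap huw
    have he := C.hF.eps
    set y : n → k := y₀ + (-(hf σ J y₀ w)) • u + (-(hf σ J y₀ u * ε)) • w with hy
    have hyu : hf σ J y u = 0 := by
      rw [hy, hf_add_left, hf_add_left, hf_smul_left, hf_smul_left, hu, hwu]
      linear_combination -(hf σ J y₀ u) * he
    have hyw : hf σ J y w = 0 := by
      rw [hy, hf_add_left, hf_add_left, hf_smul_left, hf_smul_left, huw, hw]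
      ring
    have hvy : hf σ J v y ≠ 0 := by
      rw [hy, hf_add_right, hf_add_right, hf_smul_right, hf_smul_right, huv, hvw, mul_zero,
        mul_zero, add_zero, add_zero]
      exact hy₀
    refine ⟨h, fun g => ‖hf σ J (u ᵥ* g.1.1) y‖, ‖r‖, C.continuous_fun u y, hr1, ?_, ?_, hinv y⟩
    · intro x
      show ‖hf σ J (u ᵥ* (h * x * h⁻¹ : G).1.1) y‖ = _
      rw [hconj, hhu, hhy y hyu hyw, smul_vecMul, hf_smul_left, norm_mul]
    · exact norm_pos_iff.2 hvy
  · obtain ⟨w, hw, huw⟩ := C.hF.exists_hyp hu0 hu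
    obtain ⟨r, h, hr, hr1, hhu, -, -⟩ := C.exists_dil hu hw huw
    refine ⟨h, fun g => ‖hf σ J (u ᵥ* g.1.1) u‖, ‖r‖ * ‖r‖, C.continuous_fun u u, ?_, ?_, ?_,
      hinv u⟩
    · nlinarith
    · intro x
      show ‖hf σ J (u ᵥ* (h * x * h⁻¹ : G).1.1) u‖ = _
      rw [hconj, hhu, smul_vecMul, hf_smul_left, hf_smul_right, norm_mul, norm_mul, C.hσ]
      ring
    · exact norm_pos_iff.2 huv

/-- **Conjugation recurrence.** -/
theorem recur : PA.Rec (G ⧸ Subgroup.center G) := by
  intro z hz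
  induction z using QuotientGroup.induction_on with
  | H z =>
    have hz' : z ∉ Subgroup.center G := fun h => hz ((QuotientGroup.eq_one_iff z).2 h)
    obtain ⟨h, f, q, hf', hq, hx, h0, hc⟩ := C.rec_aux hz'
    exact rec_quot _ hf' hq hx h0 hc

end ClG

end Vale.Agent.P092.H183.Cl
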