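import Vale.Agent.P092.H15.ClHM
import Vale.Agent.P092.H183.Cl2

/-!
P092, block B-CLASS (helper183), part 3: open subgroups and bounded normal subgroups.
-/

set_option linter.all false

namespace Vale.Agent.P092.H183.Cl

open Matrix Topology Filter
open Vale.Agent.P092.H303 (FormGroup)
open Vale.Agent.P092.H714.Cl
open Vale.Agent.P092.H933 (Len)
open Vale.Agent.P092.H15 (HMG Ctr)

/-- In a group with the Howe–Moore property proper open subgroups are compact. -/
theorem proper_of_hmg {H : Type} [Group H] [TopologicalSpace H] [IsTopologicalGroup H]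
    (hH : HMG H) (V : Subgroup H) (hV : IsOpen (V : Set H)) (hne : V ≠ ⊤) :
    IsCompact (V : Set H) := by
  classical
  by_contra hc
  have hcl : IsClosed (V : Set H) := Subgroup.isClosed_of_isOpen V hV
  haveI hNe : (cocompact H ⊓ 𝓟 (V : Set H)).NeBot := by
    rw [Filter.inf_principal_neBot_iff]
    intro S hS
    obtain ⟨K, hK, hKS⟩ := mem_cocompact.1 hS
    by_contra hemp
    rw [Set.not_nonempty_iff_eq_empty] at hemp
    refine hc (hK.of_isClosed_subset hcl fun x hx => ?_)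
    by_contra hxK
    have : x ∈ S ∩ (V : Set H) := ⟨hKS hxK, hx⟩
    rw [hemp] at this
    exact this
  set U : Ultrafilter H := Ultrafilter.of (cocompact H ⊓ 𝓟 (V : Set H)) with hU
  have hle : (U : Filter H) ≤ cocompact H ⊓ 𝓟 (V : Set H) := Ultrafilter.of_le _
  have hUV : (V : Set H) ∈ (U : Filter H) := hle (mem_inf_of_right (mem_principal_self _))
  let f : H → ℝ := fun g => if g ∈ V then 0 else 1
  have hf : Len f := by
    refine ⟨if_pos V.one_mem, fun g => ?_, fun g h => ?_, ?_⟩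
    · show (if g⁻¹ ∈ V then (0 : ℝ) else 1) = if g ∈ V then 0 else 1
      simp only [V.inv_mem_iff]
    · show (if g * h ∈ V then (0 : ℝ) else 1) ≤ (if g ∈ V then 0 else 1) + if h ∈ V then 0 else 1
      by_cases hg : g ∈ V
      · by_cases hh : h ∈ V
        · rw [if_pos (V.mul_mem hg hh), if_pos hg, if_pos hh]; norm_num
        · rw [if_pos hg, if_neg hh]
          split_ifs <;> norm_num
      · rw [if_neg hg]
        split_ifs <;> norm_num
    · refine tendsto_const_nhds.congr' ?_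
      filter_upwards [hV.mem_nhds V.one_mem] with g hg
      exact (if_pos hg).symm
  refine hne (top_le_iff.1 fun g _ => ?_)
  have key := hH U (hle.trans inf_le_left) f hf (fun g hg => ?_) g
  · by_contra hgV
    have h1 : f g = 1 := if_neg hgV
    rw [h1] at key
    exact one_ne_zero key
  · obtain ⟨γ, h1, h2⟩ := hg
    have h3 : ∀ᶠ b in (U : Filter H), γ b ∈ V := by
      filter_upwards [h2.eventually (hV.mem_nhds V.one_mem), hUV] with b hb hbV
      have e : γ b = b * (b⁻¹ * γ b * b) * b⁻¹ := by group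
      rw [e]
      exact V.mul_mem (V.mul_mem hbV hb) (V.inv_mem hbV)
    exact if_pos (hcl.mem_of_tendsto h1 h3)

/-- Open normal subgroups, from the other properties. -/
theorem open_normal_of {H : Type} [Group H] [TopologicalSpace H]
    (hp : ∀ U : Subgroup H, IsOpen (U : Set H) → U ≠ ⊤ → IsCompact (U : Set H))
    (hb : ∀ N : Subgroup H, N.Normal →
      (∀ g ∈ N, ∃ C : Set H, IsCompact C ∧ ∀ m : ℕ, g ^ m ∈ C) → N = ⊥)
    (hn : ¬ IsOpen ({1} : Set H)) (N : Subgroup H) (hN : N.Normal) (hNo : IsOpen (N : Set H)) :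
    N = ⊤ := by
  by_contra hne
  have h1 := hp N hNo hne
  have h2 := hb N hN fun g hg => ⟨N, h1, fun m => N.pow_mem hg m⟩
  rw [h2, Subgroup.coe_bot] at hNo
  exact hn hNo

variable {k : Type} [NontriviallyNormedField k] {n : Type} [Fintype n] [DecidableEq n]

namespace ClG

variable {σ : k →+* k} {ε : k} {J : Matrix n n k} {G : Subgroup (SpecialLinearGroup n k)}
  (C : ClG σ ε J G)

/-- The closure of the group generated by the transvections is a closed group of isometries. -/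
theorem of_closure (hσ : ∀ x, ‖σ x‖ = ‖x‖) (hF : Frm σ ε J) :
    ClG σ ε J (GT σ ε J).topologicalClosure where
  hσ := hσ
  hF := hF
  hG := Subgroup.le_topologicalClosure _
  hGF := Subgroup.topologicalClosure_minimal _ (GT_le hF)
    (H303.isClosed_formGroup (continuous_of_norm hσ) J)
  hGc := Subgroup.isClosed_topologicalClosure _

include C

/-- The Howe–Moore property modulo the centre. -/
theorem hmg [ProperSpace k] (hGc : G ≤ (GT σ ε J).topologicalClosure) :
    HMG (G ⧸ Subgroup.center G) :=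
  (H15.hmg_cl C.hσ C.hF C.hG C.hGF C.hGc hGc).of_surj
    (QuotientGroup.mk' (Subgroup.center G)) QuotientGroup.continuous_mk
    (QuotientGroup.mk'_surjective _)

theorem proper [ProperSpace k] (hGc : G ≤ (GT σ ε J).topologicalClosure)
    (U : Subgroup (G ⧸ Subgroup.center G)) (hU : IsOpen (U : Set (G ⧸ Subgroup.center G)))
    (hne : U ≠ ⊤) : IsCompact (U : Set (G ⧸ Subgroup.center G)) :=
  proper_of_hmg (C.hmg hGc) U hU hne

theorem exists_r : ∃ r : k, σ r = r ∧ r ≠ 0 ∧ 1 < ‖r‖ ∧ r * r ≠ r⁻¹ * r⁻¹ ∧ r⁻¹ * r⁻¹ ≠ 1 := by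
  obtain ⟨r, hr, hr1⟩ := exists_fix C.hF C.hσ
  have hr0 : r ≠ 0 := by
    rintro rfl
    rw [norm_zero] at hr1
    linarith
  have hi : ‖r⁻¹‖ < 1 := by
    rw [norm_inv]
    exact inv_lt_one_of_one_lt₀ hr1
  have h1 : ‖r⁻¹ * r⁻¹‖ < 1 := by
    rw [norm_mul]
    nlinarith [norm_nonneg r⁻¹]
  have h2 : 1 < ‖r * r‖ := by
    rw [norm_mul]
    nlinarith
  refine ⟨r, hr, hr0, hr1, fun h => ?_, fun h => ?_⟩
  · rw [h] at h2
    exact absurd h1 (not_lt.2 h2.le)
  · rw [h, norm_one] at h1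
    exact lt_irrefl _ h1

/-- A normal subgroup of `G` with bounded elements is central. -/
theorem le_center_of_bdd (N : Subgroup G) (hN : N.Normal)
    (h : ∀ g ∈ N, ∃ D : Set G, IsCompact D ∧ ∀ m : ℕ, g ^ m ∈ D) : N ≤ Subgroup.center G := by
  intro z hz
  by_contra hzc
  obtain ⟨r, hr, hr0, hr1, hr4, hr2⟩ := C.exists_r
  have h1 := normal_main C.hF C.hG C.hGF hr hr0 hr4 N hN hz hzc
  obtain ⟨u, hu0, hu⟩ := C.hF.iso
  obtain ⟨w, hw, huw⟩ := C.hF.exists_hyp hu0 hu
  obtain ⟨s, hs0, hs⟩ := C.hF.cc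
  have hri : σ r⁻¹ = r⁻¹ := by rw [map_inv₀, hr]
  have hm : dv σ ε J u w s r⁻¹ ∈ GT σ ε J := dv_mem C.hF hu hw hs0 hs (inv_ne_zero hr0) hri
  have hhu : u ᵥ* (dv σ ε J u w s r⁻¹).1 = r • u := by
    have := u_dv C.hF hu hw huw hs0 (inv_ne_zero hr0)
    rwa [inv_inv] at this
  obtain ⟨D, hD, hDm⟩ := h _ (h1 _ hm)
  obtain ⟨i, hi⟩ : ∃ i, u i ≠ 0 := by
    by_contra hcon
    push Not at hcon
    exact hu0 (funext hcon)
  have hcont : Continuous fun g : G => ‖(u ᵥ* g.1.1) i‖ := by
    have h1 : Continuous fun g : G => u ᵥ* g.1.1 :=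
      Continuous.matrix_vecMul continuous_const (continuous_subtype_val.comp continuous_subtype_val)
    exact ((continuous_apply i).comp h1).norm
  obtain ⟨R, hR⟩ := (hD.image hcont).bddAbove
  set x : G := ⟨dv σ ε J u w s r⁻¹, C.hG hm⟩ with hx
  have hpow : ∀ m : ℕ, u ᵥ* ((x ^ m : G)).1.1 = r ^ m • u := by
    intro m
    induction m with
    | zero => rw [pow_zero, pow_zero, one_smul]; exact vecMul_one' u
    | succ m ih =>
      have e : ((x ^ (m + 1) : G)).1 = (x ^ m : G).1 * x.1 := by rw [pow_succ]; rfl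
      rw [e, vecMul_mul', ih, smul_vecMul, hhu, smul_smul, pow_succ]
  obtain ⟨m, hm'⟩ := pow_unbounded_of_one_lt (R / ‖u i‖) hr1
  have h2 := hR ⟨_, hDm m, rfl⟩
  have hp : 0 < ‖u i‖ := norm_pos_iff.2 hi
  rw [div_lt_iff₀ hp] at hm'
  have h3 : ‖(u ᵥ* ((x ^ m : G)).1.1) i‖ = ‖r‖ ^ m * ‖u i‖ := by
    rw [hpow, Pi.smul_apply, smul_eq_mul, norm_mul, norm_pow]
  change ‖(u ᵥ* ((x ^ m : G)).1.1) i‖ ≤ R at h2
  rw [h3] at h2
  linarith

theorem bdd_normal (N : Subgroup (G ⧸ Subgroup.center G)) (hN : N.Normal)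
    (h : ∀ g ∈ N, ∃ D : Set (G ⧸ Subgroup.center G), IsCompact D ∧ ∀ m : ℕ, g ^ m ∈ D) :
    N = ⊥ := by
  have h1 := C.le_center_of_bdd (N.comap (QuotientGroup.mk' (Subgroup.center G)))
    (hN.comap _) (fun g hg => by
      obtain ⟨D, hD, hDm⟩ := h _ hg
      refine ⟨_, PA.isCompact_preimage_mk _ C.compC hD, fun m => ?_⟩
      have := hDm m
      rw [← map_pow] at this
      exact this)
  refine (Subgroup.eq_bot_iff_forall _).2 fun x hx => ?_
  induction x using QuotientGroup.induction_on with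
  | H g => exact (QuotientGroup.eq_one_iff g).2 (h1 hx)

theorem open_normal [ProperSpace k] (hGc : G ≤ (GT σ ε J).topologicalClosure)
    (N : Subgroup (G ⧸ Subgroup.center G)) (hN : N.Normal)
    (hNo : IsOpen (N : Set (G ⧸ Subgroup.center G))) : N = ⊤ :=
  open_normal_of (C.proper hGc) C.bdd_normal C.nondisc N hN hNo

end ClG

end Vale.Agent.P092.H183.Cl
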