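import Vale.Agent.P092.H183.DV6
import Vale.Agent.P092.H183.Cl3
import Vale.Agent.P092.H103.QH5
import Vale.Agent.P092.QC.Erg

/-!
P092, block CLASS-H (helper183), part U4, 7: the groups generated by the transvections of a
(skew-)hermitian form over a quaternion division algebra over a non-archimedean local field are
totally disconnected factors (`QC.Td`).
-/

set_option linter.all false

open Matrix Topology Filter
open scoped NNReal

namespace Vale.Agent.P092.H183.DV

open Vale.Agent.P092.H103.QH
open Vale.Agent.P092.H15 (HMG)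

variable {n D : Type} [Fintype n] [DecidableEq n] [NormedDivisionRing D] [StarRing D]
  [IsUltrametricDist D] [ProperSpace D] {ε : D} {J : Matrix n n D}

/-- The group generated by the transvections is perfect. -/
theorem perf_GT (hQ : Qn D) (hF : Frm ε J) {A : Type*} [CommGroup A] (φ : GT ε J →* A) :
    φ = 1 := by
  obtain ⟨r, hr, hr1⟩ := hQ.big
  have hr0 : r ≠ 0 := by
    rintro rfl
    rw [norm_zero] at hr1
    linarith
  have hri : ‖r⁻¹‖ < 1 := by rw [norm_inv]; exact inv_lt_one_of_one_lt₀ hr1
  have hr2 : r⁻¹ * r⁻¹ ≠ 1 := by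
    intro h
    have h1 := congrArg norm h
    rw [norm_mul, norm_one] at h1
    nlinarith [norm_nonneg r⁻¹]
  refine MonoidHom.ext fun x => ?_
  exact hom_GT hF le_rfl (GT_le hF) φ hr hr0 hr2 x.1 x.2

/-- **[CLASS-H] U4**: `QC.Td` for the group generated by the transvections. -/
theorem td_of (hQ : Qn D) (hF : Frm ε J) (hE : IsClosedEmbedding fun g : GT ε J => g.1.1)
    (hmg : HMG (GT ε J)) : QC.Td (GT ε J) := by
  obtain ⟨r, hr, hr1⟩ := hQ.big
  exact ⟨basis_of hE, H183.Cl.proper_of_hmg hmg,
    vol_GT hQ.two hF hQ.nst hQ.nc hr hr1 hE fun φ => perf_GT hQ hF φ⟩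

end Vale.Agent.P092.H183.DV
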