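import Vale.Agent.P092.H103.QH5
import Vale.Agent.P092.H15.HMAbs

/-!
P092, block CLASS-H (helper183, after helper714 Cl3 and helper15 ClHM): Mautner phenomenon and the group
form of the Howe–Moore property for the groups generated by the transvections of an `ε`-hermitian
form over a division ring.
-/

set_option linter.all false

open Matrix Filter Topology

namespace Vale.Agent.P092.H183.DV

open Vale.Agent.P092.H103.QH
open Vale.Agent.P092.H933 (Len)
open Vale.Agent.P092.H15 (HMG)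

variable {n : Type} [Fintype n] [DecidableEq n] {D : Type} [NormedDivisionRing D] [StarRing D]
  {ε : D} {J : Matrix n n D} {G : Subgroup (Matrix n n D)ˣ}

section mautner

variable (hst : ∀ x : D, ‖star x‖ = ‖x‖) (hF : Frm ε J) (hG : GT ε J ≤ G)
  (hGF : G ≤ FG J) {f : G → ℝ} (hf' : Len f) {r : D} (hr : Cs r) (hr1 : 1 < ‖r‖)

include hst hF hGF hf' hr hr1 in
/-- Mautner for a hyperbolic pair. -/
theorem mautner_pair {u w : n → D} (hu : hf J u u = 0) (hw : hf J w w = 0)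
    (huw : hf J u w = 1) (h : ∀ c (hc : CC ε c), f (tg hG hu hc) = 0) (d : D)
    (hd : CC ε d) : f (tg hG hw hd) = 0 := by
  obtain ⟨s, hs0, hs⟩ := hF.cc
  have hstc := continuous_star_of hst
  have hr0 : r ≠ 0 := by
    rintro rfl
    rw [norm_zero] at hr1
    linarith
  have hrN0 : ∀ N : ℕ, r ^ N ≠ 0 := fun N => pow_ne_zero _ hr0
  have hrN : ∀ N : ℕ, Cs (r ^ N) := fun N => hr.pow N
  have hi : ∀ N : ℕ, Cs ((r ^ N)⁻¹) := fun N => (hrN N).inv
  have hsN0 : ∀ N : ℕ, ((r ^ N)⁻¹ * (r ^ N)⁻¹) * s ≠ 0 := fun N =>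
    mul_ne_zero (mul_ne_zero (inv_ne_zero (hrN0 N)) (inv_ne_zero (hrN0 N))) hs0
  have hsN : ∀ N : ℕ, CC ε (((r ^ N)⁻¹ * (r ^ N)⁻¹) * s) := fun N =>
    hs.smul hF.eps ((hi N).mul (hi N))
  have hs2 : ∀ N : ℕ, CC ε (-(r ^ N * (((r ^ N)⁻¹ * (r ^ N)⁻¹) * s))) := fun N =>
    ((hsN N).smul hF.eps (hrN N)).neg
  have t0 : Tendsto (fun N : ℕ => (r ^ N)⁻¹) atTop (𝓝 0) := by
    have h1 : Tendsto (fun N : ℕ => (r⁻¹) ^ N) atTop (𝓝 0) := by
      apply tendsto_pow_atTop_nhds_zero_of_norm_lt_one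
      rw [norm_inv]
      exact inv_lt_one_of_one_lt₀ hr1
    simpa only [inv_pow] using h1
  have t1 : Tendsto (fun N : ℕ => ((r ^ N)⁻¹ * (r ^ N)⁻¹) * s) atTop (𝓝 0) := by
    have := (t0.mul t0).mul_const s
    simpa using this
  have t2 : Tendsto (fun N : ℕ => -(r ^ N * (((r ^ N)⁻¹ * (r ^ N)⁻¹) * s))) atTop (𝓝 0) := by
    have h1 : Tendsto (fun N : ℕ => -((r ^ N)⁻¹ * s)) atTop (𝓝 0) := by
      have := (t0.mul_const s).neg
      simpa using this
    refine h1.congr fun N => ?_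
    rw [mul_assoc (r ^ N)⁻¹, mul_inv_cancel_left₀ (hrN0 N)]
  set E : ℕ → G := fun N => dg hG hF hu hw (hsN N) (hrN N) with hE
  have hEf : Tendsto (fun N => f (E N)) atTop (𝓝 0) := by
    have h1 : Tendsto (fun N => f (tg hG hw (hsN N)) + f (tg hG hw (hs2 N))) atTop (𝓝 0) := by
      have := (hf'.cont.comp (tendsto_tg_one hstc hG hw hsN t1)).add
        (hf'.cont.comp (tendsto_tg_one hstc hG hw hs2 t2))
      simpa using this
    refine squeeze_zero (fun N => hf'.nonneg _) (fun N => ?_) h1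
    have e : E N = tg hG hu (cc_x hF (hsN N) (hrN N)) * tg hG hw (hsN N) *
        tg hG hu (cc_z hF (hsN N) (hrN N)) * tg hG hw (hs2 N) := rfl
    rw [e]
    refine (hf'.mul _ _).trans ?_
    refine (add_le_add_left ((hf'.mul _ _).trans (add_le_add_left (hf'.mul _ _) _)) _).trans ?_
    rw [h, h]
    linarith
  have hEc : Tendsto (fun N => E N * tg hG hw hd * (E N)⁻¹) atTop (𝓝 1) := by
    have hd2 : ∀ N : ℕ, CC ε (((r ^ N)⁻¹ * (r ^ N)⁻¹) * d) := fun N =>
      hd.smul hF.eps ((hi N).mul (hi N))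
    have t3 : Tendsto (fun N : ℕ => ((r ^ N)⁻¹ * (r ^ N)⁻¹) * d) atTop (𝓝 0) := by
      have := (t0.mul t0).mul_const d
      simpa using this
    refine (tendsto_tg_one hstc hG hw hd2 t3).congr fun N => ?_
    refine Subtype.ext ?_
    change tv J w _ = (E N).1 * tv J w d * ((E N).1)⁻¹
    have hm : (E N).1 ∈ FG J := hGF (E N).2
    have h9 : w ᵥ* (((E N).1)⁻¹).1 = (r ^ N)⁻¹ • w :=
      inv_of_smul (hrN0 N) (w_dv hF hu hw huw (hsN0 N) (hrN0 N) (hrN N))
    rw [conj_tv' hm hw, h9, tv_smul hw, (hi N).st]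
    congr 1
    rw [mul_assoc ((r ^ N)⁻¹) d, ← (hi N).cm d, mul_assoc]
  have hfin : Tendsto (fun N => f (E N * tg hG hw hd * (E N)⁻¹) + (f (E N) + f (E N))) atTop
      (𝓝 0) := by
    have := (hf'.cont.comp hEc).add (hEf.add hEf)
    simpa using this
  refine le_antisymm (ge_of_tendsto' hfin fun N => ?_) (hf'.nonneg _)
  have e : tg hG hw hd = (E N)⁻¹ * (E N * tg hG hw hd * (E N)⁻¹) * E N := by group
  calc f (tg hG hw hd) = f ((E N)⁻¹ * (E N * tg hG hw hd * (E N)⁻¹) * E N) := by rw [← e]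
    _ ≤ f ((E N)⁻¹ * (E N * tg hG hw hd * (E N)⁻¹)) + f (E N) := hf'.mul _ _
    _ ≤ f (E N)⁻¹ + f (E N * tg hG hw hd * (E N)⁻¹) + f (E N) :=
        add_le_add_left (hf'.mul _ _) _
    _ = _ := by rw [hf'.inv]; ring

include hst hF hGF hf' hr hr1 in
theorem mautner_step {u w : n → D} (hu : hf J u u = 0) (hw : hf J w w = 0)
    (huw : hf J u w ≠ 0) (h : ∀ c (hc : CC ε c), f (tg hG hu hc) = 0) (d : D)
    (hd : CC ε d) : f (tg hG hw hd) = 0 := by
  set a : D := star (hf J u w)⁻¹ with ha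
  have ha0 : a ≠ 0 := by
    rw [ha, Ne, star_eq_zero]
    exact inv_ne_zero huw
  have h1 : hf J u (a • w) = 1 := by
    rw [hf_smul_right, ha, star_star, mul_inv_cancel₀ huw]
  have hd' : CC ε (star a⁻¹ * d * a⁻¹) := hd.congr hF.eps a⁻¹
  have h2 := mautner_pair hst hF hG hGF hf' hr hr1 hu (iso_smul hw a) h1 h _ hd'
  have e : tg hG (iso_smul hw a) hd' = tg hG hw hd := by
    refine Subtype.ext ?_
    rw [tg_val, tg_val, tv_smul hw]
    congr 1
    have hsa : star a ≠ 0 := by rwa [Ne, star_eq_zero]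
    rw [star_inv₀, mul_assoc ((star a)⁻¹), mul_inv_cancel_left₀ hsa, mul_assoc,
      inv_mul_cancel₀ ha0, mul_one]
  rwa [e] at h2

include hst hF hGF hf' hr hr1 in
/-- All transvections. -/
theorem mautner_all {u : n → D} (hu0 : u ≠ 0) (hu : hf J u u = 0)
    (h : ∀ c (hc : CC ε c), f (tg hG hu hc) = 0) {w : n → D} (hw : hf J w w = 0) (d : D)
    (hd : CC ε d) : f (tg hG hw hd) = 0 := by
  by_cases hw0 : w = 0
  · subst hw0
    have e : tg hG hw hd = 1 := Subtype.ext (tv_vec_zero d)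
    rw [e, hf'.one]
  · obtain ⟨z, hz, h1, h2⟩ := hF.exists_conn hu0 hu hw0 hw
    exact mautner_step hst hF hG hGF hf' hr hr1 hz hw h2
      (mautner_step hst hF hG hGF hf' hr hr1 hu hz h1 h) d hd

include hst hF hGF hf' hr hr1 in
/-- The kernel contains the group generated by the transvections. -/
theorem mautner_GT {u : n → D} (hu0 : u ≠ 0) (hu : hf J u u = 0)
    (h : ∀ c (hc : CC ε c), f (tg hG hu hc) = 0) :
    ∀ x (hx : x ∈ GT ε J), f ⟨x, hG hx⟩ = 0 := by
  intro x hx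
  have h2 : GT ε J ≤ (hf'.ker).map G.subtype := by
    rw [GT, Subgroup.closure_le]
    rintro _ ⟨v, c, hv, hc, rfl⟩
    exact ⟨tg hG hv hc, mautner_all hst hF hG hGF hf' hr hr1 hu0 hu h hv c hc, rfl⟩
  obtain ⟨y, hy, hyx⟩ := h2 hx
  have : y = ⟨x, hG hx⟩ := Subtype.ext hyx
  rw [← this]
  exact hy

end mautner

section hm

/-- There is an isotropic vector whose images are unbounded. -/
theorem exists_unbdd [ProperSpace D] (hF : Frm ε J)
    (hE : IsClosedEmbedding fun g : G => g.1.1) (U : Ultrafilter G)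
    (hU : (U : Filter G) ≤ cocompact G) :
    ∃ v, hf J v v = 0 ∧ Tendsto (fun b : G => ‖v ᵥ* ((b.1)⁻¹).1‖) U atTop := by
  by_contra hcon
  push Not at hcon
  have h1 : ∀ v, hf J v v = 0 → ∃ R : ℝ, ∀ᶠ b : G in U, ‖v ᵥ* ((b.1)⁻¹).1‖ ≤ R := by
    intro v hv
    have h2 := hcon v hv
    rw [tendsto_atTop] at h2
    push Not at h2
    obtain ⟨R, hR⟩ := h2
    refine ⟨R, ?_⟩
    exact hR.mono fun b hb => hb.le
  have h2 : ∀ y : n → D, ∃ R : ℝ, ∀ᶠ b : G in U, ‖y ᵥ* ((b.1)⁻¹).1‖ ≤ R := by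
    intro y
    obtain ⟨a, b, c, ha, hb, hc, rfl⟩ := hF.iso_decomp y
    obtain ⟨Ra, hRa⟩ := h1 a ha
    obtain ⟨Rb, hRb⟩ := h1 b hb
    obtain ⟨Rc, hRc⟩ := h1 c hc
    refine ⟨Ra + Rb + Rc, ?_⟩
    filter_upwards [hRa, hRb, hRc] with x h1 h2 h3
    rw [add_vecMul, add_vecMul]
    exact (norm_add₃_le).trans (by linarith)
  choose R hR using h2
  have h3 : ∀ᶠ b : G in U, ∀ i : n, ‖(b⁻¹).1.1 i‖ ≤ ∑ i : n, |R (Pi.single i 1)| := by
    rw [eventually_all]
    intro i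
    filter_upwards [hR (Pi.single i 1)] with b hb
    have e : (Pi.single i (1 : D) : n → D) ᵥ* ((b.1)⁻¹).1 = (b⁻¹).1.1 i := by
      rw [single_one_vecMul]
      rfl
    rw [e] at hb
    refine hb.trans ((le_abs_self _).trans ?_)
    exact Finset.single_le_sum (f := fun i : n => |R (Pi.single i 1)|) (fun _ _ => abs_nonneg _)
      (Finset.mem_univ i)
  have h0 : IsCompact {A : Matrix n n D | ∀ i j, ‖A i j‖ ≤ ∑ i : n, |R (Pi.single i 1)|} := by
    have e : {A : Matrix n n D | ∀ i j, ‖A i j‖ ≤ ∑ i : n, |R (Pi.single i 1)|} =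
        Set.pi Set.univ (fun _ : n => Set.pi Set.univ fun _ : n =>
          Metric.closedBall (0 : D) (∑ i : n, |R (Pi.single i 1)|)) := by
      ext A
      constructor
      · intro h i _ j _
        exact mem_closedBall_zero_iff.2 (h i j)
      · intro h i j
        exact mem_closedBall_zero_iff.1 (h i trivial j trivial)
    rw [e]
    exact isCompact_univ_pi fun _ => isCompact_univ_pi fun _ => isCompact_closedBall _ _
  have h4 : IsCompact {b : G | ∀ i j, ‖(b⁻¹).1.1 i j‖ ≤ ∑ i : n, |R (Pi.single i 1)|} := by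
    have h5 := (hE.isCompact_preimage h0).inv
    exact h5
  have h5 := hU h4.compl_mem_cocompact
  obtain ⟨b, hb1, hb2⟩ := (h3.and h5).exists
  exact hb2 fun i j => (norm_le_pi_norm _ j).trans (hb1 i)

/-- A vector divided by a coordinate of maximal norm. -/
theorem exists_scalar [Nonempty n] (y : n → D) : ∃ a : D, ‖a‖ = ‖y‖ := by
  obtain ⟨j, -, hj⟩ := Finset.exists_max_image Finset.univ (fun i => ‖y i‖) Finset.univ_nonempty
  refine ⟨y j, le_antisymm (norm_le_pi_norm y j) ?_⟩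
  exact (pi_norm_le_iff_of_nonneg (norm_nonneg _)).2 fun i => hj i (Finset.mem_univ i)

/-- **[CLASS-H] U1**: the group form of Howe–Moore. -/
theorem hmg_GT [ProperSpace D] (hst : ∀ x : D, ‖star x‖ = ‖x‖) (hbig : ∃ r : D, Cs r ∧ 1 < ‖r‖)
    (hF : Frm ε J) (hE : IsClosedEmbedding fun g : GT ε J => g.1.1) : HMG (GT ε J) := by
  intro U hU f hf' hc
  obtain ⟨r, hr, hr1⟩ := hbig
  have hstc := continuous_star_of hst
  have hGF : GT ε J ≤ FG J := GT_le hF
  obtain ⟨v, hv, hvt⟩ := exists_unbdd hF hE U hU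
  haveI : Nonempty n := by
    by_contra hn
    rw [not_nonempty_iff] at hn
    obtain ⟨u, hu, -⟩ := hF.iso
    exact hu (Subsingleton.elim _ _)
  choose a ha using fun b : GT ε J => exists_scalar (v ᵥ* ((b.1)⁻¹).1)
  have hat : Tendsto (fun b => ‖a b‖) U atTop := hvt.congr fun b => (ha b).symm
  set u : GT ε J → n → D := fun b => (a b)⁻¹ • (v ᵥ* ((b.1)⁻¹).1) with hu
  have hui : ∀ b, hf J (u b) (u b) = 0 := fun b =>
    iso_smul (iso_vecMul (inv_mem (hGF b.2)) hv) _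
  have hun : ∀ b, ‖u b‖ ≤ 1 := fun b => by
    rw [hu]
    simp only
    rw [norm_smul, norm_inv, ha]
    exact inv_mul_le_one
  obtain ⟨u₀, -, hu₀⟩ := (isCompact_closedBall (0 : n → D) 1).ultrafilter_le_nhds (U.map u)
    (Filter.tendsto_principal.2 (Filter.Eventually.of_forall fun b =>
      mem_closedBall_zero_iff.2 (hun b)))
  have hu₀ : Tendsto u U (𝓝 u₀) := hu₀
  have ha0 : ∀ᶠ b in (U : Filter (GT ε J)), a b ≠ 0 := by
    filter_upwards [hat.eventually_gt_atTop 0] with b hb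
    exact norm_pos_iff.1 hb
  have hu₀1 : ‖u₀‖ = 1 := by
    refine tendsto_nhds_unique hu₀.norm (tendsto_const_nhds.congr' ?_)
    filter_upwards [ha0] with b hb
    rw [hu]
    simp only
    rw [norm_smul, norm_inv, ← ha, inv_mul_cancel₀ (norm_ne_zero_iff.2 hb)]
  have hu₀0 : u₀ ≠ 0 := by
    rintro rfl
    rw [norm_zero] at hu₀1
    exact zero_ne_one hu₀1
  have hu₀i : hf J u₀ u₀ = 0 := by
    have h1 := ((continuous_hf (J := J) hstc).tendsto (u₀, u₀)).comp (hu₀.prodMk_nhds hu₀)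
    refine tendsto_nhds_unique h1 (tendsto_const_nhds.congr fun b => ?_)
    exact (hui b).symm
  have hat0 : Tendsto (fun b => (a b)⁻¹ • v) U (𝓝 0) := by
    have h1 : Tendsto (fun b => (a b)⁻¹) U (𝓝 0) := by
      rw [tendsto_zero_iff_norm_tendsto_zero]
      simp only [norm_inv]
      exact tendsto_inv_atTop_zero.comp hat
    have h2 := h1.smul_const v
    rwa [zero_smul] at h2
  have key := mautner_GT hst hF le_rfl hGF hf' hr hr1 hu₀0 hu₀i fun c hcc =>
    hc _ ⟨fun b => tg le_rfl (hui b) hcc, ?_, ?_⟩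
  · exact fun g => key g.1 g.2
  · exact tendsto_tg hstc le_rfl hui (fun _ => hcc) hu₀i hcc hu₀ tendsto_const_nhds
  · have hz : hf J (0 : n → D) 0 = 0 := hf_zero_left J 0
    have h1 := tendsto_tg hstc (le_rfl : GT ε J ≤ GT ε J) (fun b => iso_smul hv (a b)⁻¹)
      (fun _ => hcc) hz hcc hat0 tendsto_const_nhds
    have e1 : tg (le_rfl : GT ε J ≤ GT ε J) hz hcc = 1 := Subtype.ext (tv_vec_zero c)
    rw [e1] at h1
    refine h1.congr fun b => ?_
    refine Subtype.ext ?_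
    change tv J _ c = (b.1)⁻¹ * tv J (u b) c * b.1
    rw [conj_tv (hGF b.2) (hui b)]
    congr 1
    rw [hu]
    simp only
    rw [smul_vecMul, vecMul_inv_cancel]

end hm

end Vale.Agent.P092.H183.DV
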