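import Vale.Agent.P092.H183.Mod
import Vale.Agent.P092.H183.StP
import Vale.Agent.P092.H15.Sp
import Vale.Agent.P092.QC.Erg
import Vale.Agent.P092.H632.VolG

/-!
P092, project B (helper183): the instances of `BFac` and of the volume bound for the classical groups
over non-archimedean local fields.
-/

set_option linter.all false

open Matrix Filter Topology

namespace Vale.Agent.P092.H183

open Vale.Agent.P092.H714.Cl
open Vale.Agent.P092.H303 (FormGroup hyp Idx)
open Vale.Agent.P092.H15 (HMG)

section form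

variable {k : Type} [NontriviallyNormedField k] [IsUltrametricDist k] [ProperSpace k]
  {n : Type} [Fintype n] [DecidableEq n] {σ : k →+* k} {ε : k} {J : Matrix n n k}

theorem clG_form (hσ : ∀ x, ‖σ x‖ = ‖x‖) (hF : Frm σ ε J) (hGT : FormGroup σ J = GT σ ε J) :
    Cl.ClG σ ε J (FormGroup σ J) :=
  ⟨hσ, hF, hGT.ge, le_rfl,
    H303.isClosed_formGroup (AddMonoidHomClass.isometry_of_norm σ hσ).continuous _⟩

theorem hmg_form (hσ : ∀ x, ‖σ x‖ = ‖x‖) (hF : Frm σ ε J) (hGT : FormGroup σ J = GT σ ε J) :
    HMG (FormGroup σ J) := by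
  have C := clG_form hσ hF hGT
  exact H15.hmg_cl hσ hF hGT.ge le_rfl C.hGc
    (hGT.le.trans (Subgroup.le_topologicalClosure _))

/-- The volume bound in the letters of `QC.Td`. -/
theorem td_form (hσ : ∀ x, ‖σ x‖ = ‖x‖) (hF : Frm σ ε J) (hGT : FormGroup σ J = GT σ ε J) :
    QC.Td (FormGroup σ J) where
  basis := fun _ hV => (clG_form hσ hF hGT).basisG hV
  proper := fun W hW hne => H678.ClC.isCompact_of_hmg (hmg_form hσ hF hGT) W hW hne
  vol := by
    obtain ⟨K, h1, h2, h3⟩ := Vol.bvol_form hσ hF hGT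
    exact ⟨K, h1, h2, fun U W hU hW hWc hUW hUK => h3 W U hW hWc hU hUW hUK⟩

end form

section hyp

variable {ι : Type} [Fintype ι] [DecidableEq ι] {k : Type} [NontriviallyNormedField k]
  [IsUltrametricDist k] [ProperSpace k] {σ : k →+* k} {ε : k} {J₀ : Matrix ι ι k} {q : ℕ}

/-- **The group of a form of Witt index `q ≥ 2` is a factor of project B**, if it is generated by
transvections. -/
theorem bfac_form (hσ : ∀ x, ‖σ x‖ = ‖x‖) (hinv : ∀ x, σ (σ x) = x) (heps : ε * ε = 1)
    (hseps : σ ε = ε) (h0 : Frm0 σ ε J₀) (hcc : ∃ c : k, c ≠ 0 ∧ c + ε * σ c = 0) (hq : 2 ≤ q)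
    (hJ : ∀ v : ι → k, v ≠ 0 → v ⬝ᵥ (J₀ *ᵥ fun l => σ (v l)) ≠ 0)
    (hG : FormGroup σ (hyp q ε J₀) = GT σ ε (hyp q ε J₀)) :
    BFac (FormGroup σ (hyp q ε J₀)) q := by
  have hF : Frm σ ε (hyp q ε J₀) := frm_hyp hinv heps hseps h0 hcc (by omega)
  have C := clG_form hσ hF hG
  have hk : H933.LocK k := H933.LocK.ultra inferInstance
  exact
  { top := inferInstance
    t2 := C.t2G
    lc := C.lcG
    sc := C.scG
    basis := fun _ hV => C.basisG hV
    cfin := C.finC.to_subtype
    good := H678.ClC.good_cl C hG.le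
    cent := C.cent0
    hm := hmg_form hσ hF hG
    pos := by omega
    chn := by
      obtain ⟨q, rfl⟩ := Nat.exists_eq_add_of_le' hq
      exact chn_form hσ hinv heps hseps
    tgt := H515.tgt_formGroup hk hσ hinv hF.eps_ne hJ }

end hyp

/-- The volume bound for `SL_n`. -/
theorem bvol_sl {k : Type} [NontriviallyNormedField k] [IsUltrametricDist k] [ProperSpace k]
    {n : ℕ} (hn : 2 ≤ n) : BVol (Matrix.SpecialLinearGroup (Fin n) k) :=
  ⟨H632.int n k, H632.isOpen_int, H632.isCompact_int,
    fun _ _ hW hWc hU hUW hUi => H632.relIndex_le hn hU hW hWc hUW hUi⟩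

/-- **Every group of the class is a factor of project B, with the volume bound.** -/
theorem pcls_bfac {G : Type} [hG : Group G] [hT : TopologicalSpace G] (h : St.PCls G) :
    ∃ r, BFac G r ∧ BVol G := by
  cases h with
  | sl k n hn =>
    obtain ⟨m, rfl⟩ := Nat.exists_eq_add_of_le' (show 1 ≤ n by omega)
    exact ⟨m, bfac_sl (by omega), bvol_sl hn⟩
  | isom k σ hσ hn ε hε hσε ι J₀ hH hJ hu q hq G hG =>
    obtain rfl : G = FormGroup σ (hyp q ε J₀) := by
      ext g
      rw [hG]
      rfl
    by_cases hne : ∃ c, σ c ≠ c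
    · -- unitary
      have h0 := frm0_of_aniso hσ hε hne hH hσε hJ
      have hcc := cc_of_ne hσ hε hσε hne
      have hF : Frm σ ε (hyp q ε J₀) := frm_hyp hσ hε hσε h0 hcc (by omega)
      obtain ⟨r, hr, hr1⟩ := exists_fix hF hn
      have hr0 : r ≠ 0 := by
        rintro rfl
        rw [norm_zero] at hr1
        linarith
      have hr1' : r ≠ 1 := by
        rintro rfl
        rw [norm_one] at hr1
        linarith
      have hGT := formGroup_eq_GT hF hne hr hr0 hr1'
      exact ⟨q, bfac_form hn hσ hε hσε h0 hcc hq hJ hGT, Vol.bvol_form hn hF hGT⟩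
    · -- symplectic
      obtain ⟨rfl, hι⟩ := hu.resolve_left hne
      push Not at hne
      obtain rfl : σ = RingHom.id k := RingHom.ext hne
      have hcc : ∃ c : k, c ≠ 0 ∧ c + -1 * (RingHom.id k) c = 0 :=
        ⟨1, one_ne_zero, by simp⟩
      have h0 : Frm0 (RingHom.id k) (-1) J₀ := frm0_empty
      have hF : Frm (RingHom.id k) (-1) (hyp q (-1) J₀) :=
        frm_hyp hσ hε hσε h0 hcc (by omega)
      have hGT : FormGroup (RingHom.id k) (hyp q (-1) J₀) =
          GT (RingHom.id k) (-1) (hyp q (-1) J₀) := by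
        refine H15.formGroup_eq_GT ⟨?_, ?_, ?_⟩
        · intro i
          rcases i with (i | i) | i
          · simp [hyp]
          · simp [hyp]
          · exact (hι.false i).elim
        · intro i j
          rcases i with (i | i) | i <;> rcases j with (j | j) | j <;>
            first
              | exact (hι.false i).elim
              | exact (hι.false j).elim
              | simp [hyp, Matrix.one_apply, eq_comm]
        · intro h
          obtain ⟨v, hv0, hv⟩ := Matrix.exists_vecMul_eq_zero_iff.2 h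
          obtain ⟨y, hy⟩ := hF.nondeg v hv0
          apply hy
          unfold hf
          rw [dotProduct_mulVec, hv, zero_dotProduct]
      exact ⟨q, bfac_form hn hσ hε hσε h0 hcc hq hJ hGT, Vol.bvol_form hn hF hGT⟩

end Vale.Agent.P092.H183
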