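import Vale.Agent.P092.H971.GF2
import Vale.Agent.P092.H714.Cl4
import Vale.Agent.P092.PA.Fac

/-!
P092, block B-CLASS (helper183), part 1: topology of closed subgroups of `SL_n(k)`, and of the groups
between the group generated by the transvections of a hermitian form and the isometry group.
-/

set_option linter.all false

namespace Vale.Agent.P092.H183.Cl

open Matrix Matrix.SpecialLinearGroup Topology Filter
open Vale.Agent.P092.H971 Vale.Agent.P092.H933

section sl

variable {k : Type} [NontriviallyNormedField k] {n : Type} [Fintype n] [DecidableEq n]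

theorem t2_SL : T2Space (SpecialLinearGroup n k) :=
  (isClosedEmbedding_val (n := n) (R := k)).isEmbedding.t2Space

theorem lc_SL [ProperSpace k] : LocallyCompactSpace (SpecialLinearGroup n k) := by
  haveI : LocallyCompactSpace (Matrix n n k) := inferInstanceAs (LocallyCompactSpace (n → n → k))
  exact (isClosedEmbedding_val (n := n) (R := k)).locallyCompactSpace

theorem sc_SL [ProperSpace k] : SecondCountableTopology (SpecialLinearGroup n k) := by
  haveI : SecondCountableTopology (Matrix n n k) :=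
    inferInstanceAs (SecondCountableTopology (n → n → k))
  exact (isClosedEmbedding_val (n := n) (R := k)).isEmbedding.secondCountableTopology

/-- The bounded elements form a compact set. -/
theorem isCompact_bdd [ProperSpace k] (R : ℝ) :
    IsCompact {g : SpecialLinearGroup n k | ∀ i j, ‖g.1 i j‖ ≤ R} := by
  have h1 : IsCompact {f : Matrix n n k | ∀ i j, ‖f i j‖ ≤ R} := by
    have : {f : Matrix n n k | ∀ i j, ‖f i j‖ ≤ R} =
        Set.pi Set.univ (fun _ : n => Set.pi Set.univ fun _ : n => Metric.closedBall (0 : k) R) := by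
      ext f
      constructor
      · intro h i _ j _
        exact mem_closedBall_zero_iff.2 (h i j)
      · intro h i j
        exact mem_closedBall_zero_iff.1 (h i trivial j trivial)
    rw [this]
    exact isCompact_univ_pi fun _ => isCompact_univ_pi fun _ => isCompact_closedBall _ _
  exact (isClosedEmbedding_val (n := n) (R := k)).isCompact_preimage h1

theorem near.bdd [IsUltrametricDist k] {ε : ℝ} (h1 : ε ≤ 1) {g : SpecialLinearGroup n k}
    (h : near ε g) (i j : n) : ‖g.1 i j‖ ≤ 1 := by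
  have h2 : (g : Matrix n n k) i j =
      ((g : Matrix n n k) i j - (1 : Matrix n n k) i j) + (1 : Matrix n n k) i j := by ring
  rw [h2]
  refine (IsUltrametricDist.norm_add_le_max _ _).trans (max_le ((h i j).trans h1) ?_)
  rw [Matrix.one_apply]; split_ifs <;> simp

theorem near.mul [IsUltrametricDist k] {ε : ℝ} (h0 : 0 ≤ ε) (h1 : ε ≤ 1)
    {g h : SpecialLinearGroup n k} (hg : near ε g) (hh : near ε h) : near ε (g * h) := fun i j => by
  have h2 : ((g * h : SpecialLinearGroup n k) : Matrix n n k) i j - (1 : Matrix n n k) i j =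
      ((g : Matrix n n k) * ((h : Matrix n n k) - 1)) i j +
        ((g : Matrix n n k) i j - (1 : Matrix n n k) i j) := by
    rw [coe_mul, Matrix.mul_sub, Matrix.mul_one, Matrix.sub_apply]; ring
  rw [h2]
  refine (IsUltrametricDist.norm_add_le_max _ _).trans (max_le ?_ (hg i j))
  have := mul_entry_le' zero_le_one h0 (near.bdd h1 hg)
    (B := (h : Matrix n n k) - 1) (fun a b => by rw [Matrix.sub_apply]; exact hh a b) i j
  rwa [one_mul] at this

/-- The congruence subgroup. -/
def cong (n k : Type) [Fintype n] [DecidableEq n] [NontriviallyNormedField k]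
    [IsUltrametricDist k] (ε : ℝ) (h0 : 0 ≤ ε) (h1 : ε ≤ 1) :
    Subgroup (SpecialLinearGroup n k) where
  carrier := {g | near ε g ∧ near ε g⁻¹}
  one_mem' := by
    have : near ε (1 : SpecialLinearGroup n k) := fun i j => by simp [h0]
    exact ⟨this, by rw [inv_one]; exact this⟩
  mul_mem' := fun {x y} hx hy =>
    ⟨near.mul h0 h1 hx.1 hy.1, by rw [_root_.mul_inv_rev]; exact near.mul h0 h1 hy.2 hx.2⟩
  inv_mem' := fun {x} hx => ⟨hx.2, by rw [inv_inv]; exact hx.1⟩

theorem isOpen_cong [IsUltrametricDist k] {ε : ℝ} (h0 : 0 < ε) (h1 : ε ≤ 1) :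
    IsOpen (cong n k ε h0.le h1 : Set (SpecialLinearGroup n k)) := by
  have hn : {g : SpecialLinearGroup n k | near ε g} ∈ 𝓝 (1 : SpecialLinearGroup n k) :=
    mem_nhds_of_near h0 fun g hg => hg
  have hi : {g : SpecialLinearGroup n k | near ε g⁻¹} ∈ 𝓝 (1 : SpecialLinearGroup n k) := by
    have hc : Filter.Tendsto (fun g : SpecialLinearGroup n k => g⁻¹) (𝓝 1) (𝓝 1) := by
      have := (continuous_inv (G := SpecialLinearGroup n k)).tendsto 1
      rwa [inv_one] at this
    exact hc hn
  exact Subgroup.isOpen_of_mem_nhds _ (g := 1) (Filter.inter_mem hn hi)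

/-- Compact open subgroups form a basis of neighbourhoods of `1`. -/
theorem exists_cos [IsUltrametricDist k] [ProperSpace k] {W : Set (SpecialLinearGroup n k)}
    (hW : W ∈ 𝓝 (1 : SpecialLinearGroup n k)) : ∃ K : Subgroup (SpecialLinearGroup n k),
      IsOpen (K : Set (SpecialLinearGroup n k)) ∧ IsCompact (K : Set (SpecialLinearGroup n k)) ∧
        (K : Set (SpecialLinearGroup n k)) ⊆ W := by
  obtain ⟨ε, h0, h1, hn⟩ := exists_near hW
  refine ⟨cong n k ε h0.le h1, isOpen_cong h0 h1, ?_, fun g hg => hn g hg.1⟩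
  exact (isCompact_bdd 1).of_isClosed_subset (Subgroup.isClosed_of_isOpen _ (isOpen_cong h0 h1))
    fun g hg i j => near.bdd h1 hg.1 i j

end sl

/-! ### Closed subgroups -/

section sub

variable {S : Type} [Group S] [TopologicalSpace S] [IsTopologicalGroup S]

/-- A closed subgroup inherits a basis of compact open subgroups. -/
theorem exists_cos_sub
    (hb : ∀ W ∈ 𝓝 (1 : S), ∃ K : Subgroup S, IsOpen (K : Set S) ∧ IsCompact (K : Set S) ∧
      (K : Set S) ⊆ W) {G : Subgroup S} (hG : IsClosed (G : Set S)) {W : Set G}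
    (hW : W ∈ 𝓝 (1 : G)) : ∃ K : Subgroup G, IsOpen (K : Set G) ∧ IsCompact (K : Set G) ∧
      (K : Set G) ⊆ W := by
  rw [nhds_subtype_eq_comap] at hW
  obtain ⟨V, hV, hVW⟩ := hW
  obtain ⟨K, hK, hKc, hKV⟩ := hb V hV
  have he : IsClosedEmbedding (Subtype.val : G → S) := hG.isClosedEmbedding_subtypeVal
  refine ⟨K.subgroupOf G, ?_, ?_, ?_⟩
  · exact hK.preimage continuous_subtype_val
  · exact he.isCompact_preimage hKc
  · exact fun x hx => hVW (hKV hx)

end sub

/-! ### Quotients by a compact normal subgroup -/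

section quot

variable {S : Type} [Group S] [TopologicalSpace S] [IsTopologicalGroup S] (Z : Subgroup S)
  [Z.Normal]

/-- The quotient inherits a basis of compact open subgroups. -/
theorem basis_quot
    (hb : ∀ W ∈ 𝓝 (1 : S), ∃ K : Subgroup S, IsOpen (K : Set S) ∧ IsCompact (K : Set S) ∧
      (K : Set S) ⊆ W) (U : Set (S ⧸ Z)) (hU : IsOpen U) (h1 : (1 : S ⧸ Z) ∈ U) :
    ∃ K : Subgroup (S ⧸ Z), (IsCompact (K : Set (S ⧸ Z)) ∧ IsOpen (K : Set (S ⧸ Z))) ∧
      (K : Set (S ⧸ Z)) ⊆ U := by
  obtain ⟨K, hK, hKc, hKU⟩ := hb ((QuotientGroup.mk' Z) ⁻¹' U)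
    ((hU.preimage QuotientGroup.continuous_mk).mem_nhds (by
      show QuotientGroup.mk' Z 1 ∈ U
      rwa [map_one]))
  refine ⟨K.map (QuotientGroup.mk' Z), ⟨?_, ?_⟩, ?_⟩
  · exact hKc.image QuotientGroup.continuous_mk
  · exact QuotientGroup.isOpenMap_coe _ hK
  · rintro _ ⟨x, hx, rfl⟩; exact hKU hx

/-- An element with unbounded powers stays unbounded modulo a compact normal subgroup. -/
theorem hyp_quot (hZ : IsCompact (Z : Set S)) {g : S}
    (hg : ∀ C : Set S, IsCompact C → ∃ m : ℕ, g ^ m ∉ C) :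
    ∀ C : Set (S ⧸ Z), IsCompact C → ∃ m : ℕ, (QuotientGroup.mk' Z g) ^ m ∉ C := by
  intro C hC
  obtain ⟨m, hm⟩ := hg _ (PA.isCompact_preimage_mk Z hZ hC)
  refine ⟨m, fun h => hm ?_⟩
  show (QuotientGroup.mk (g ^ m) : S ⧸ Z) ∈ C
  rw [← map_pow] at h
  exact h

/-- Recurrence from a function which is scaled by a conjugation. -/
theorem rec_of_scale {H : Type} [Group H] [TopologicalSpace H] {z h : H} {f : H → ℝ} {q : ℝ}
    (hf : Continuous f) (hq : 1 < q) (hx : ∀ x, f (h * x * h⁻¹) = q * f x) (h0 : 0 < f z) :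
    ∃ E ∈ 𝓝 z, ∃ a : ℕ → H, Pairwise fun i j =>
      Disjoint ((fun y => a i * y * (a i)⁻¹) '' E) ((fun y => a j * y * (a j)⁻¹) '' E) := by
  have hq0 : 0 < q := lt_trans zero_lt_one hq
  have hs : 0 < Real.sqrt q := Real.sqrt_pos.2 hq0
  have hss : Real.sqrt q * Real.sqrt q = q := Real.mul_self_sqrt hq0.le
  have hs1 : 1 < Real.sqrt q := by
    rw [← Real.sqrt_one]; exact Real.sqrt_lt_sqrt zero_le_one hq
  have hpow : ∀ (m : ℕ) x, f (h ^ m * x * (h ^ m)⁻¹) = q ^ m * f x := by
    intro m
    induction m with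
    | zero => intro x; simp
    | succ m ih =>
      intro x
      have : h ^ (m + 1) * x * (h ^ (m + 1))⁻¹ = h * (h ^ m * x * (h ^ m)⁻¹) * h⁻¹ := by
        rw [pow_succ']; group
      rw [this, hx, ih, pow_succ']; ring
  refine ⟨f ⁻¹' (Set.Ioo (f z / Real.sqrt q) (f z * Real.sqrt q)),
    (isOpen_Ioo.preimage hf).mem_nhds ⟨?_, ?_⟩, fun m => h ^ m, ?_⟩
  · rw [div_lt_iff₀ hs]; nlinarith
  · nlinarith
  · have key : ∀ i j : ℕ, i < j → ∀ x y : H,
        x ∈ f ⁻¹' (Set.Ioo (f z / Real.sqrt q) (f z * Real.sqrt q)) →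
        y ∈ f ⁻¹' (Set.Ioo (f z / Real.sqrt q) (f z * Real.sqrt q)) →
        q ^ i * f x < q ^ j * f y := by
      intro i j hij x y hx hy
      have h1 : f x < f z * Real.sqrt q := hx.2
      have h2 : f z < f y * Real.sqrt q := (div_lt_iff₀ hs).1 hy.1
      have h3 : f x < q * f y := by
        calc f x < f z * Real.sqrt q := h1
          _ < (f y * Real.sqrt q) * Real.sqrt q := mul_lt_mul_of_pos_right h2 hs
          _ = q * f y := by rw [mul_assoc, hss, mul_comm]
      have h4 : 0 < f y := by nlinarith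
      have h5 : q ^ (i + 1) ≤ q ^ j := pow_le_pow_right₀ hq.le hij
      calc q ^ i * f x < q ^ i * (q * f y) := mul_lt_mul_of_pos_left h3 (pow_pos hq0 i)
        _ = q ^ (i + 1) * f y := by ring
        _ ≤ q ^ j * f y := mul_le_mul_of_nonneg_right h5 h4.le
    intro i j hij
    rw [Set.disjoint_left]
    rintro _ ⟨x, hx', rfl⟩ ⟨y, hy', hxy⟩
    have h1 : q ^ j * f y = q ^ i * f x := by
      rw [← hpow, ← hpow]; exact congrArg f hxy
    rcases lt_or_gt_of_ne hij with h2 | h2
    · exact absurd h1 (key i j h2 x y hx' hy').ne'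
    · exact absurd h1 (key j i h2 y x hy' hx').ne

/-- The same for a function on the group which is invariant under the normal subgroup. -/
theorem rec_quot {z h : S} {f : S → ℝ} {q : ℝ}
    (hf : Continuous f) (hq : 1 < q) (hx : ∀ x, f (h * x * h⁻¹) = q * f x) (h0 : 0 < f z)
    (hZf : ∀ x, ∀ y ∈ Z, f (x * y) = f x) :
    ∃ E ∈ 𝓝 (QuotientGroup.mk' Z z), ∃ a : ℕ → S ⧸ Z, Pairwise fun i j =>
      Disjoint ((fun y => a i * y * (a i)⁻¹) '' E) ((fun y => a j * y * (a j)⁻¹) '' E) := by
  let F : S ⧸ Z → ℝ := Quotient.lift f (fun a b hab => by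
    have h1 := QuotientGroup.leftRel_apply.1 hab
    have h2 := hZf a _ h1
    rw [mul_inv_cancel_left] at h2
    exact h2.symm)
  have hF : Continuous F := hf.quotient_lift _
  refine rec_of_scale (h := QuotientGroup.mk' Z h) (f := F) (q := q) hF hq (fun x => ?_) h0
  induction x using QuotientGroup.induction_on with
  | H s =>
    show f (h * s * h⁻¹) = q * f s
    exact hx s

end quot

end Vale.Agent.P092.H183.Cl
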