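import Vale.Agent.P092.H15.HMSl
import Vale.Agent.P092.H971.PSL
import Vale.Agent.P092.H103.Bfin
import Vale.Agent.P092.H183.Cl1
import Vale.Agent.P092.H971.GF2

/-!
P092, project B (helper183): everything that the final assembly uses about one factor, as one
structure `BFac`, and the instance `SL_n(k)`.
-/

set_option linter.all false

open scoped InnerProductSpace
open Filter Topology

namespace Vale.Agent.P092.H183

open Vale.Agent.P092.SR Vale.Agent.P092.H15

/-- `G` has a chain of commuting directions of length `r`, the first one tending to infinity. -/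
def Chn (G : Type) [Group G] [TopologicalSpace G] (r : ℕ) : Prop :=
  letI : MeasurableSpace G := borel G
  ∃ C : H701.HChain G r, ∀ hr : 0 < r, Tendsto (C.b ⟨0, hr⟩) atTop (cocompact G)

/-- The facts about one factor of project B (`G` is the group itself, not the adjoint group). -/
structure BFac (G : Type) [Group G] [TopologicalSpace G] (r : ℕ) : Prop where
  top : IsTopologicalGroup G
  t2 : T2Space G
  lc : LocallyCompactSpace G
  sc : SecondCountableTopology G
  basis : H103.CptOpenBasis G
  cfin : Finite (Subgroup.center G)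
  good : GoodGrp (G ⧸ Subgroup.center G)
  cent : ∀ g : G, ((Subgroup.centralizer {g} : Subgroup G) : Set G) ∈ 𝓝 1 → g ∈ Subgroup.center G
  hm : HMG G
  pos : 0 < r
  chn : Chn G r
  tgt : H515.Tgt G r

/-- A compact open subgroup of maximal volume. -/
def BVol (G : Type) [Group G] [TopologicalSpace G] : Prop :=
  ∃ Θ : Subgroup G, IsOpen (Θ : Set G) ∧ IsCompact (Θ : Set G) ∧
    ∀ K U : Subgroup G, IsOpen (K : Set G) → IsCompact (K : Set G) → IsOpen (U : Set G) →
      U ≤ K → U ≤ Θ → U.relIndex K ≤ U.relIndex Θ

/-- Howe–Moore in the form used by the analysis. -/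
theorem wfix_of_hmg {G : Type} [Group G] [TopologicalSpace G] [IsTopologicalGroup G] (h : HMG G) :
    H103.WFix G := by
  intro 𝓗 _ _ _ σ hσ b hb ξ
  refine ⟨(H933.fixedSub σ).starProjection ξ, fun s => ?_, fun η => ?_⟩
  · exact (Submodule.starProjection_apply_mem (H933.fixedSub σ) ξ) s
  · have h1 := h.tendsto_proj hσ hb (tendsto_const_nhds (x := ξ)) (tendsto_const_nhds (x := η))
    have h2 := (Complex.continuous_conj.tendsto _).comp h1
    rw [inner_conj_symm] at h2
    refine h2.congr fun i => ?_
    exact inner_conj_symm _ _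

namespace BFac

variable {G : Type} [Group G] [TopologicalSpace G] {r : ℕ} (h : BFac G r)

include h

theorem wfix : H103.WFix G := by
  haveI := h.top
  exact wfix_of_hmg h.hm

theorem compC : IsCompact (Subgroup.center G : Set G) := by
  haveI := h.cfin
  exact (Set.toFinite _).isCompact

theorem cent' (g : G) (W : Set G) (hW : W ∈ 𝓝 (1 : G)) (hg : ∀ x ∈ W, g * x = x * g) :
    g ∈ Subgroup.center G := by
  refine h.cent g (mem_of_superset hW fun x hx => ?_)
  rw [SetLike.mem_coe, Subgroup.mem_centralizer_iff]
  intro y hy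
  rw [Set.mem_singleton_iff] at hy
  subst hy
  exact hg x hx

theorem cent_open (g : G) (ho : IsOpen ((Subgroup.centralizer {g} : Subgroup G) : Set G)) :
    g ∈ Subgroup.center G := h.cent g (ho.mem_nhds (Subgroup.one_mem _))

theorem basis_one : ∃ K : Subgroup G, IsOpen (K : Set G) ∧ IsCompact (K : Set G) := by
  obtain ⟨K, h1, h2, -⟩ := h.basis Set.univ univ_mem
  exact ⟨K, h1, h2⟩

end BFac

/-! ### The special linear group -/

section sl

variable {k : Type} [NontriviallyNormedField k] [IsUltrametricDist k] [ProperSpace k]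

theorem chn_sl (k : Type) [NontriviallyNormedField k] [ProperSpace k] (n : ℕ) :
    Chn (Matrix.SpecialLinearGroup (Fin (n + 1)) k) n := by
  let _ : MeasurableSpace (Matrix.SpecialLinearGroup (Fin (n + 1)) k) := borel _
  have _ : BorelSpace (Matrix.SpecialLinearGroup (Fin (n + 1)) k) := ⟨rfl⟩
  exact ⟨H701.slChain k n, fun hn => H655.tendsto_slChain k n ⟨0, hn⟩⟩

/-- `SL_{n+1}(k)` is a factor of project B. -/
theorem bfac_sl {n : ℕ} (hn : 1 ≤ n) : BFac (Matrix.SpecialLinearGroup (Fin (n + 1)) k) n where
  top := inferInstance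
  t2 := Cl.t2_SL
  lc := Cl.lc_SL
  sc := Cl.sc_SL
  basis := H103.cptOpen_sl
  cfin := by
    exact H971.finite_center.to_subtype
  good := H971.good_psl (by omega)
  cent := by
    intro g hg
    exact H971.mem_center_of_isOpen_centralizer (Subgroup.isOpen_of_mem_nhds _ hg)
  hm := hmg_sl (H933.LocK.ultra inferInstance) (by omega)
  pos := by omega
  chn := chn_sl k n
  tgt := H933.tgt_sl_loc (H933.LocK.ultra inferInstance) n

end sl

end Vale.Agent.P092.H183
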