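import Vale.Agent.P092.H103.QH1
import Mathlib.LinearAlgebra.FiniteDimensional.Basic
import Mathlib.LinearAlgebra.FiniteDimensional.Lemmas
import Mathlib.LinearAlgebra.FreeModule.StrongRankCondition
import Mathlib.RingTheory.Artinian.Module
import Mathlib.RingTheory.Noetherian.Orzech

/-!
P092, block CLASS-H (helper183), part U4, 1: the isometry group of an `ε`-hermitian form over a
noncommutative division ring is generated by the isometries `x ↦ x + h(x, v) a v`.
-/

set_option linter.all false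

open Matrix

namespace Vale.Agent.P092.H183.DV

open Vale.Agent.P092.H103.QH

section cd

variable {n : Type*} [Fintype n] [DecidableEq n] {D : Type*} [DivisionRing D] [StarRing D]
  {ε : D} {J : Matrix n n D}

/-- The condition that `x ↦ x + h(x, v) a v` is an isometry. -/
def QR (ε : D) (J : Matrix n n D) (v : n → D) (a : D) : Prop :=
  ε * a + star a + a * hf J v v * star a = 0

theorem tvm_mul' (v : n → D) (a b : D) :
    tvm J v a * tvm J v b = tvm J v (a + b + a * hf J v v * b) := by
  refine ext_vm fun x => ?_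
  rw [← vecMul_vecMul, vecMul_tvm, vecMul_tvm, vecMul_tvm, hf_add_left, hf_smul_left, add_assoc,
    ← add_smul]
  congr 2
  simp only [mul_add, add_mul, mul_assoc]
  abel

theorem QR.key (he : ε = 1 ∨ ε = -1) {v : n → D} {a : D} (h : QR ε J v a) :
    a + ε * star a + a * hf J v v * (ε * star a) = 0 := by
  unfold QR at h
  have h1 : ε * (ε * a + star a + a * hf J v v * star a) = 0 := by rw [h, mul_zero]
  rw [mul_add, mul_add, ← mul_assoc, eps_sq he, one_mul] at h1
  rw [← h1]
  congr 1
  rw [← mul_assoc, ← eps_comm he (a * hf J v v), mul_assoc]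

/-- The isometry as a unit. -/
noncomputable def rq (he : ε = 1 ∨ ε = -1) {v : n → D} {a : D} (h : QR ε J v a) :
    (Matrix n n D)ˣ where
  val := tvm J v a
  inv := tvm J v (ε * star a)
  val_inv := by rw [tvm_mul', h.key he, tvm_zero]
  inv_val := mul_eq_one_symm (by rw [tvm_mul', h.key he, tvm_zero])

theorem rq_val (he : ε = 1 ∨ ε = -1) {v : n → D} {a : D} (h : QR ε J v a) :
    (rq he h).1 = tvm J v a := rfl

theorem rq_mem (hF : Frm ε J) {v : n → D} {a : D} (h : QR ε J v a) : rq hF.eps h ∈ FG J := by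
  rw [mem_FG]
  intro x y
  rw [rq_val, vecMul_tvm, vecMul_tvm, hf_add_left, hf_add_right, hf_add_right, hf_smul_left,
    hf_smul_left, hf_smul_right, hf_smul_right, star_mul, hF.herm y v]
  have h1 : hf J x v * (star a * star (hf J y v)) +
      (hf J x v * a * (ε * star (hf J y v)) + hf J x v * a * (hf J v v * (star a * star (hf J y v))))
      = hf J x v * (ε * a + star a + a * hf J v v * star a) * star (hf J y v) := by
    rw [eps_comm hF.eps a]
    simp only [mul_add, add_mul, mul_assoc]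
    abel
  rw [add_assoc, h1]
  unfold QR at h
  rw [h, mul_zero, zero_mul, add_zero]

/-- If `g` moves `x` with `h(x, x g - x) ≠ 0`, it agrees at `x` with a quasi-reflection which fixes
the fixed vectors of `g`. -/
theorem exists_rq (hF : Frm ε J) {g : (Matrix n n D)ˣ} (hg : g ∈ FG J) {x : n → D}
    (hx : hf J x (x ᵥ* g.1 - x) ≠ 0) : ∃ (v : n → D) (a : D) (h : QR ε J v a),
      x ᵥ* (rq hF.eps h).1 = x ᵥ* g.1 ∧ ∀ z, z ᵥ* g.1 = z → z ᵥ* (rq hF.eps h).1 = z := by
  obtain ⟨y, hy⟩ : ∃ y, y = x ᵥ* g.1 := ⟨_, rfl⟩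
  rw [← hy] at hx
  obtain ⟨v, hv⟩ : ∃ v, v = y - x := ⟨_, rfl⟩
  rw [← hv] at hx
  obtain ⟨p, hp⟩ : ∃ p, p = hf J x v := ⟨_, rfl⟩
  rw [← hp] at hx
  have hyy : hf J y y = hf J x x := by rw [hy, mem_FG.1 hg]
  have hsub : ∀ z, hf J z v = hf J z y - hf J z x := by
    intro z
    rw [hv, sub_eq_add_neg, hf_add_right, hf_neg_right, sub_eq_add_neg]
  have hp1 : p = hf J x y - hf J x x := by rw [hp, hsub]
  have hstar : ε * star p = hf J y x - hf J x x := by
    rw [hp1, star_sub, mul_sub, ← hF.herm x y, ← hF.herm x x]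
  have hvv : hf J v v = -(p + ε * star p) := by
    have h1 : hf J v v = hf J y v - hf J x v := by
      rw [← hf_sub_left, ← hv]
    rw [h1, hstar, hsub y, hyy, ← hp]
    abel
  have hsp : star p ≠ 0 := by rwa [Ne, star_eq_zero]
  have hQ : QR ε J v p⁻¹ := by
    unfold QR
    rw [hvv, star_inv₀]
    have e1 : p⁻¹ * -(p + ε * star p) * (star p)⁻¹ = -((star p)⁻¹ + ε * p⁻¹) := by
      rw [mul_neg, neg_mul, mul_add, add_mul, inv_mul_cancel₀ hx, one_mul, ← mul_assoc,
        ← eps_comm hF.eps p⁻¹, mul_assoc, mul_inv_cancel₀ hsp, mul_one]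
    rw [e1]
    abel
  refine ⟨v, p⁻¹, hQ, ?_, fun z hz => ?_⟩
  · rw [rq_val, vecMul_tvm, ← hp, mul_inv_cancel₀ hx, one_smul, ← hy, hv]
    abel
  · have h1 : hf J z v = 0 := by
      rw [hsub, hy]
      have h2 := mem_FG.1 hg z x
      rw [hz] at h2
      rw [h2, sub_self]
    rw [rq_val, vecMul_tvm, h1, zero_mul, zero_smul, add_zero]

/-- An isometry with `h(x, x g - x) = 0` for all `x` is trivial. -/
theorem eq_one_of (hF : Frm ε J) (hnc : ∃ a b : D, a * b ≠ b * a) {g : (Matrix n n D)ˣ}
    (h : ∀ x, hf J x (x ᵥ* g.1 - x) = 0) : g = 1 := by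
  have hN : ∀ y, y ᵥ* g.1 - y = 0 := by
    intro y
    by_contra hne
    obtain ⟨x, hx⟩ := hF.nondeg _ hne
    have hx' := hF.symm_ne hx
    obtain ⟨p, hp⟩ : ∃ p, p = hf J x (y ᵥ* g.1 - y) := ⟨_, rfl⟩
    rw [← hp] at hx'
    -- polarization
    have pol : ∀ z w, hf J z (w ᵥ* g.1 - w) + hf J w (z ᵥ* g.1 - z) = 0 := by
      intro z w
      have h1 := h (z + w)
      have e : (z + w) ᵥ* g.1 - (z + w) = (z ᵥ* g.1 - z) + (w ᵥ* g.1 - w) := by
        rw [add_vecMul]; abel
      rw [e, hf_add_left, hf_add_right, hf_add_right, h z, h w, zero_add, add_zero] at h1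
      exact h1
    have h2 : hf J y (x ᵥ* g.1 - x) = -p := by
      have := pol x y
      rw [← hp] at this
      exact (neg_eq_of_add_eq_zero_right this).symm
    have h3 : ∀ a : D, p * star a = a * p := by
      intro a
      have h4 := pol x (a • y)
      have e : (a • y) ᵥ* g.1 - a • y = a • (y ᵥ* g.1 - y) := by
        rw [smul_vecMul, smul_sub]
      rw [e, hf_smul_right, hf_smul_left, ← hp, h2, mul_neg, ← sub_eq_add_neg, sub_eq_zero] at h4
      exact h4
    obtain ⟨a, b, hab⟩ := hnc
    apply hab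
    have h5 : p * star (b * a) = a * b * p := by
      rw [star_mul, ← mul_assoc, h3 a, mul_assoc, h3 b, ← mul_assoc]
    have h6 : b * a * p = a * b * p := by rw [← h3 (b * a), h5]
    exact (mul_right_cancel₀ hx' h6).symm
  refine ext_vecMul fun x => ?_
  rw [vecMul_one']
  exact sub_eq_zero.1 (hN x)

/-- The fixed vectors. -/
def Fx (g : (Matrix n n D)ˣ) : Submodule D (n → D) where
  carrier := {x | x ᵥ* g.1 = x}
  add_mem' := by
    intro x y hx hy
    show (x + y) ᵥ* g.1 = x + y
    rw [add_vecMul, show x ᵥ* g.1 = x from hx, show y ᵥ* g.1 = y from hy]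
  zero_mem' := by
    show (0 : n → D) ᵥ* g.1 = 0
    rw [zero_vecMul]
  smul_mem' := by
    intro a x hx
    show (a • x) ᵥ* g.1 = a • x
    rw [smul_vecMul, show x ᵥ* g.1 = x from hx]

theorem mem_Fx {g : (Matrix n n D)ˣ} {x : n → D} : x ∈ Fx g ↔ x ᵥ* g.1 = x := Iff.rfl

/-- **Generation by quasi-reflections.** -/
theorem FG_le (hF : Frm ε J) (hnc : ∃ a b : D, a * b ≠ b * a) {H : Subgroup (Matrix n n D)ˣ}
    (hH : ∀ (v : n → D) (a : D) (h : QR ε J v a), rq hF.eps h ∈ H) : FG J ≤ H := by
  intro g hg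
  obtain ⟨m, hm⟩ : ∃ m, m = Module.finrank D (n → D) - Module.finrank D (Fx g) := ⟨_, rfl⟩
  induction m using Nat.strong_induction_on generalizing g with
  | _ m ih =>
    by_cases h1 : g = 1
    · rw [h1]
      exact H.one_mem
    · obtain ⟨x, hx⟩ : ∃ x, hf J x (x ᵥ* g.1 - x) ≠ 0 := by
        by_contra hcon
        push Not at hcon
        exact h1 (eq_one_of hF hnc hcon)
      obtain ⟨v, a, hQ, hxr, hz⟩ := exists_rq hF hg hx
      set R := rq hF.eps hQ with hR
      have hRF : R ∈ FG J := rq_mem hF hQ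
      have hg' : g * R⁻¹ ∈ FG J := mul_mem hg (inv_mem hRF)
      have hle : Fx g ≤ Fx (g * R⁻¹) := by
        intro z hz'
        rw [mem_Fx] at hz' ⊢
        rw [vecMul_mul', hz']
        have h2 := hz z hz'
        conv_lhs => rw [← h2]
        exact vecMul_cancel_inv z R
      have hxm : x ∈ Fx (g * R⁻¹) := by
        rw [mem_Fx, vecMul_mul', ← hxr]
        exact vecMul_cancel_inv x R
      have hxn : x ∉ Fx g := by
        intro h2
        apply hx
        rw [mem_Fx.1 h2, sub_self, hf_zero_right]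
      have hlt : Fx g < Fx (g * R⁻¹) := lt_of_le_of_ne hle fun h => hxn (h ▸ hxm)
      have h3 := Submodule.finrank_lt_finrank_of_lt hlt
      have h4 : Module.finrank D (Fx (g * R⁻¹)) ≤ Module.finrank D (n → D) :=
        Submodule.finrank_le _
      have h5 := ih _ (by omega) hg' rfl
      have e : g = g * R⁻¹ * R := by rw [inv_mul_cancel_right]
      rw [e]
      exact H.mul_mem h5 (hH v a hQ)

/-- For an isotropic vector the quasi-reflection is a transvection. -/
theorem rq_iso (hF : Frm ε J) {v : n → D} {a : D} (h : QR ε J v a) (hv : hf J v v = 0) :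
    rq hF.eps h ∈ GT ε J := by
  have hc : CC ε a := by
    unfold QR at h
    rw [hv, mul_zero, zero_mul, add_zero] at h
    unfold CC
    have h1 : ε * (ε * a + star a) = 0 := by rw [h, mul_zero]
    rwa [mul_add, ← mul_assoc, eps_sq hF.eps, one_mul] at h1
  have e : rq hF.eps h = tv J v a := Units.ext (by rw [rq_val, tv_val hv])
  rw [e]
  exact tv_mem_GT hv hc

end cd

end Vale.Agent.P092.H183.DV
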