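import Vale.Agent.P092.H183.DV1
import Vale.Agent.P092.H289.DTd

/-!
P092, block CLASS-H (helper183), part U4, 2: the isometries preserve the Haar measure of a normal
subgroup which contains the transvections and is perfect.
-/

set_option linter.all false

open Matrix Topology Filter MeasureTheory MeasureTheory.Measure
open scoped NNReal ENNReal

namespace Vale.Agent.P092.H183.DV

open Vale.Agent.P092.H103.QH
open Vale.Agent.P092.H289.DT (Vb Bd isOpen_bd isCompact_bd exists_bd)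

section bp

variable {n D : Type*} [Fintype n] [DecidableEq n] [NormedDivisionRing D] [StarRing D]
  {ε : D} {J : Matrix n n D}

/-- The powers of `B` are bounded. -/
def BP (B : (Matrix n n D)ˣ) : Prop :=
  ∃ R : ℝ, 0 ≤ R ∧ ∀ m : ℕ, Bd R (B ^ m).1 ∧ Bd R (B⁻¹ ^ m).1

theorem pow_tvm {v : n → D} (hv : hf J v v ≠ 0) (a : D) (m : ℕ) :
    (tvm J v a) ^ m = tvm J v ((hf J v v)⁻¹ * ((1 + hf J v v * a) ^ m - 1)) := by
  induction m with
  | zero => rw [pow_zero, pow_zero, sub_self, mul_zero, tvm_zero]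
  | succ m ih =>
    rw [pow_succ, ih, tvm_mul']
    congr 1
    obtain ⟨γ, hγ⟩ : ∃ γ, γ = hf J v v := ⟨_, rfl⟩
    rw [← hγ] at hv ⊢
    have ha : a = γ⁻¹ * (γ * a) := by rw [inv_mul_cancel_left₀ hv]
    have e1 : γ⁻¹ * ((1 + γ * a) ^ m - 1) * γ * a = γ⁻¹ * (((1 + γ * a) ^ m - 1) * (γ * a)) := by
      simp only [mul_assoc]
    rw [e1]
    conv_lhs => rw [add_assoc]; arg 2; arg 1; rw [ha]
    rw [← mul_add, ← mul_add, pow_succ]
    congr 1
    noncomm_ring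

theorem bd_tvm (v : n → D) {C : ℝ} (hC : 0 ≤ C) : ∃ R : ℝ, 0 ≤ R ∧ ∀ c : D, ‖c‖ ≤ C →
    Bd R (tvm J v c) := by
  refine ⟨1 + ‖J *ᵥ star v‖ * (C * ‖v‖), by positivity, fun c hc i j => ?_⟩
  unfold tvm
  rw [Matrix.add_apply, vecMulVec_apply, Pi.smul_apply, smul_eq_mul]
  refine (norm_add_le _ _).trans (add_le_add ?_ ?_)
  · rw [Matrix.one_apply]
    split_ifs <;> simp
  · rw [norm_mul, norm_mul]
    exact mul_le_mul (norm_le_pi_norm _ i) (mul_le_mul hc (norm_le_pi_norm v j) (norm_nonneg _) hC)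
      (by positivity) (norm_nonneg _)

theorem bd_pow {v : n → D} (hv : hf J v v ≠ 0) {a : D} (ha : ‖1 + hf J v v * a‖ = 1) :
    ∃ R : ℝ, 0 ≤ R ∧ ∀ m : ℕ, Bd R ((tvm J v a) ^ m) := by
  obtain ⟨R, hR0, hR⟩ := bd_tvm (J := J) v (C := ‖hf J v v‖⁻¹ * 2) (by positivity)
  refine ⟨R, hR0, fun m => ?_⟩
  rw [pow_tvm hv]
  apply hR
  rw [norm_mul, norm_inv]
  gcongr
  refine (norm_sub_le _ _).trans ?_
  rw [norm_pow, ha, one_pow, norm_one]
  norm_num

theorem norm_rq (hF : Frm ε J) (hs : ∀ x : D, ‖star x‖ = ‖x‖) {v : n → D} (hv : hf J v v ≠ 0)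
    {a : D} (h : QR ε J v a) : ‖1 + hf J v v * a‖ = 1 := by
  obtain ⟨γ, hγ⟩ : ∃ γ, γ = hf J v v := ⟨_, rfl⟩
  have hk := h.key hF.eps
  have hh := hF.herm v v
  rw [← hγ] at hv hk hh ⊢
  have hsg : star γ = ε * γ := by
    conv_rhs => rw [hh, ← mul_assoc, eps_sq hF.eps, one_mul]
  have e1 : (1 + γ * a) * γ * star (1 + γ * a) = γ := by
    rw [star_add, star_one, star_mul, hsg]
    have e2 : (1 + γ * a) * γ * (1 + star a * (ε * γ)) =
        γ + γ * (a + ε * star a + a * γ * (ε * star a)) * γ := by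
      have e3 : star a * (ε * γ) = ε * star a * γ := by
        rw [← mul_assoc, ← eps_comm hF.eps]
      rw [e3]
      noncomm_ring
    rw [e2, hk, mul_zero, zero_mul, add_zero]
  have e4 := congrArg norm e1
  rw [norm_mul, norm_mul, hs] at e4
  have hγ0 : 0 < ‖γ‖ := norm_pos_iff.2 hv
  have e5 : ‖1 + γ * a‖ * ‖1 + γ * a‖ = 1 := by
    have : ‖1 + γ * a‖ * ‖1 + γ * a‖ * ‖γ‖ = 1 * ‖γ‖ := by rw [one_mul]; linarith
    exact mul_right_cancel₀ hγ0.ne' this
  nlinarith [norm_nonneg (1 + γ * a)]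

theorem bp_rq (hF : Frm ε J) (hs : ∀ x : D, ‖star x‖ = ‖x‖) {v : n → D} (hv : hf J v v ≠ 0)
    {a : D} (h : QR ε J v a) : BP (rq hF.eps h) := by
  have h1 := norm_rq hF hs hv h
  have h2 : ‖1 + hf J v v * (ε * star a)‖ = 1 := by
    have e : (1 + hf J v v * a) * (1 + hf J v v * (ε * star a)) = 1 := by
      have hk := h.key hF.eps
      have : (1 + hf J v v * a) * (1 + hf J v v * (ε * star a)) =
          1 + hf J v v * (a + ε * star a + a * hf J v v * (ε * star a)) := by noncomm_ring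
      rw [this, hk, mul_zero, add_zero]
    have e2 := congrArg norm e
    rwa [norm_mul, h1, one_mul, norm_one] at e2
  obtain ⟨R, hR0, hR⟩ := bd_pow hv h1
  obtain ⟨R', hR0', hR'⟩ := bd_pow hv h2
  refine ⟨max R R', le_max_of_le_left hR0, fun m => ⟨?_, ?_⟩⟩
  · rw [Units.val_pow_eq_pow_val]
    exact (hR m).mono (le_max_left _ _)
  · rw [Units.val_pow_eq_pow_val]
    exact (hR' m).mono (le_max_right _ _)

end bp

section conj

variable {n D : Type*} [Fintype n] [DecidableEq n] [NormedDivisionRing D] [StarRing D]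
  {J : Matrix n n D} {E : Subgroup (Matrix n n D)ˣ}

/-- The isometries normalise `E`. -/
def Nrm (J : Matrix n n D) (E : Subgroup (Matrix n n D)ˣ) : Prop :=
  ∀ A ∈ FG J, ∀ g ∈ E, A * g * A⁻¹ ∈ E

/-- conjugation as an automorphism of `E` -/
def cjG (hN : Nrm J E) (A : FG J) : E ≃ₜ* E where
  toFun := fun g => ⟨A.1 * g.1 * A.1⁻¹, hN _ A.2 _ g.2⟩
  invFun := fun g => ⟨A.1⁻¹ * g.1 * A.1⁻¹⁻¹, hN _ (inv_mem A.2) _ g.2⟩
  left_inv := fun g => Subtype.ext (by simp [mul_assoc])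
  right_inv := fun g => Subtype.ext (by simp [mul_assoc])
  map_mul' := fun g h => Subtype.ext (by
    show A.1 * (g.1 * h.1) * A.1⁻¹ = A.1 * g.1 * A.1⁻¹ * (A.1 * h.1 * A.1⁻¹)
    group)
  continuous_toFun := by
    refine Continuous.subtype_mk ?_ _
    fun_prop
  continuous_invFun := by
    refine Continuous.subtype_mk ?_ _
    fun_prop

theorem cjG_val (hN : Nrm J E) (A : FG J) (g : E) : (cjG hN A g).1 = A.1 * g.1 * A.1⁻¹ := rfl

theorem cjG_mul (hN : Nrm J E) (A B : FG J) :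
    cjG hN (A * B) = (cjG hN B).trans (cjG hN A) := by
  ext1 g
  apply Subtype.ext
  show (A * B).1 * g.1 * (A * B).1⁻¹ = A.1 * (B.1 * g.1 * B.1⁻¹) * A.1⁻¹
  rw [Subgroup.coe_mul]
  group

theorem cjG_one (hN : Nrm J E) : cjG hN 1 = ContinuousMulEquiv.refl _ := by
  ext1 g
  apply Subtype.ext
  show (1 : (Matrix n n D)ˣ) * g.1 * 1⁻¹ = g.1
  group

end conj

section top

variable {n D : Type*} [Fintype n] [DecidableEq n] [NormedDivisionRing D]
  {E : Subgroup (Matrix n n D)ˣ}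

theorem continuous_valE : Continuous fun g : E => g.1.1 :=
  Units.continuous_val.comp continuous_subtype_val

theorem continuous_invE : Continuous fun g : E => (g.1⁻¹).1 :=
  continuous_valE.comp (continuous_inv (G := E))

variable [IsUltrametricDist D]

/-- The stabiliser of the lattice with basis `z`. -/
def Th (E : Subgroup (Matrix n n D)ˣ) (z : (Matrix n n D)ˣ) : Subgroup E where
  carrier := {w | Bd 1 (z.1 * w.1.1 * (z⁻¹).1) ∧ Bd 1 (z.1 * (w.1⁻¹).1 * (z⁻¹).1)}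
  one_mem' := by
    have h1 : z.1 * (1 : Matrix n n D) * (z⁻¹).1 = 1 := by rw [mul_one, Units.mul_inv]
    refine ⟨?_, ?_⟩
    · show Bd 1 (z.1 * (1 : Matrix n n D) * (z⁻¹).1)
      rw [h1]; exact Bd.one
    · show Bd 1 (z.1 * ((1 : (Matrix n n D)ˣ)⁻¹).1 * (z⁻¹).1)
      rw [inv_one]
      show Bd 1 (z.1 * (1 : Matrix n n D) * (z⁻¹).1)
      rw [h1]; exact Bd.one
  mul_mem' := by
    have key : ∀ a b : Matrix n n D, Bd 1 (z.1 * a * (z⁻¹).1) → Bd 1 (z.1 * b * (z⁻¹).1) →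
        Bd 1 (z.1 * (a * b) * (z⁻¹).1) := by
      intro a b ha hb
      have h1 : z.1 * (a * b) * (z⁻¹).1 = (z.1 * a * (z⁻¹).1) * (z.1 * b * (z⁻¹).1) := by
        calc z.1 * (a * b) * (z⁻¹).1 = z.1 * a * 1 * b * (z⁻¹).1 := by
              rw [mul_one]; simp only [mul_assoc]
          _ = _ := by rw [← Units.inv_mul z]; simp only [mul_assoc]
      rw [h1]
      simpa using Bd.mul zero_le_one zero_le_one ha hb
    rintro a b ⟨ha, ha'⟩ ⟨hb, hb'⟩
    refine ⟨key _ _ ha hb, ?_⟩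
    show Bd 1 (z.1 * ((a.1 * b.1)⁻¹).1 * (z⁻¹).1)
    rw [_root_.mul_inv_rev]
    exact key _ _ hb' ha'
  inv_mem' := by
    rintro a ⟨ha, ha'⟩
    refine ⟨ha', ?_⟩
    show Bd 1 (z.1 * ((a.1⁻¹)⁻¹).1 * (z⁻¹).1)
    rw [inv_inv]; exact ha

variable [ProperSpace D]

theorem isOpen_Th (z : (Matrix n n D)ˣ) : IsOpen (Th E z : Set E) := by
  have hc : Continuous fun w : E => z.1 * w.1.1 * (z⁻¹).1 :=
    (continuous_const.matrix_mul continuous_valE).matrix_mul continuous_const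
  have hc' : Continuous fun w : E => z.1 * (w.1⁻¹).1 * (z⁻¹).1 :=
    (continuous_const.matrix_mul continuous_invE).matrix_mul continuous_const
  exact ((isOpen_bd one_ne_zero).preimage hc).inter ((isOpen_bd one_ne_zero).preimage hc')

theorem isCompact_bdE (hE : IsClosedEmbedding fun g : E => g.1.1) (r : ℝ) :
    IsCompact {g : E | Bd r g.1.1} :=
  hE.isCompact_preimage (isCompact_bd r)

theorem isCompact_Th (hE : IsClosedEmbedding fun g : E => g.1.1) (z : (Matrix n n D)ˣ) :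
    IsCompact (Th E z : Set E) := by
  obtain ⟨r, hr0, hr⟩ := exists_bd z.1
  obtain ⟨r', hr0', hr'⟩ := exists_bd (z⁻¹).1
  refine (isCompact_bdE hE (r' * 1 * r)).of_isClosed_subset
    (Subgroup.isClosed_of_isOpen _ (isOpen_Th z)) fun w hw => ?_
  have h1 : w.1.1 = (z⁻¹).1 * (z.1 * w.1.1 * (z⁻¹).1) * z.1 := by
    have h2 := Units.inv_mul z
    calc w.1.1 = ((z⁻¹).1 * z.1) * w.1.1 * ((z⁻¹).1 * z.1) := by rw [h2, one_mul, mul_one]
      _ = _ := by simp only [mul_assoc]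
  show Bd _ w.1.1
  rw [h1]
  exact Bd.mul (by positivity) hr0 (Bd.mul hr0' zero_le_one hr' hw.1) hr

theorem bound_of_compact {S : Set E} (hS : IsCompact S) :
    ∃ R : ℝ, 0 ≤ R ∧ ∀ g ∈ S, Bd R g.1.1 := by
  have h1 : ∀ i j, ∃ R : ℝ, ∀ g ∈ S, ‖g.1.1 i j‖ ≤ R := by
    intro i j
    have hc : Continuous fun g : E => ‖g.1.1 i j‖ :=
      (Continuous.matrix_elem continuous_valE i j).norm
    obtain ⟨R, hR⟩ := (hS.image hc).bddAbove
    exact ⟨R, fun g hg => hR ⟨g, hg, rfl⟩⟩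
  choose R hR using h1
  refine ⟨∑ i, ∑ j, |R i j|, by positivity, fun g hg i j => ?_⟩
  have h2 : |R i j| ≤ ∑ j, |R i j| :=
    Finset.single_le_sum (f := fun j => |R i j|) (fun _ _ => abs_nonneg _) (Finset.mem_univ j)
  have h3 : ∑ j, |R i j| ≤ ∑ i, ∑ j, |R i j| :=
    Finset.single_le_sum (f := fun i => ∑ j, |R i j|)
      (fun i _ => Finset.sum_nonneg fun j _ => abs_nonneg _) (Finset.mem_univ i)
  exact ((hR i j g hg).trans (le_abs_self _)).trans (h2.trans h3)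

end top

section haar

variable {n D : Type*} [Fintype n] [DecidableEq n] [NormedDivisionRing D] [StarRing D]
  {ε : D} {J : Matrix n n D} {E : Subgroup (Matrix n n D)ˣ}
  [LocallyCompactSpace E] [MeasurableSpace E] [BorelSpace E]

/-- the modulus of conjugation -/
noncomputable def mdG (hN : Nrm J E) : FG J →* ℝ≥0 where
  toFun := fun A => mulEquivHaarChar (cjG hN A)
  map_one' := by rw [cjG_one, mulEquivHaarChar_refl]
  map_mul' := fun A B => by rw [cjG_mul, mulEquivHaarChar_trans, mul_comm]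

theorem mdG_smul (hN : Nrm J E) (A : FG J) (X : Set E) :
    (mdG hN A : ℝ≥0∞) * haar ((cjG hN A) ⁻¹' X) = haar X := by
  have h1 := mulEquivHaarChar_smul_preimage (haar : Measure E) (X := X) (cjG hN A)
  rwa [ENNReal.smul_def, smul_eq_mul] at h1

theorem mdG_of_mem (hN : Nrm J E) (hle : E ≤ FG J) (hperf : ∀ φ : E →* ℝ≥0ˣ, φ = 1)
    {s : (Matrix n n D)ˣ} (hs : s ∈ E) : mdG hN ⟨s, hle hs⟩ = 1 := by
  have h1 := hperf (((mdG hN).comp (Subgroup.inclusion hle)).toHomUnits)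
  have h2 := DFunLike.congr_fun h1 (⟨s, hs⟩ : E)
  exact congrArg Units.val h2

variable [IsUltrametricDist D] [ProperSpace D]

theorem one_le_mdG (hE : IsClosedEmbedding fun g : E => g.1.1) (hN : Nrm J E)
    (A : FG J) {R : ℝ} (hR : 0 ≤ R) (h : ∀ m : ℕ, Bd R (A.1 ^ m).1 ∧ Bd R (A.1⁻¹ ^ m).1) :
    1 ≤ mdG hN A := by
  set K := Th E 1 with hK
  have hKo : IsOpen (K : Set E) := isOpen_Th 1
  have hKc : IsCompact (K : Set E) := isCompact_Th hE 1
  obtain ⟨r, hr0, hr⟩ := bound_of_compact hKc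
  set C : Set E := {g : E | Bd (R * r * R) g.1.1} with hC
  have hCc : IsCompact C := isCompact_bdE hE _
  have hK0 : (haar (K : Set E) : ℝ≥0∞) ≠ 0 := (hKo.measure_pos _ ⟨1, K.one_mem⟩).ne'
  have hCt : (haar C : ℝ≥0∞) ≠ ⊤ := hCc.measure_lt_top.ne
  have key : ∀ m : ℕ, haar (K : Set E) ≤ ((mdG hN A : ℝ≥0∞)) ^ m * haar C := by
    intro m
    have h1 := mdG_smul hN (A ^ m) (K : Set E)
    rw [map_pow, ENNReal.coe_pow] at h1
    rw [← h1]
    gcongr
    intro g hg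
    have hg' : cjG hN (A ^ m) g ∈ (K : Set E) := hg
    have h2 := hr _ hg'
    have e0 : (cjG hN (A ^ m) g).1 = A.1 ^ m * g.1 * (A.1 ^ m)⁻¹ := rfl
    have h3 : g.1.1 = (A.1⁻¹ ^ m).1 * (cjG hN (A ^ m) g).1.1 * (A.1 ^ m).1 := by
      have e1 : g.1 = A.1⁻¹ ^ m * (cjG hN (A ^ m) g).1 * A.1 ^ m := by
        rw [e0, inv_pow]
        group
      exact congrArg Units.val e1
    show Bd _ g.1.1
    rw [h3]
    exact Bd.mul (by positivity) hR (Bd.mul hR hr0 (h m).2 h2) (h m).1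
  by_contra hlt
  push Not at hlt
  have hlim : Filter.Tendsto (fun m : ℕ => ((mdG hN A : ℝ≥0∞)) ^ m * haar C) Filter.atTop
      (𝓝 (0 * haar C)) := by
    refine ENNReal.Tendsto.mul_const ?_ (Or.inr hCt)
    exact ENNReal.tendsto_pow_atTop_nhds_zero_of_lt_one (by exact_mod_cast hlt)
  rw [zero_mul] at hlim
  exact hK0 (le_antisymm (ge_of_tendsto' hlim key) zero_le')

theorem mdG_of_bp (hE : IsClosedEmbedding fun g : E => g.1.1) (hN : Nrm J E)
    (A : FG J) (h : BP A.1) : mdG hN A = 1 := by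
  obtain ⟨R, hR0, hR⟩ := h
  have h1 : 1 ≤ mdG hN A := one_le_mdG hE hN A hR0 hR
  have h2 : 1 ≤ mdG hN A⁻¹ := one_le_mdG hE hN A⁻¹ hR0 fun m => by
    refine ⟨(hR m).2, ?_⟩
    show Bd R ((A.1⁻¹)⁻¹ ^ m).1
    rw [inv_inv]
    exact (hR m).1
  have h3 : mdG hN A * mdG hN A⁻¹ = 1 := by rw [← map_mul, mul_inv_cancel, map_one]
  refine le_antisymm ?_ h1
  calc mdG hN A ≤ mdG hN A * mdG hN A⁻¹ := le_mul_of_one_le_right zero_le' h2
    _ = 1 := h3

/-- **The modulus is trivial.** -/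
theorem mdG_one (hF : Frm ε J) (hs : ∀ x : D, ‖star x‖ = ‖x‖) (hnc : ∃ a b : D, a * b ≠ b * a)
    (hE : IsClosedEmbedding fun g : E => g.1.1) (hN : Nrm J E) (hle : E ≤ FG J)
    (hGT : GT ε J ≤ E) (hperf : ∀ φ : E →* ℝ≥0ˣ, φ = 1) (A : FG J) : mdG hN A = 1 := by
  have h1 : FG J ≤ (mdG hN).ker.map (FG J).subtype := by
    refine FG_le hF hnc fun v a h => ?_
    refine ⟨⟨rq hF.eps h, rq_mem hF h⟩, ?_, rfl⟩
    show mdG hN _ = 1
    by_cases hv : hf J v v = 0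
    · exact mdG_of_mem hN hle hperf (hGT (rq_iso hF h hv))
    · exact mdG_of_bp hE hN _ (bp_rq hF hs hv h)
  obtain ⟨B, hB, hBA⟩ := h1 A.2
  have e : B = A := Subtype.ext hBA
  rw [← e]
  exact hB

end haar

end Vale.Agent.P092.H183.DV
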