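import Vale.Agent.P092.H183.DV2

/-!
P092, block CLASS-H (helper183), part U4, 3: lattices over the integers of a division ring have bases.
-/

set_option linter.all false

open Matrix Topology Filter

namespace Vale.Agent.P092.H183.DV

open Vale.Agent.P092.H103.QH
open Vale.Agent.P092.H289.DT (Vb Bd isOpen_bd isCompact_bd isCompact_vb exists_bd)

section bd

variable {n D : Type*} [Fintype n] [DecidableEq n] [NormedDivisionRing D]

theorem vb_mono {v : n → D} {r s : ℝ} (hv : Vb r v) (h : r ≤ s) : Vb s v := fun i =>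
  (hv i).trans h

theorem vb_smul {v : n → D} {r : ℝ} (hv : Vb r v) (c : D) : Vb (‖c‖ * r) (c • v) :=
  fun i => by
    rw [Pi.smul_apply, smul_eq_mul, norm_mul]
    exact mul_le_mul_of_nonneg_left (hv i) (norm_nonneg _)

theorem vb_single {i : n} {t : D} {r : ℝ} (hr : 0 ≤ r) (ht : ‖t‖ ≤ r) :
    Vb r (Pi.single i t : n → D) := by
  intro l
  by_cases hl : l = i
  · subst hl; rw [Pi.single_eq_same]; exact ht
  · rw [Pi.single_eq_of_ne hl, norm_zero]; exact hr

theorem bd_sub [IsUltrametricDist D] {A B : Matrix n n D} {r : ℝ} (hA : Bd r A) (hB : Bd r B) :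
    Bd r (A - B) := fun i j => by
  rw [Matrix.sub_apply, sub_eq_add_neg]
  refine (IsUltrametricDist.norm_add_le_max _ _).trans (max_le (hA i j) ?_)
  rw [norm_neg]
  exact hB i j

theorem bd_ct [StarRing D] (hs : ∀ x : D, ‖star x‖ = ‖x‖) {A : Matrix n n D} {r : ℝ}
    (hA : Bd r A) : Bd r Aᴴ := fun i j => by
  rw [conjTranspose_apply, hs]; exact hA j i

variable [IsUltrametricDist D]

theorem norm_dot_le {v w : n → D} {r s : ℝ} (hr : 0 ≤ r) (hs : 0 ≤ s) (hv : Vb r v) (hw : Vb s w) :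
    ‖v ⬝ᵥ w‖ ≤ r * s := by
  refine IsUltrametricDist.norm_sum_le_of_forall_le_of_nonneg (mul_nonneg hr hs) fun i _ => ?_
  rw [norm_mul]
  exact mul_le_mul (hv i) (hw i) (norm_nonneg _) hr

theorem vb_vm {v : n → D} {A : Matrix n n D} {r s : ℝ} (hr : 0 ≤ r) (hs : 0 ≤ s) (hv : Vb r v)
    (hA : Bd s A) : Vb (r * s) (v ᵥ* A) := fun j => norm_dot_le hr hs hv fun i => hA i j

theorem bd_mul_one {A B : Matrix n n D} (hA : Bd 1 A) (hB : Bd 1 B) : Bd 1 (A * B) := by
  simpa using Bd.mul zero_le_one zero_le_one hA hB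

end bd

section lat

variable {n D : Type*} [Fintype n] [DecidableEq n] [NormedDivisionRing D] [StarRing D]
  [IsUltrametricDist D]

/-- There are small elements. -/
def Sm (D : Type*) [NormedDivisionRing D] : Prop := ∀ t : ℝ, 0 < t → ∃ c : D, 0 < ‖c‖ ∧ ‖c‖ < t

/-- A lattice. -/
structure Lat (M : Set (n → D)) : Prop where
  add : ∀ u ∈ M, ∀ v ∈ M, u + v ∈ M
  smul : ∀ c : D, ‖c‖ ≤ 1 → ∀ v ∈ M, c • v ∈ M
  bdd : ∃ R : ℝ, 0 ≤ R ∧ ∀ v ∈ M, Vb R v
  abs : ∃ t : ℝ, 0 < t ∧ ∀ v, Vb t v → v ∈ M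

variable {M : Set (n → D)}

theorem Lat.zero (h : Lat M) : (0 : n → D) ∈ M := by
  obtain ⟨t, ht0, ht⟩ := h.abs
  exact ht 0 fun i => by simp [ht0.le]

theorem Lat.neg (h : Lat M) {v : n → D} (hv : v ∈ M) : -v ∈ M := by
  have := h.smul (-1) (by simp) v hv
  rwa [neg_one_smul] at this

theorem Lat.sum (h : Lat M) {ι : Type*} (s : Finset ι) (f : ι → n → D) (hf : ∀ i ∈ s, f i ∈ M) :
    ∑ i ∈ s, f i ∈ M := by
  classical
  induction s using Finset.induction_on with
  | empty => simpa using h.zero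
  | insert a s ha ih =>
    rw [Finset.sum_insert ha]
    exact h.add _ (hf a (Finset.mem_insert_self a s)) _
      (ih fun i hi => hf i (Finset.mem_insert_of_mem hi))

theorem Lat.isClosed (h : Lat M) : IsClosed M := by
  rw [← isOpen_compl_iff, Metric.isOpen_iff]
  intro v hv
  obtain ⟨t, ht0, ht⟩ := h.abs
  refine ⟨t, ht0, fun w hw hwM => hv ?_⟩
  have h1 : v - w ∈ M := by
    refine ht _ fun i => ?_
    have h2 : ‖(w - v) i‖ ≤ ‖w - v‖ := norm_le_pi_norm _ i
    rw [Metric.mem_ball, dist_eq_norm] at hw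
    rw [Pi.sub_apply, norm_sub_rev]
    exact (h2.trans hw.le)
  have h3 : v = w + (v - w) := by abel
  rw [h3]
  exact h.add _ hwM _ h1

theorem Lat.isCompact [ProperSpace D] (h : Lat M) : IsCompact M := by
  obtain ⟨R, -, hR⟩ := h.bdd
  exact (isCompact_vb R).of_isClosed_subset h.isClosed fun v hv => hR v hv

theorem Lat.comap (h : Lat M) (z : (Matrix n n D)ˣ) : Lat {v | v ᵥ* z.1 ∈ M} where
  add := fun u hu v hv => by
    show (u + v) ᵥ* z.1 ∈ M
    rw [add_vecMul]; exact h.add _ hu _ hv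
  smul := fun c hc v hv => by
    show (c • v) ᵥ* z.1 ∈ M
    rw [smul_vecMul]; exact h.smul c hc _ hv
  bdd := by
    obtain ⟨R, hR0, hR⟩ := h.bdd
    obtain ⟨r, hr0, hr⟩ := exists_bd (z⁻¹).1
    refine ⟨R * r, by positivity, fun v hv => ?_⟩
    have := vb_vm hR0 hr0 (hR _ hv) hr
    rwa [vecMul_cancel_inv] at this
  abs := by
    obtain ⟨t, ht0, ht⟩ := h.abs
    obtain ⟨r, hr0, hr⟩ := exists_bd z.1
    refine ⟨t / (r + 1), by positivity, fun v hv => ht _ ?_⟩
    refine vb_mono (vb_vm (by positivity) hr0 hv hr) ?_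
    rw [div_mul_eq_mul_div, div_le_iff₀ (by positivity)]
    nlinarith

/-- the elementary matrix which replaces the basis vector `e_j` by `v` -/
def Ej (j : n) (v : n → D) : Matrix n n D := 1 + vecMulVec (Pi.single j 1) (v - Pi.single j 1)

theorem vecMul_Ej (x : n → D) (j : n) (v : n → D) :
    x ᵥ* Ej j v = x + x j • (v - Pi.single j 1) := by
  unfold Ej
  rw [vecMul_add, vecMul_one, vecMul_vecMulVec, dotProduct_single, mul_one]

/-- the same as a unit -/
noncomputable def eju (j : n) (v : n → D) (hv : v j ≠ 0) : (Matrix n n D)ˣ where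
  val := Ej j v
  inv := Ej j (Pi.single j 1 + (v j)⁻¹ • (Pi.single j 1 - v))
  val_inv := by
    refine ext_vm fun x => ?_
    rw [← vecMul_vecMul, vecMul_Ej, vecMul_Ej, vecMul_one]
    funext l
    simp only [Pi.add_apply, Pi.smul_apply, Pi.sub_apply, smul_eq_mul, Pi.single_eq_same]
    have e : x j + x j * (v j - 1) = x j * v j := by noncomm_ring
    rw [e, add_sub_cancel_left, ← mul_assoc, mul_assoc (x j), mul_inv_cancel₀ hv, mul_one]
    noncomm_ring
  inv_val := by
    refine ext_vm fun x => ?_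
    rw [← vecMul_vecMul, vecMul_Ej, vecMul_Ej, vecMul_one]
    funext l
    simp only [Pi.add_apply, Pi.smul_apply, Pi.sub_apply, smul_eq_mul, Pi.single_eq_same]
    have e : x j + x j * (1 + (v j)⁻¹ * (1 - v j) - 1) = x j * (v j)⁻¹ := by
      rw [add_sub_cancel_left, mul_sub, inv_mul_cancel₀ hv, mul_one]
      noncomm_ring
    rw [e, add_sub_cancel_left]
    noncomm_ring

theorem eju_val (j : n) (v : n → D) (hv : v j ≠ 0) : (eju j v hv).1 = Ej j v := rfl

/-- **Reduction of a lattice.** -/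
theorem Lat.exists_red [ProperSpace D] (hD : Sm D) (hM : Lat M) (S : Finset n) :
    ∃ z : (Matrix n n D)ˣ, (∀ v, v ᵥ* z.1 ∈ M → ∀ i ∈ S, ‖v i‖ ≤ 1) ∧
      ∀ i ∈ S, (Pi.single i 1 : n → D) ᵥ* z.1 ∈ M := by
  induction S using Finset.induction_on with
  | empty => exact ⟨1, fun v _ i hi => absurd hi (Finset.notMem_empty i),
      fun i hi => absurd hi (Finset.notMem_empty i)⟩
  | insert j S hj ih =>
    obtain ⟨z, h1, h2⟩ := ih
    set M' : Set (n → D) := {v | v ᵥ* z.1 ∈ M} with hM'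
    have hL : Lat M' := hM.comap z
    obtain ⟨v₀, hv₀, hmax⟩ := hL.isCompact.exists_isMaxOn ⟨0, hL.zero⟩
      (f := fun v : n → D => ‖v j‖) ((continuous_apply j).norm.continuousOn)
    have hmax' : ∀ v ∈ M', ‖v j‖ ≤ ‖v₀ j‖ := fun v hv => hmax hv
    have hv₀j : v₀ j ≠ 0 := by
      obtain ⟨t, ht0, ht⟩ := hL.abs
      obtain ⟨c, hc1⟩ := hD t ht0
      have h3 : (Pi.single j c : n → D) ∈ M' := ht _ (vb_single ht0.le hc1.2.le)
      have h6 := hmax' _ h3
      rw [Pi.single_eq_same] at h6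
      intro h0
      rw [h0, norm_zero] at h6
      have := hc1.1
      linarith
    -- remove the coordinates in `S`
    have hsingle : ∀ i ∈ S, ∀ c : D, ‖c‖ ≤ 1 → (Pi.single i c : n → D) ∈ M' := by
      intro i hi c hc
      have h3 := hL.smul c hc _ (show (Pi.single i 1 : n → D) ∈ M' from h2 i hi)
      have e : (c • Pi.single i 1 : n → D) = Pi.single i c := by
        rw [← Pi.single_smul]; simp
      rwa [e] at h3
    set v₁ : n → D := v₀ + ∑ i ∈ S, Pi.single i (-(v₀ i)) with hv₁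
    have hv₁M : v₁ ∈ M' := hL.add _ hv₀ _ (hL.sum S _ fun i hi => hsingle i hi _ (by
      rw [norm_neg]
      exact h1 _ hv₀ i hi))
    have hv₁S : ∀ i ∈ S, v₁ i = 0 := by
      intro i hi
      rw [hv₁, Pi.add_apply, Finset.sum_apply, Finset.sum_eq_single i]
      · rw [Pi.single_eq_same, add_neg_cancel]
      · intro a _ ha; exact Pi.single_eq_of_ne (Ne.symm ha) _
      · intro h; exact absurd hi h
    have hv₁j : v₁ j = v₀ j := by
      rw [hv₁, Pi.add_apply, Finset.sum_apply, Finset.sum_eq_zero, add_zero]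
      intro a ha
      exact Pi.single_eq_of_ne (fun h : j = a => hj (h ▸ ha)) _
    have hv₁j0 : v₁ j ≠ 0 := by rw [hv₁j]; exact hv₀j
    refine ⟨eju j v₁ hv₁j0 * z, ?_, ?_⟩
    · intro v hv i hi
      have h3 : v ᵥ* Ej j v₁ ∈ M' := by
        show (v ᵥ* Ej j v₁) ᵥ* z.1 ∈ M
        rw [← eju_val j v₁ hv₁j0, ← vecMul_mul']
        exact hv
      rcases Finset.mem_insert.1 hi with rfl | hi
      · have h4 := hmax' _ h3
        rw [vecMul_Ej, Pi.add_apply, Pi.smul_apply, Pi.sub_apply, Pi.single_eq_same, smul_eq_mul]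
          at h4
        have e : v i + v i * (v₁ i - 1) = v i * v₁ i := by noncomm_ring
        rw [e, norm_mul, ← hv₁j] at h4
        have h5 : 0 < ‖v₁ i‖ := norm_pos_iff.2 hv₁j0
        exact le_of_mul_le_mul_right (by rw [one_mul]; exact h4) h5
      · have h4 := h1 _ h3 i hi
        have hij : i ≠ j := fun h => hj (h ▸ hi)
        rw [vecMul_Ej, Pi.add_apply, Pi.smul_apply, Pi.sub_apply, Pi.single_eq_of_ne hij,
          smul_eq_mul, hv₁S i hi, sub_zero, mul_zero, add_zero] at h4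
        exact h4
    · intro i hi
      have e0 : (Pi.single i 1 : n → D) ᵥ* (eju j v₁ hv₁j0 * z).1 =
          ((Pi.single i 1 : n → D) ᵥ* Ej j v₁) ᵥ* z.1 := by
        rw [vecMul_mul', eju_val]
      rw [e0]
      show (Pi.single i 1 : n → D) ᵥ* Ej j v₁ ∈ M'
      rcases Finset.mem_insert.1 hi with rfl | hi
      · have e : (Pi.single i 1 : n → D) ᵥ* Ej i v₁ = v₁ := by
          rw [vecMul_Ej, Pi.single_eq_same, one_smul]
          abel
        rw [e]; exact hv₁M
      · have hij : i ≠ j := fun h => hj (h ▸ hi)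
        have e : (Pi.single i 1 : n → D) ᵥ* Ej j v₁ = Pi.single i 1 := by
          rw [vecMul_Ej, Pi.single_eq_of_ne (Ne.symm hij), zero_smul, add_zero]
        rw [e]
        exact h2 i hi

theorem vecMul_eq_sum (a : n → D) (z : Matrix n n D) :
    a ᵥ* z = ∑ i, a i • ((Pi.single i 1 : n → D) ᵥ* z) := by
  funext j
  simp only [vecMul, dotProduct, Finset.sum_apply, Pi.smul_apply, smul_eq_mul]
  refine Finset.sum_congr rfl fun i _ => ?_
  congr 1
  rw [Finset.sum_eq_single i (fun b _ hb => by rw [Pi.single_eq_of_ne hb, zero_mul])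
    (fun h => absurd (Finset.mem_univ i) h), Pi.single_eq_same, one_mul]

/-- A lattice has a basis. -/
theorem Lat.exists_basis [ProperSpace D] (hD : Sm D) (h : Lat M) :
    ∃ z : (Matrix n n D)ˣ, ∀ v, v ∈ M ↔ Vb 1 (v ᵥ* (z⁻¹).1) := by
  obtain ⟨z, h1, h2⟩ := h.exists_red hD Finset.univ
  refine ⟨z, fun v => ⟨fun hv i => ?_, fun hv => ?_⟩⟩
  · refine h1 _ ?_ i (Finset.mem_univ i)
    rw [vecMul_inv_cancel]
    exact hv
  · have e : v = ∑ i, (v ᵥ* (z⁻¹).1) i • ((Pi.single i 1 : n → D) ᵥ* z.1) := by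
      rw [← vecMul_eq_sum, vecMul_inv_cancel]
    rw [e]
    exact h.sum _ _ fun i _ => h.smul _ (hv i) _ (h2 i (Finset.mem_univ i))

end lat

end Vale.Agent.P092.H183.DV
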