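import Vale.Agent.P092.H183.DV3

/-!
P092, block CLASS-H (helper183), part U4, 4: a bounded group of isometries stabilises an almost
unimodular lattice.
-/

set_option linter.all false

open Matrix Topology Filter

namespace Vale.Agent.P092.H183.DV

open Vale.Agent.P092.H103.QH
open Vale.Agent.P092.H289.DT (Vb Bd isOpen_bd isCompact_bd isCompact_vb exists_bd)

section unit

variable {n : Type*} [Fintype n] [DecidableEq n] {D : Type*} [DivisionRing D] [StarRing D]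
  {ε : D} {J : Matrix n n D}

theorem hf_eq (x y : n → D) : hf J x y = (x ᵥ* J) ⬝ᵥ star y := by
  unfold hf; rw [dotProduct_mulVec]

/-- A nondegenerate form has an invertible matrix. -/
theorem exists_unit (h : ∀ x, x ≠ 0 → ∃ y, hf J x y ≠ 0) : ∃ Ju : (Matrix n n D)ˣ, Ju.1 = J := by
  have hinj : Function.Injective (Matrix.vecMulLinear J) := by
    rw [← LinearMap.ker_eq_bot, LinearMap.ker_eq_bot']
    intro x hx
    by_contra hne
    obtain ⟨y, hy⟩ := h x hne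
    apply hy
    have hx' : x ᵥ* J = 0 := hx
    rw [hf_eq, hx', zero_dotProduct]
  have hsurj : Function.Surjective (Matrix.vecMulLinear J) :=
    LinearMap.injective_iff_surjective.1 hinj
  choose f hf' using fun i : n => hsurj (Pi.single i 1)
  have e : (Matrix.of f) * J = 1 := by
    refine Matrix.ext fun i j => ?_
    have h1 : ((Matrix.of f) * J) i j = (f i ᵥ* J) j := rfl
    have h2 : f i ᵥ* J = Pi.single i 1 := hf' i
    rw [h1, h2, Matrix.one_apply, Pi.single_apply]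
    by_cases hij : i = j
    · subst hij; simp
    · simp [hij, Ne.symm hij]
  exact ⟨⟨J, Matrix.of f, mul_eq_one_symm e, e⟩, rfl⟩

theorem star_single (i : n) (t : D) : star (Pi.single i t : n → D) = Pi.single i (star t) := by
  funext l
  by_cases hl : l = i
  · subst hl; simp
  · simp [Pi.single_eq_of_ne hl]

theorem hf_single (v : n → D) (i : n) (t : D) :
    hf J v (Pi.single i t) = (v ᵥ* J) i * star t := by
  rw [hf_eq, star_single, dotProduct_single]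

end unit

variable {n D : Type*} [Fintype n] [DecidableEq n] [NormedDivisionRing D] [StarRing D]
  [IsUltrametricDist D]

/-- The assumptions on the form. -/
structure Hrm (ε : D) (J : Matrix n n D) : Prop where
  nrm : ∀ x : D, ‖star x‖ = ‖x‖
  eps : ε = 1 ∨ ε = -1
  herm : ∀ x y, hf J y x = ε * star (hf J x y)
  uni : ∃ Ju : (Matrix n n D)ˣ, Ju.1 = J

variable {ε : D} {J : Matrix n n D}

theorem norm_eps (he : ε = 1 ∨ ε = -1) : ‖ε‖ = 1 := by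
  rcases he with rfl | rfl <;> simp

theorem Hrm.sym (hJ : Hrm ε J) (x y : n → D) : ‖hf J y x‖ = ‖hf J x y‖ := by
  rw [hJ.herm, norm_mul, norm_eps hJ.eps, one_mul, hJ.nrm]

theorem vb_star (hJ : Hrm ε J) {b : ℝ} {y : n → D} (hy : Vb b y) : Vb b (star y) := fun i => by
  rw [Pi.star_apply, hJ.nrm]; exact hy i

theorem norm_hf_le (hJ : Hrm ε J) {r a b : ℝ} (hr : 0 ≤ r) (ha : 0 ≤ a) (hb : 0 ≤ b)
    (hB : Bd r J) {x y : n → D} (hx : Vb a x) (hy : Vb b y) : ‖hf J x y‖ ≤ a * r * b := by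
  rw [hf_eq]
  exact norm_dot_le (by positivity) hb (vb_vm ha hr hx hB) (vb_star hJ hy)

/-- The dual lattice. -/
def dual (J : Matrix n n D) (M : Set (n → D)) : Set (n → D) :=
  {v | ∀ m ∈ M, ‖hf J v m‖ ≤ 1}

theorem exists_small' (hD : Sm D) {C : ℝ} (hC : 0 ≤ C) {δ : ℝ} (hδ : 0 < δ) :
    ∃ t : ℝ, 0 < t ∧ t * C ≤ δ := by
  refine ⟨δ / (C + 1), by positivity, ?_⟩
  rw [div_mul_eq_mul_div, div_le_iff₀ (by positivity)]
  nlinarith

theorem dual_lat (hD : Sm D) (hJ : Hrm ε J) {M : Set (n → D)} (h : Lat M) : Lat (dual J M) where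
  add := fun u hu v hv m hm => by
    rw [hf_add_left]
    exact (IsUltrametricDist.norm_add_le_max _ _).trans (max_le (hu m hm) (hv m hm))
  smul := fun c hc v hv m hm => by
    rw [hf_smul_left, norm_mul]
    exact mul_le_one₀ hc (norm_nonneg _) (hv m hm)
  bdd := by
    obtain ⟨t, ht0, ht⟩ := h.abs
    obtain ⟨Ju, rfl⟩ := hJ.uni
    obtain ⟨r, hr0, hr⟩ := exists_bd (Ju⁻¹).1
    obtain ⟨c, hc0, hct⟩ := hD t ht0
    refine ⟨‖c‖⁻¹ * r, by positivity, fun v hv => ?_⟩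
    have h1 : Vb ‖c‖⁻¹ (v ᵥ* Ju.1) := by
      intro i
      have h2 := hv (Pi.single i c) (ht _ (vb_single ht0.le hct.le))
      rw [hf_single, norm_mul, hJ.nrm] at h2
      rw [← one_div, le_div_iff₀ hc0]
      exact h2
    have h2 := vb_vm (by positivity) hr0 h1 hr
    rwa [vecMul_cancel_inv] at h2
  abs := by
    obtain ⟨R, hR0, hR⟩ := h.bdd
    obtain ⟨r, hr0, hr⟩ := exists_bd J
    obtain ⟨t, ht0, ht⟩ := exists_small' hD (C := r * R) (by positivity) one_pos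
    refine ⟨t, ht0, fun v hv m hm => ?_⟩
    refine (norm_hf_le hJ hr0 ht0.le hR0 hr hv (hR m hm)).trans ?_
    rwa [mul_assoc]

/-- the vectors dual to a basis -/
theorem exists_dual (hJ : Hrm ε J) (z : (Matrix n n D)ˣ) (i : n) :
    ∃ m : n → D, ∀ u, hf J u m = (u ᵥ* (z⁻¹).1) i := by
  obtain ⟨Ju, rfl⟩ := hJ.uni
  refine ⟨star ((Ju⁻¹).1 *ᵥ ((z⁻¹).1 *ᵥ Pi.single i 1)), fun u => ?_⟩
  unfold hf
  rw [star_star, mulVec_mulVec, Units.mul_inv, one_mulVec, dotProduct_mulVec, dotProduct_single,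
    mul_one]

theorem dual_dual [ProperSpace D] (hD : Sm D) (hJ : Hrm ε J) {M : Set (n → D)} (h : Lat M)
    {v : n → D} (hv : v ∈ dual J (dual J M)) : v ∈ M := by
  obtain ⟨z, hM⟩ := h.exists_basis hD
  rw [hM]
  intro i
  obtain ⟨m, hm⟩ := exists_dual hJ z i
  rw [← hm]
  refine hv m fun u hu => ?_
  rw [hJ.sym, hm]
  exact (hM u).mp hu i

/-- A bounded group of isometries. -/
structure Wcp (J : Matrix n n D) (W : Set (Matrix n n D)) : Prop where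
  one : (1 : Matrix n n D) ∈ W
  mul : ∀ g ∈ W, ∀ h ∈ W, g * h ∈ W
  inv : ∀ g ∈ W, ∃ g' ∈ W, g' * g = 1
  bdd : ∃ R : ℝ, 0 ≤ R ∧ ∀ g ∈ W, Bd R g
  iso : ∀ g ∈ W, ∀ x y, hf J (x ᵥ* g) (y ᵥ* g) = hf J x y

variable {W : Set (Matrix n n D)} {ϖ : D}

/-- A stable integral lattice with `ϖ ^ r M^# ⊆ M`. -/
structure PM (J : Matrix n n D) (W : Set (Matrix n n D)) (ϖ : D) (M : Set (n → D))
    (r : ℕ) : Prop where
  lat : Lat M
  stab : ∀ v ∈ M, ∀ g ∈ W, v ᵥ* g ∈ M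
  int : ∀ u ∈ M, ∀ v ∈ M, ‖hf J u v‖ ≤ 1
  near : ∀ v ∈ dual J M, ϖ ^ r • v ∈ M

theorem PM.start (hD : Sm D) (hJ : Hrm ε J) (hW : Wcp J W) (hϖ : ‖ϖ‖ < 1) :
    ∃ M r, PM J W ϖ M r := by
  obtain ⟨R, hR0, hR⟩ := hW.bdd
  obtain ⟨r, hr0, hr⟩ := exists_bd J
  obtain ⟨t, ht0, ht⟩ := exists_small' hD (C := max 1 r) (by positivity) one_pos
  have ht1 : t ≤ 1 := by
    have := le_max_left 1 r
    nlinarith
  have htr : t * r * t ≤ 1 := by
    have h1 : t * r ≤ 1 := le_trans (mul_le_mul_of_nonneg_left (le_max_right 1 r) ht0.le) ht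
    have h2 : 0 ≤ t * r := by positivity
    nlinarith
  set M : Set (n → D) := {v | ∀ g ∈ W, Vb t (v ᵥ* g)} with hM
  have hLat : Lat M :=
    { add := fun u hu v hv g hg => by rw [Matrix.add_vecMul]; exact (hu g hg).add (hv g hg)
      smul := fun c hc v hv g hg => by
        rw [Matrix.smul_vecMul]
        exact vb_mono (vb_smul (hv g hg) c) (mul_le_of_le_one_left ht0.le hc)
      bdd := ⟨t, ht0.le, fun v hv => by have := hv 1 hW.one; rwa [Matrix.vecMul_one] at this⟩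
      abs := by
        obtain ⟨s, hs0, hs⟩ := exists_small' hD (C := R) hR0 ht0
        exact ⟨s, hs0, fun v hv g hg => vb_mono (vb_vm hs0.le hR0 hv (hR g hg)) hs⟩ }
  obtain ⟨R', hR0', hR'⟩ := (dual_lat hD hJ hLat).bdd
  obtain ⟨t', ht0', ht'⟩ := hLat.abs
  obtain ⟨m, hm⟩ := exists_pow_lt_of_lt_one (show (0 : ℝ) < t' / (R' + 1) by positivity) hϖ
  refine ⟨M, m, hLat, fun v hv g hg h hh => ?_, fun u hu v hv => ?_, fun v hv => ht' _ ?_⟩
  · rw [Matrix.vecMul_vecMul]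
    exact hv _ (hW.mul g hg h hh)
  · have h1 := hu 1 hW.one
    have h2 := hv 1 hW.one
    rw [Matrix.vecMul_one] at h1 h2
    exact (norm_hf_le hJ hr0 ht0.le ht0.le hr h1 h2).trans htr
  · refine vb_mono (vb_smul (hR' v hv) (ϖ ^ m)) ?_
    rw [norm_pow]
    rw [lt_div_iff₀ (by positivity)] at hm
    have : 0 ≤ ‖ϖ‖ ^ m := by positivity
    nlinarith

theorem smul_comm_ϖ (hc : ∀ x : D, ϖ * x = x * ϖ) (s : ℕ) (c : D) (v : n → D) :
    c • ϖ ^ s • v = ϖ ^ s • c • v := by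
  have h : c * ϖ ^ s = ϖ ^ s * c := ((show Commute c ϖ from (hc c).symm).pow_right s).eq
  rw [smul_smul, smul_smul, h]

theorem PM.step [ProperSpace D] (hD : Sm D) (hJ : Hrm ε J) (hW : Wcp J W) (hϖ : ‖ϖ‖ < 1)
    (hϖ0 : ϖ ≠ 0) (hϖc : ∀ x : D, ϖ * x = x * ϖ)
    {M : Set (n → D)} {r s : ℕ} (h : PM J W ϖ M r) (hs : r ≤ 2 * s) :
    ∃ M', PM J W ϖ M' s := by
  have hDu := dual_lat hD hJ h.lat
  have hn0 : 0 ≤ ‖ϖ‖ := norm_nonneg _
  have hps : ∀ j : ℕ, ‖ϖ ^ j‖ ≤ 1 := fun j => by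
    rw [norm_pow]; exact pow_le_one₀ hn0 hϖ.le
  have hMD : ∀ v ∈ M, v ∈ dual J M := fun v hv m hm => h.int v hv m hm
  have hb : ∀ x ∈ dual J M, ∀ y ∈ dual J M, ‖hf J x y‖ ≤ (‖ϖ‖ ^ r)⁻¹ := by
    intro x hx y hy
    have h1 := hy _ (h.near x hx)
    rw [hJ.sym, hf_smul_left, norm_mul, norm_pow] at h1
    have h2 : 0 < ‖ϖ‖ ^ r := pow_pos (norm_pos_iff.mpr hϖ0) r
    rw [← one_div, le_div_iff₀ h2, mul_comm]
    exact h1
  have hstab : ∀ v ∈ dual J M, ∀ g ∈ W, v ᵥ* g ∈ dual J M := by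
    intro v hv g hg m hm
    obtain ⟨g', hg', hgg⟩ := hW.inv g hg
    have h1 : m = (m ᵥ* g') ᵥ* g := by rw [Matrix.vecMul_vecMul, hgg, Matrix.vecMul_one]
    rw [h1, hW.iso g hg]
    exact hv _ (h.stab m hm g' hg')
  set M' : Set (n → D) := {v | ∃ a ∈ M, ∃ b ∈ dual J M, v = a + ϖ ^ s • b} with hM'
  have hMM : ∀ v ∈ M, v ∈ M' := fun v hv => ⟨v, hv, 0, hDu.zero, by rw [smul_zero, add_zero]⟩
  have hDM : ∀ v ∈ dual J M, ϖ ^ s • v ∈ M' := fun v hv =>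
    ⟨0, h.lat.zero, v, hv, by rw [zero_add]⟩
  have hM'D : ∀ v ∈ M', v ∈ dual J M := by
    rintro _ ⟨a, ha, b, hb, rfl⟩
    exact hDu.add _ (hMD a ha) _ (hDu.smul _ (hps s) _ hb)
  refine ⟨M', ⟨⟨?_, ?_, ?_, ?_⟩, ?_, ?_, ?_⟩⟩
  · rintro _ ⟨a, ha, b, hb, rfl⟩ _ ⟨a', ha', b', hb', rfl⟩
    refine ⟨a + a', h.lat.add _ ha _ ha', b + b', hDu.add _ hb _ hb', ?_⟩
    rw [smul_add]; abel
  · rintro c hc _ ⟨a, ha, b, hb, rfl⟩
    refine ⟨c • a, h.lat.smul c hc _ ha, c • b, hDu.smul c hc _ hb, ?_⟩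
    rw [smul_add, smul_comm_ϖ hϖc]
  · obtain ⟨R, hR0, hR⟩ := hDu.bdd
    exact ⟨R, hR0, fun v hv => hR v (hM'D v hv)⟩
  · obtain ⟨t, ht0, ht⟩ := h.lat.abs
    exact ⟨t, ht0, fun v hv => hMM _ (ht v hv)⟩
  · rintro _ ⟨a, ha, b, hb, rfl⟩ g hg
    refine ⟨a ᵥ* g, h.stab a ha g hg, b ᵥ* g, hstab b hb g hg, ?_⟩
    rw [Matrix.add_vecMul, Matrix.smul_vecMul]
  · rintro _ ⟨a, ha, b, hb', rfl⟩ _ ⟨a', ha', b', hb'', rfl⟩
    rw [hf_add_left, hf_add_right, hf_add_right]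
    have h1 : ‖hf J a a'‖ ≤ 1 := h.int a ha a' ha'
    have h2 : ‖hf J a (ϖ ^ s • b')‖ ≤ 1 := by
      rw [hJ.sym]
      exact (hDu.smul _ (hps s) _ hb'') a ha
    have h3 : ‖hf J (ϖ ^ s • b) a'‖ ≤ 1 := (hDu.smul _ (hps s) _ hb') a' ha'
    have h4 : ‖hf J (ϖ ^ s • b) (ϖ ^ s • b')‖ ≤ 1 := by
      rw [hf_smul_left, hf_smul_right, norm_mul, norm_mul, hJ.nrm, norm_pow]
      have h5 := hb b hb' b' hb''
      have h6 : 0 < ‖ϖ‖ ^ r := pow_pos (norm_pos_iff.mpr hϖ0) r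
      have h7 : ‖ϖ‖ ^ s * ‖ϖ‖ ^ s ≤ ‖ϖ‖ ^ r := by
        rw [← pow_add]
        exact pow_le_pow_of_le_one hn0 hϖ.le (by omega)
      calc ‖ϖ‖ ^ s * (‖hf J b b'‖ * ‖ϖ‖ ^ s) = (‖ϖ‖ ^ s * ‖ϖ‖ ^ s) * ‖hf J b b'‖ := by ring
        _ ≤ ‖ϖ‖ ^ r * (‖ϖ‖ ^ r)⁻¹ := mul_le_mul h7 h5 (norm_nonneg _) h6.le
        _ = 1 := mul_inv_cancel₀ h6.ne'
    refine (IsUltrametricDist.norm_add_le_max _ _).trans (max_le ?_ ?_)
    · exact (IsUltrametricDist.norm_add_le_max _ _).trans (max_le h1 h2)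
    · exact (IsUltrametricDist.norm_add_le_max _ _).trans (max_le h3 h4)
  · intro v hv
    refine hMM _ (dual_dual hD hJ h.lat ?_)
    intro m hm
    have h1 := hv _ (hDM m hm)
    rw [hf_smul_right, norm_mul, hJ.nrm] at h1
    rw [hf_smul_left, norm_mul, mul_comm]
    exact h1

theorem PM.last [ProperSpace D] (hD : Sm D) (hJ : Hrm ε J) (hW : Wcp J W) (hϖ : ‖ϖ‖ < 1)
    (hϖ0 : ϖ ≠ 0) (hϖc : ∀ x : D, ϖ * x = x * ϖ) :
    ∃ M, PM J W ϖ M 1 := by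
  obtain ⟨M, r, h⟩ := PM.start hD hJ hW hϖ
  induction r using Nat.strong_induction_on generalizing M with
  | _ r ih =>
    by_cases hr : r ≤ 2
    · exact h.step hD hJ hW hϖ hϖ0 hϖc (s := 1) (by omega)
    · obtain ⟨M', h'⟩ := h.step hD hJ hW hϖ hϖ0 hϖc (s := (r + 1) / 2) (by omega)
      exact ih _ (by omega) M' h'

/-- the conjugate transpose of a unit -/
def ct (z : (Matrix n n D)ˣ) : (Matrix n n D)ˣ where
  val := z.1ᴴ
  inv := (z⁻¹).1ᴴ
  val_inv := by rw [← conjTranspose_mul, Units.inv_mul, conjTranspose_one]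
  inv_val := by rw [← conjTranspose_mul, Units.mul_inv, conjTranspose_one]

theorem ct_val (z : (Matrix n n D)ˣ) : (ct z).1 = z.1ᴴ := rfl

theorem ct_inv_val (z : (Matrix n n D)ˣ) : ((ct z)⁻¹).1 = (z⁻¹).1ᴴ := rfl

theorem ct_mul (z w : (Matrix n n D)ˣ) : ct (z * w) = ct w * ct z :=
  Units.ext (conjTranspose_mul _ _)

/-- The Gram matrix. -/
def gram (Ju z : (Matrix n n D)ˣ) : (Matrix n n D)ˣ := z * Ju * ct z

theorem gram_val (Ju z : (Matrix n n D)ˣ) : (gram Ju z).1 = z.1 * Ju.1 * z.1ᴴ := rfl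

theorem hf_rows (Ju z : (Matrix n n D)ˣ) (a b : n → D) :
    hf Ju.1 (a ᵥ* z.1) (b ᵥ* z.1) = hf (gram Ju z).1 a b := by
  rw [hf_vecMul]
  rfl

theorem hf_single_single (A : Matrix n n D) (i j : n) :
    hf A (Pi.single i 1) (Pi.single j 1) = A i j := by
  rw [hf_single, star_one, mul_one, single_one_vecMul]
  rfl

theorem gram_apply (Ju z : (Matrix n n D)ˣ) (i j : n) :
    (gram Ju z).1 i j = hf Ju.1 ((Pi.single i 1 : n → D) ᵥ* z.1)
      ((Pi.single j 1 : n → D) ᵥ* z.1) := by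
  rw [hf_rows, hf_single_single]

/-- **(1) + (2)** A bounded group of isometries is integral with respect to a basis whose Gram
matrix is integral and almost invertible. -/
theorem exists_near [ProperSpace D] (hD : Sm D) {Ju : (Matrix n n D)ˣ} (hJ : Hrm ε Ju.1)
    (hW : Wcp Ju.1 W) (hϖ : ‖ϖ‖ < 1) (hϖ0 : ϖ ≠ 0) (hϖc : ∀ x : D, ϖ * x = x * ϖ) :
    ∃ z : (Matrix n n D)ˣ, (∀ g ∈ W, Bd 1 (z.1 * g * (z⁻¹).1)) ∧ Bd 1 (gram Ju z).1 ∧
      Bd ‖ϖ‖⁻¹ ((gram Ju z)⁻¹).1 := by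
  obtain ⟨M, h⟩ := PM.last hD hJ hW hϖ hϖ0 hϖc
  obtain ⟨z, hM⟩ := h.lat.exists_basis hD
  have hrow : ∀ i, (Pi.single i 1 : n → D) ᵥ* z.1 ∈ M := by
    intro i
    rw [hM, vecMul_cancel_inv]
    exact vb_single zero_le_one (by rw [norm_one])
  refine ⟨z, fun g hg i j => ?_, fun i j => ?_, fun i j => ?_⟩
  · have h1 := (hM _).mp (h.stab _ (hrow i) g hg) j
    have h2 : (z.1 * g * (z⁻¹).1) i j = (((Pi.single i 1 : n → D) ᵥ* z.1 ᵥ* g) ᵥ* (z⁻¹).1) j := by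
      rw [vecMul_vecMul, vecMul_vecMul, ← Matrix.mul_assoc, single_one_vecMul]
      rfl
    rw [h2]
    exact h1
  · rw [gram_apply]
    exact h.int _ (hrow i) _ (hrow j)
  · obtain ⟨m, hm⟩ := exists_dual hJ z j
    have hmD : m ∈ dual Ju.1 M := fun u hu => by
      rw [hJ.sym, hm]
      exact (hM u).mp hu j
    have h1 := (hM _).mp (h.near m hmD)
    rw [pow_one, smul_vecMul] at h1
    set b := m ᵥ* (z⁻¹).1 with hb
    have hmb : m = b ᵥ* z.1 := by rw [hb, vecMul_inv_cancel]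
    have h2 : (gram Ju z).1 *ᵥ star b = Pi.single j 1 := by
      funext l
      have h3 := hm ((Pi.single l 1 : n → D) ᵥ* z.1)
      rw [hmb, hf_rows, vecMul_cancel_inv] at h3
      unfold hf at h3
      rw [single_one_dotProduct] at h3
      rw [h3, Pi.single_apply, Pi.single_apply]
      by_cases hlj : l = j
      · subst hlj; simp
      · simp [hlj, Ne.symm hlj]
    have h3 : ((gram Ju z)⁻¹).1 *ᵥ (Pi.single j 1) = star b := by
      rw [← h2, mulVec_mulVec, Units.inv_mul, one_mulVec]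
    have h4 : ((gram Ju z)⁻¹).1 i j = star (b i) := by
      have := congrFun h3 i
      rwa [mulVec_single_one] at this
    rw [h4, hJ.nrm]
    have h5 := h1 i
    rw [Pi.smul_apply, smul_eq_mul, norm_mul] at h5
    rw [← one_div, le_div_iff₀ (norm_pos_iff.mpr hϖ0), mul_comm]
    exact h5

end Vale.Agent.P092.H183.DV
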