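import Vale.Agent.P092.H183.DV4

/-!
P092, block CLASS-H (helper183), part U4, 5: nearby forms are equivalent (square roots near `1`), and
finitely many lattices up to isometry.
-/

set_option linter.all false

open Matrix Topology Filter

namespace Vale.Agent.P092.H183.DV

open Vale.Agent.P092.H103.QH
open Vale.Agent.P092.H289.DT (Vb Bd isOpen_bd isCompact_bd isCompact_vb exists_bd)

section sup

variable {n D : Type*} [Fintype n] [DecidableEq n] [NormedDivisionRing D]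

/-- the largest norm of an entry -/
noncomputable def sup (A : Matrix n n D) : ℝ := ‖(fun i j => A i j : n → n → D)‖

theorem sup_nonneg (A : Matrix n n D) : 0 ≤ sup A := norm_nonneg _

theorem bd_sup (A : Matrix n n D) : Bd (sup A) A := fun i j =>
  (norm_le_pi_norm (fun j => A i j) j).trans
    (norm_le_pi_norm (fun i j => A i j : n → n → D) i)

theorem sup_le {A : Matrix n n D} {r : ℝ} (hr : 0 ≤ r) (h : Bd r A) : sup A ≤ r :=
  (pi_norm_le_iff_of_nonneg hr).mpr fun i => (pi_norm_le_iff_of_nonneg hr).mpr fun j => h i j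

theorem eq_zero_of_sup {A : Matrix n n D} (h : sup A = 0) : A = 0 := by
  ext i j
  have := bd_sup A i j
  rw [h] at this
  exact norm_le_zero_iff.1 this

theorem continuous_sup : Continuous (sup : Matrix n n D → ℝ) := by
  unfold sup
  exact continuous_norm.comp (by exact continuous_id)

end sup

section sqrt

variable {n D : Type*} [Fintype n] [DecidableEq n] [NormedDivisionRing D] [IsUltrametricDist D]

theorem norm_two_le : ‖(2 : D)‖ ≤ 1 := by
  have h : (2 : D) = 1 + 1 := by norm_num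
  rw [h]
  exact (IsUltrametricDist.norm_add_le_max _ _).trans (by simp)

theorem bd_mul_of {A B : Matrix n n D} {r s t : ℝ} (hr : 0 ≤ r) (hs : 0 ≤ s) (hA : Bd r A)
    (hB : Bd s B) (h : r * s ≤ t) : Bd t (A * B) := (Bd.mul hr hs hA hB).mono h

/-- **Square roots near `1`.** -/
theorem exists_sqrt [ProperSpace D] (h2 : (2 : D) ≠ 0) {η : ℝ} (h0 : 0 < η)
    (h1 : η ≤ ‖(2 : D)‖ / 2) {X : Matrix n n D} (hX : Bd (η * ‖(2 : D)‖) X) :
    ∃ a : Matrix n n D, (1 + a) * (1 + a) = 1 + X ∧ Bd η a := by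
  obtain ⟨τ, hτ⟩ : ∃ τ, τ = ‖(2 : D)‖ := ⟨_, rfl⟩
  have hτ0 : 0 < τ := by rw [hτ]; exact norm_pos_iff.2 h2
  rw [← hτ] at h1 hX
  set f : Matrix n n D → ℝ := fun a => sup (1 + X - (1 + a) * (1 + a)) with hf
  have hfc : Continuous f := by
    refine continuous_sup.comp ?_
    have h3 : Continuous fun a : Matrix n n D => 1 + a := continuous_const.add continuous_id
    exact continuous_const.sub (h3.matrix_mul h3)
  have hz : Bd η (0 : Matrix n n D) := fun i j => by rw [Matrix.zero_apply, norm_zero]; exact h0.le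
  obtain ⟨a, ha, hmin⟩ := (isCompact_bd (n := n) (D := D) η).exists_isMinOn ⟨0, hz⟩
    hfc.continuousOn
  have ha' : Bd η a := ha
  have hmin' : ∀ b : Matrix n n D, Bd η b → f a ≤ f b := fun b hb => hmin hb
  have hr0 : 0 ≤ f a := sup_nonneg _
  by_cases hr : f a = 0
  · refine ⟨a, ?_, ha'⟩
    have := eq_zero_of_sup hr
    exact (sub_eq_zero.1 this).symm
  · exfalso
    have hrpos : 0 < f a := lt_of_le_of_ne hr0 (Ne.symm hr)
    have hrX : f a ≤ η * τ := by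
      refine (hmin' 0 hz).trans (sup_le (by positivity) ?_)
      have e : 1 + X - (1 + 0) * (1 + 0) = X := by noncomm_ring
      rw [e]
      exact hX
    obtain ⟨E, hE⟩ : ∃ E, E = 1 + X - (1 + a) * (1 + a) := ⟨_, rfl⟩
    have hEb : Bd (f a) E := by rw [hE]; exact bd_sup _
    set h : Matrix n n D := Matrix.of fun i j => (2 : D)⁻¹ * E i j with hh
    have hhE : h + h = E := by
      ext i j
      rw [Matrix.add_apply, ← two_mul, hh, Matrix.of_apply, mul_inv_cancel_left₀ h2]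
    have hhb : Bd (f a / τ) h := by
      intro i j
      rw [hh, Matrix.of_apply, norm_mul, norm_inv, ← hτ, div_eq_inv_mul]
      exact mul_le_mul_of_nonneg_left (hEb i j) (by positivity)
    have hrτ : f a / τ ≤ η := by rw [div_le_iff₀ hτ0]; exact hrX
    have hrτ0 : 0 ≤ f a / τ := by positivity
    have ha1 : Bd η (a + h) := Bd.add ha' (hhb.mono hrτ)
    have e1 : 1 + X - (1 + (a + h)) * (1 + (a + h)) = -(a * h + h * a + h * h) := by
      have e2 : 1 + X - (1 + (a + h)) * (1 + (a + h)) =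
          (1 + X - (1 + a) * (1 + a)) - (h + h) - (a * h + h * a + h * h) := by noncomm_ring
      rw [e2, hhE, ← hE, sub_self, zero_sub]
    have e3 : Bd (f a / 2) (1 + X - (1 + (a + h)) * (1 + (a + h))) := by
      rw [e1]
      have hk : η * (f a / τ) ≤ f a / 2 := by
        calc η * (f a / τ) ≤ (τ / 2) * (f a / τ) := mul_le_mul_of_nonneg_right h1 hrτ0
          _ = f a / 2 := by field_simp
      have b1 : Bd (f a / 2) (a * h) := bd_mul_of h0.le hrτ0 ha' hhb hk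
      have b2 : Bd (f a / 2) (h * a) := bd_mul_of hrτ0 h0.le hhb ha' (by rw [mul_comm]; exact hk)
      have b3 : Bd (f a / 2) (h * h) := bd_mul_of h0.le hrτ0 (hhb.mono hrτ) hhb hk
      intro i j
      rw [Matrix.neg_apply, norm_neg]
      exact Bd.add (Bd.add b1 b2) b3 i j
    have h5 : f a ≤ f a / 2 := (hmin' _ ha1).trans (sup_le (by positivity) e3)
    linarith

/-- Local uniqueness of square roots. -/
theorem sqrt_inj (h2 : (2 : D) ≠ 0) {η : ℝ} (h0 : 0 < η) (h1 : η ≤ ‖(2 : D)‖ / 2)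
    {a b : Matrix n n D} (ha : Bd η a) (hb : Bd η b)
    (h : (1 + a) * (1 + a) = (1 + b) * (1 + b)) : a = b := by
  obtain ⟨τ, hτ⟩ : ∃ τ, τ = ‖(2 : D)‖ := ⟨_, rfl⟩
  have hτ0 : 0 < τ := by rw [hτ]; exact norm_pos_iff.2 h2
  rw [← hτ] at h1
  obtain ⟨c, hc⟩ : ∃ c, c = a - b := ⟨_, rfl⟩
  have e1 : c + c = -(a * c + c * b) := by
    have h3 : (1 + a) * (1 + a) - (1 + b) * (1 + b) = (c + c) + (a * c + c * b) := by
      rw [hc]; noncomm_ring
    rw [h, sub_self] at h3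
    exact eq_neg_of_add_eq_zero_left h3.symm
  have hN0 := sup_nonneg c
  have hbd : Bd (η * sup c) (c + c) := by
    rw [e1]
    intro i j
    rw [Matrix.neg_apply, norm_neg]
    exact Bd.add (bd_mul_of h0.le hN0 ha (bd_sup c) le_rfl)
      (bd_mul_of hN0 h0.le (bd_sup c) hb (by rw [mul_comm])) i j
  have h4 : sup c ≤ sup c / 2 := by
    refine sup_le (by positivity) fun i j => ?_
    have h5 := hbd i j
    rw [Matrix.add_apply, ← two_mul, norm_mul, ← hτ] at h5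
    have h6 : τ * ‖c i j‖ ≤ τ * (sup c / 2) := by
      refine h5.trans ?_
      calc η * sup c ≤ (τ / 2) * sup c := mul_le_mul_of_nonneg_right h1 hN0
        _ = τ * (sup c / 2) := by ring
    exact le_of_mul_le_mul_left h6 hτ0
  have h7 : sup c = 0 := by linarith
  have h8 := eq_zero_of_sup h7
  rw [hc] at h8
  exact sub_eq_zero.1 h8

/-- The inverse of a matrix near `1` is integral. -/
theorem bd_inv {η : ℝ} (h0 : 0 ≤ η) (h1 : η < 1) {a w : Matrix n n D} (ha : Bd η a)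
    (h : (1 + a) * w = 1) : Bd 1 w := by
  have e : w = 1 - a * w := by
    have : (1 + a) * w = w + a * w := by noncomm_ring
    rw [this] at h
    rw [← h]; abel
  have hN0 := sup_nonneg w
  have hb : Bd (max 1 (η * sup w)) w := by
    rw [e]
    conv => arg 1; rw [← e]
    exact bd_sub (Bd.one.mono (le_max_left _ _))
      (bd_mul_of h0 hN0 ha (bd_sup w) (le_max_right _ _))
  have h3 : sup w ≤ max 1 (η * sup w) := sup_le (by positivity) hb
  have h4 : sup w ≤ 1 := by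
    by_contra hcon
    push Not at hcon
    rcases le_max_iff.1 h3 with h5 | h5
    · linarith
    · nlinarith
  exact (bd_sup w).mono h4

end sqrt

section hens

variable {n D : Type*} [Fintype n] [DecidableEq n] [NormedDivisionRing D] [StarRing D]
  [IsUltrametricDist D] {ε : D}

/-- `ε`-hermitian matrices -/
def Hm (ε : D) (A : Matrix n n D) : Prop := Aᴴ = ε • A

theorem Hm.gram (he : ε = 1 ∨ ε = -1) {Ju : (Matrix n n D)ˣ} (h : Hm ε Ju.1)
    (z : (Matrix n n D)ˣ) : Hm ε (gram Ju z).1 := by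
  unfold Hm at *
  rw [gram_val, conjTranspose_mul, conjTranspose_mul, conjTranspose_conjTranspose, h]
  rcases he with rfl | rfl
  · rw [one_smul, one_smul, Matrix.mul_assoc]
  · rw [neg_one_smul, neg_one_smul, Matrix.neg_mul, Matrix.mul_neg, Matrix.mul_assoc]

theorem Hrm.hm {J : Matrix n n D} (hJ : Hrm ε J) : Hm ε J := by
  unfold Hm
  ext i j
  rw [conjTranspose_apply, Matrix.smul_apply, smul_eq_mul]
  have h1 := hJ.herm (Pi.single j 1) (Pi.single i 1)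
  rw [hf_single_single, hf_single_single] at h1
  rw [h1, ← mul_assoc, eps_sq hJ.eps, one_mul]

theorem Hm.conj (he : ε = 1 ∨ ε = -1) {A B : (Matrix n n D)ˣ} (hA : Hm ε A.1) (hB : Hm ε B.1) :
    A.1 * (A⁻¹).1ᴴ * B.1ᴴ = B.1 := by
  have h1 : (A⁻¹).1ᴴ * A.1ᴴ = 1 := by rw [← conjTranspose_mul, Units.mul_inv, conjTranspose_one]
  unfold Hm at hA hB
  rw [hA] at h1
  rw [hB]
  rcases he with rfl | rfl
  · rw [one_smul] at h1 ⊢
    have h2 : A.1 * (A⁻¹).1ᴴ = 1 := mul_eq_one_symm h1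
    rw [h2, Matrix.one_mul]
  · rw [neg_one_smul] at h1 ⊢
    have h2 : -((A⁻¹).1ᴴ) * A.1 = 1 := by rw [Matrix.neg_mul, ← Matrix.mul_neg]; exact h1
    have h3 : A.1 * -((A⁻¹).1ᴴ) = 1 := mul_eq_one_symm h2
    rw [Matrix.mul_neg, ← Matrix.neg_mul, ← Matrix.mul_neg, h3, Matrix.one_mul]

/-- Invertible integral matrices with integral inverse. -/
def IsInt (u : (Matrix n n D)ˣ) : Prop := Bd 1 u.1 ∧ Bd 1 (u⁻¹).1

/-- **Uniform Hensel lemma.** -/
theorem hensel [ProperSpace D] (h2 : (2 : D) ≠ 0) (hst : ∀ x : D, ‖star x‖ = ‖x‖)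
    (he : ε = 1 ∨ ε = -1) {A B : (Matrix n n D)ˣ} (hA : Hm ε A.1) (hB : Hm ε B.1)
    (hA1 : Bd 1 A.1) {s δ : ℝ} (hs : 1 ≤ s) (hAi : Bd s (A⁻¹).1) (hδ : 0 < δ)
    (hδ' : δ * s * (2 * s) ≤ ‖(2 : D)‖ * ‖(2 : D)‖) (hE : Bd δ (B.1 - A.1)) :
    ∃ u : (Matrix n n D)ˣ, IsInt u ∧ B = u * A * ct u := by
  obtain ⟨τ, hτ⟩ : ∃ τ, τ = ‖(2 : D)‖ := ⟨_, rfl⟩
  have hτ0 : 0 < τ := by rw [hτ]; exact norm_pos_iff.2 h2
  have hτ1 : τ ≤ 1 := by rw [hτ]; exact norm_two_le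
  rw [← hτ] at hδ'
  have hs0 : 0 < s := by linarith
  obtain ⟨η, hη⟩ : ∃ η, η = τ / (2 * s) := ⟨_, rfl⟩
  have hη0 : 0 < η := by rw [hη]; positivity
  have hηs : η * s = τ / 2 := by rw [hη]; field_simp
  have hη1 : η ≤ τ / 2 := by
    rw [← hηs]
    exact le_mul_of_one_le_right hη0.le hs
  -- the square root
  have hX : Bd (η * τ) ((B.1 - A.1) * (A⁻¹).1) := by
    refine bd_mul_of hδ.le hs0.le hE hAi ?_
    rw [hη, div_mul_eq_mul_div, le_div_iff₀ (by positivity)]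
    exact hδ'
  obtain ⟨a, ha, hab⟩ := exists_sqrt h2 hη0 (by rw [← hτ]; exact hη1) (by rw [← hτ]; exact hX)
  have hBA : (1 + a) * (1 + a) = B.1 * (A⁻¹).1 := by
    rw [ha, sub_mul, Units.mul_inv]
    abel
  -- the unit
  have hr : (1 + a) * ((1 + a) * (A.1 * (B⁻¹).1)) = 1 := by
    rw [← mul_assoc, hBA, mul_assoc, ← mul_assoc (A⁻¹).1, Units.inv_mul, one_mul, Units.mul_inv]
  have hl := mul_eq_one_symm hr
  obtain ⟨u, hu⟩ : ∃ u : (Matrix n n D)ˣ, u.1 = 1 + a := ⟨⟨1 + a, _, hr, hl⟩, rfl⟩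
  have hη2 : η < 1 := by linarith
  have hui : IsInt u := by
    refine ⟨?_, ?_⟩
    · rw [hu]
      exact Bd.add Bd.one (hab.mono hη2.le)
    · refine bd_inv hη0.le hη2 hab ?_
      rw [← hu, Units.mul_inv]
  -- the other root
  obtain ⟨b, hb⟩ : ∃ b, b = A.1 * aᴴ * (A⁻¹).1 := ⟨_, rfl⟩
  have hbb : Bd (τ / 2) b := by
    rw [hb, ← hηs]
    have h3 : Bd (1 * η) (A.1 * aᴴ) := Bd.mul zero_le_one hη0.le hA1 (bd_ct hst hab)
    rw [one_mul] at h3
    exact Bd.mul hη0.le hs0.le h3 hAi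
  have e1 : 1 + b = A.1 * (1 + a)ᴴ * (A⁻¹).1 := by
    rw [hb, conjTranspose_add, conjTranspose_one, mul_add, mul_one, add_mul, Units.mul_inv]
  have e2 : (1 + b) * (1 + b) = (1 + a) * (1 + a) := by
    rw [e1]
    have h3 : A.1 * (1 + a)ᴴ * (A⁻¹).1 * (A.1 * (1 + a)ᴴ * (A⁻¹).1) =
        A.1 * ((1 + a)ᴴ * (1 + a)ᴴ) * (A⁻¹).1 := by
      calc A.1 * (1 + a)ᴴ * (A⁻¹).1 * (A.1 * (1 + a)ᴴ * (A⁻¹).1)
          = A.1 * (1 + a)ᴴ * ((A⁻¹).1 * A.1) * (1 + a)ᴴ * (A⁻¹).1 := by simp only [mul_assoc]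
        _ = _ := by rw [Units.inv_mul, mul_one]; simp only [mul_assoc]
    rw [h3, ← conjTranspose_mul, hBA, conjTranspose_mul, ← mul_assoc, Hm.conj he hA hB]
  have hab' : b = a := by
    refine sqrt_inj (η := τ / 2) h2 (by positivity) (by rw [hτ]) hbb (hab.mono hη1) e2
  refine ⟨u, hui, Units.ext ?_⟩
  show B.1 = u.1 * A.1 * u.1ᴴ
  have e3 : A.1 * u.1ᴴ = u.1 * A.1 := by
    have h3 : (1 + a) * A.1 = A.1 * (1 + a)ᴴ := by
      have h4 := e1
      rw [hab'] at h4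
      calc (1 + a) * A.1 = A.1 * (1 + a)ᴴ * (A⁻¹).1 * A.1 := by rw [← h4]
        _ = A.1 * (1 + a)ᴴ := by rw [mul_assoc, Units.inv_mul, mul_one]
    rw [hu, h3]
  rw [mul_assoc, e3, ← mul_assoc, hu, hBA, mul_assoc, Units.inv_mul, mul_one]

/-- **(3) + (4)** Finitely many lattices up to isometry. -/
theorem exists_reps [ProperSpace D] (hD : Sm D) (h2 : (2 : D) ≠ 0) {Ju : (Matrix n n D)ˣ}
    (hJ : Hrm ε Ju.1) {ϖ : D} (hϖ : ‖ϖ‖ < 1) (hϖ0 : ϖ ≠ 0) (hϖc : ∀ x : D, ϖ * x = x * ϖ) :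
    ∃ F : Set (Matrix n n D)ˣ, F.Finite ∧ F.Nonempty ∧
      ∀ W : Set (Matrix n n D), Wcp Ju.1 W → ∃ z ∈ F, ∃ g ∈ FG Ju.1,
        ∀ w ∈ W, Bd 1 (z.1 * (g.1 * w * (g⁻¹).1) * (z⁻¹).1) := by
  have hϖ0' : 0 < ‖ϖ‖ := norm_pos_iff.2 hϖ0
  obtain ⟨s, hs⟩ : ∃ s, s = ‖ϖ‖⁻¹ := ⟨_, rfl⟩
  have hs1 : 1 ≤ s := by rw [hs]; exact (one_le_inv₀ hϖ0').mpr hϖ.le
  have hτ0 : 0 < ‖(2 : D)‖ := norm_pos_iff.2 h2
  obtain ⟨δ, hδ⟩ : ∃ δ, δ = ‖(2 : D)‖ * ‖(2 : D)‖ / (s * (2 * s)) := ⟨_, rfl⟩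
  have hδ0 : 0 < δ := by rw [hδ]; positivity
  have hδs : δ * s * (2 * s) ≤ ‖(2 : D)‖ * ‖(2 : D)‖ := by
    rw [hδ]
    have : s ≠ 0 := by positivity
    field_simp
    exact le_rfl
  set Z : Set (n → n → D) := {A | ∃ z : (Matrix n n D)ˣ, (gram Ju z).1 = Matrix.of A ∧
    Bd 1 (gram Ju z).1 ∧ Bd s ((gram Ju z)⁻¹).1} with hZ
  have hc : IsCompact (Set.pi Set.univ fun _ : n => Set.pi Set.univ
      fun _ : n => Metric.closedBall (0 : D) 1) :=
    isCompact_univ_pi fun _ => isCompact_univ_pi fun _ => isCompact_closedBall _ _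
  have hZt : TotallyBounded Z := by
    refine hc.totallyBounded.subset ?_
    rintro A ⟨z, hz, h1, -⟩ i _ j _
    rw [Metric.mem_closedBall, dist_zero_right]
    have := h1 i j
    rwa [hz] at this
  obtain ⟨t, htZ, htf, htc⟩ := Metric.finite_approx_of_totallyBounded hZt δ hδ0
  have htZ' : ∀ A ∈ t, ∃ z : (Matrix n n D)ˣ, (gram Ju z).1 = Matrix.of A ∧
    Bd 1 (gram Ju z).1 ∧ Bd s ((gram Ju z)⁻¹).1 := fun A hA => htZ hA
  choose! f hf' using htZ'
  refine ⟨insert 1 (f '' t), (htf.image f).insert 1, ⟨1, Set.mem_insert _ _⟩, ?_⟩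
  intro W hW
  obtain ⟨z', hzW, hz1, hz2⟩ := exists_near hD hJ hW hϖ hϖ0 hϖc
  rw [← hs] at hz2
  obtain ⟨G', hG'⟩ : ∃ G' : n → n → D, G' = fun i j => (gram Ju z').1 i j := ⟨_, rfl⟩
  obtain ⟨A, hAt, hAd⟩ : ∃ A ∈ t, dist G' A < δ := by
    have := htc (show G' ∈ Z from ⟨z', by rw [hG']; rfl, hz1, hz2⟩)
    simpa using this
  obtain ⟨hzg, hzb, hzi⟩ := hf' A hAt
  set z := f A with hz
  obtain ⟨u, hu, hue⟩ := hensel h2 hJ.nrm hJ.eps (A := gram Ju z) (B := gram Ju z')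
    (hJ.hm.gram hJ.eps z) (hJ.hm.gram hJ.eps z') hzb hs1 hzi hδ0 hδs (by
      intro i j
      rw [Matrix.sub_apply, hzg, Matrix.of_apply]
      have h1 := (dist_le_pi_dist G' A i)
      have h3 := (dist_le_pi_dist (G' i) (A i) j)
      rw [dist_eq_norm, hG'] at h3
      rw [hG'] at h1 hAd
      exact (h3.trans h1).trans hAd.le)
  have hgr : gram Ju z' = gram Ju (u * z) := by
    rw [hue]
    unfold gram
    rw [ct_mul]
    simp only [mul_assoc]
  obtain ⟨g, hg⟩ : ∃ g, g = (u * z)⁻¹ * z' := ⟨_, rfl⟩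
  have hzg' : z' = u * z * g := by rw [hg, mul_inv_cancel_left]
  refine ⟨z, Set.mem_insert_of_mem _ ⟨A, hAt, rfl⟩, g, ?_, ?_⟩
  · have h1 : gram Ju z' = (u * z) * gram Ju g * ct (u * z) := by
      rw [hzg']
      unfold gram
      rw [ct_mul (u * z) g]
      simp only [mul_assoc]
    rw [hgr] at h1
    have h3 : (u * z) * Ju * ct (u * z) = (u * z) * gram Ju g * ct (u * z) := h1
    have h4 : Ju = gram Ju g := mul_left_cancel (mul_right_cancel h3)
    show g.1 * Ju.1 * g.1ᴴ = Ju.1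
    have h5 := congrArg Units.val h4
    rw [gram_val] at h5
    exact h5.symm
  · intro w hw
    have h1 : z.1 * (g.1 * w * (g⁻¹).1) * (z⁻¹).1 = (u⁻¹).1 * (z'.1 * w * (z'⁻¹).1) * u.1 := by
      have h3 : z'⁻¹ = g⁻¹ * (z⁻¹ * u⁻¹) := by
        rw [hzg', _root_.mul_inv_rev, _root_.mul_inv_rev]
      have h4 : z'.1 = u.1 * z.1 * g.1 := by rw [hzg']; rfl
      have h5 : (z'⁻¹).1 = (g⁻¹).1 * ((z⁻¹).1 * (u⁻¹).1) := by rw [h3]; rfl
      rw [h4, h5]
      have h6 : (u⁻¹).1 * u.1 = 1 := Units.inv_mul u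
      calc z.1 * (g.1 * w * (g⁻¹).1) * (z⁻¹).1
          = 1 * (z.1 * (g.1 * w * (g⁻¹).1) * (z⁻¹).1) * 1 := by rw [one_mul, mul_one]
        _ = ((u⁻¹).1 * u.1) * (z.1 * (g.1 * w * (g⁻¹).1) * (z⁻¹).1) * ((u⁻¹).1 * u.1) := by
            rw [h6]
        _ = _ := by simp only [mul_assoc]
    rw [h1]
    exact bd_mul_one (bd_mul_one hu.2 (hzW w hw)) hu.1

end hens

end Vale.Agent.P092.H183.DV
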