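import Vale.Agent.P092.H183.DV5

/-!
P092, block CLASS-H (helper183), part U4, 6: the volumes of the compact subgroups are bounded and the
bound is attained; the compact open subgroups form a basis of neighbourhoods of `1`.
-/

set_option linter.all false

open Matrix Topology Filter MeasureTheory MeasureTheory.Measure
open scoped NNReal ENNReal

namespace Vale.Agent.P092.H183.DV

open Vale.Agent.P092.H103.QH
open Vale.Agent.P092.H289.DT (Vb Bd isOpen_bd isCompact_bd isCompact_vb exists_bd)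

section haar

variable {n D : Type*} [Fintype n] [DecidableEq n] [NormedDivisionRing D] [StarRing D]
  [IsUltrametricDist D] [ProperSpace D] {ε : D} {Ju : (Matrix n n D)ˣ}
  {E : Subgroup (Matrix n n D)ˣ} [LocallyCompactSpace E] [MeasurableSpace E] [BorelSpace E]

/-- **(5)** The volumes of the compact subgroups are bounded and the bound is attained. -/
theorem haar_max (hD : Sm D) (h2 : (2 : D) ≠ 0) (hJ : Hrm ε Ju.1) {ϖ : D} (hϖ : ‖ϖ‖ < 1)
    (hϖ0 : ϖ ≠ 0) (hϖc : ∀ x : D, ϖ * x = x * ϖ)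
    (hE : IsClosedEmbedding fun g : E => g.1.1) (hN : Nrm Ju.1 E) (hle : E ≤ FG Ju.1)
    (hmd : ∀ A : FG Ju.1, mdG hN A = 1) :
    ∃ Θ : Subgroup E, IsOpen (Θ : Set E) ∧ IsCompact (Θ : Set E) ∧
      ∀ W : Subgroup E, IsCompact (W : Set E) → haar (W : Set E) ≤ haar (Θ : Set E) := by
  classical
  obtain ⟨F, hFf, hFn, hF⟩ := exists_reps hD h2 hJ hϖ hϖ0 hϖc
  obtain ⟨z₀, hz₀, hmax⟩ := Set.exists_max_image F
    (fun z => (haar (Th E z : Set E) : ℝ≥0∞)) hFf hFn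
  refine ⟨Th E z₀, isOpen_Th _, isCompact_Th hE _, fun W hW => ?_⟩
  obtain ⟨R, hR0, hR⟩ := bound_of_compact hW
  set W' : Set (Matrix n n D) := {w | ∃ g ∈ W, w = g.1.1} with hW'
  have hWcp : Wcp Ju.1 W' :=
    { one := ⟨1, W.one_mem, rfl⟩
      mul := by
        rintro _ ⟨g, hg, rfl⟩ _ ⟨h, hh, rfl⟩
        exact ⟨g * h, W.mul_mem hg hh, rfl⟩
      inv := by
        rintro _ ⟨g, hg, rfl⟩
        refine ⟨_, ⟨g⁻¹, W.inv_mem hg, rfl⟩, ?_⟩
        have := congrArg (fun x : E => x.1.1) (inv_mul_cancel g)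
        exact this
      bdd := ⟨R, hR0, by rintro _ ⟨g, hg, rfl⟩; exact hR g hg⟩
      iso := by
        rintro _ ⟨g, hg, rfl⟩ x y
        exact mem_FG.1 (hle g.2) x y }
  obtain ⟨z, hzF, A, hA, hgW⟩ := hF W' hWcp
  have h1 : haar (W : Set E) ≤ haar (Th E z : Set E) := by
    have h3 := mdG_smul hN ⟨A, hA⟩ (Th E z : Set E)
    rw [hmd, ENNReal.coe_one, one_mul] at h3
    rw [← h3]
    refine measure_mono fun w hw => ?_
    have h4 : ∀ w ∈ W, Bd 1 (z.1 * (cjG hN ⟨A, hA⟩ w).1.1 * (z⁻¹).1) := fun w hw =>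
      hgW w.1.1 ⟨w, hw, rfl⟩
    refine ⟨h4 w hw, ?_⟩
    have h5 := h4 _ (W.inv_mem hw)
    have e : (cjG hN ⟨A, hA⟩ w⁻¹).1.1 = ((cjG hN ⟨A, hA⟩ w).1⁻¹).1 := by
      rw [map_inv]; rfl
    rw [e] at h5
    exact h5
  exact h1.trans (hmax z hzF)

end haar

section vol

variable {n D : Type} [Fintype n] [DecidableEq n] [NormedDivisionRing D] [StarRing D]
  [IsUltrametricDist D] [ProperSpace D] {ε : D} {J : Matrix n n D}
  {E : Subgroup (Matrix n n D)ˣ}

/-- **The volume field of `QC.Td`, in terms of indices.** -/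
theorem vol_of (hD : Sm D) (h2 : (2 : D) ≠ 0) (hF : Frm ε J) (hst : ∀ x : D, ‖star x‖ = ‖x‖)
    (hnc : ∃ a b : D, a * b ≠ b * a) {ϖ : D} (hϖ : ‖ϖ‖ < 1)
    (hϖ0 : ϖ ≠ 0) (hϖc : ∀ x : D, ϖ * x = x * ϖ)
    (hE : IsClosedEmbedding fun g : E => g.1.1) (hN : Nrm J E) (hle : E ≤ FG J)
    (hGT : GT ε J ≤ E) (hperf : ∀ φ : E →* ℝ≥0ˣ, φ = 1) :
    ∃ K : Subgroup E, IsOpen (K : Set E) ∧ IsCompact (K : Set E) ∧
      ∀ U W : Subgroup E, IsOpen (U : Set E) → IsOpen (W : Set E) → IsCompact (W : Set E) →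
        U ≤ W → U ≤ K → U.relIndex W ≤ U.relIndex K := by
  haveI : LocallyCompactSpace (Matrix n n D) :=
    inferInstanceAs (LocallyCompactSpace (n → n → D))
  haveI : LocallyCompactSpace E := hE.locallyCompactSpace
  letI : MeasurableSpace E := borel E
  haveI : BorelSpace E := ⟨rfl⟩
  obtain ⟨Ju, rfl⟩ := exists_unit hF.nondeg
  have hJ : Hrm ε Ju.1 := ⟨hst, hF.eps, hF.herm, ⟨Ju, rfl⟩⟩
  obtain ⟨K, hKo, hKc, hK⟩ := haar_max hD h2 hJ hϖ hϖ0 hϖc hE hN hle
    (mdG_one hF hst hnc hE hN hle hGT hperf)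
  refine ⟨K, hKo, hKc, fun U W hU hW hWc hUW hUK => ?_⟩
  have h1 := hK W hWc
  rw [H632.haar_eq_index hU hW hWc hUW, H632.haar_eq_index hU hKo hKc hUK] at h1
  have h3 : (haar (U : Set E) : ℝ≥0∞) ≠ 0 := (hU.measure_pos _ ⟨1, Subgroup.one_mem _⟩).ne'
  have h4 : (haar (U : Set E) : ℝ≥0∞) ≠ ∞ :=
    (hWc.of_isClosed_subset (Subgroup.isClosed_of_isOpen _ hU) hUW).measure_lt_top.ne
  have h5 := (ENNReal.mul_le_mul_iff_left h3 h4).mp h1
  exact_mod_cast h5

end vol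

section basis

variable {n D : Type*} [Fintype n] [DecidableEq n] [NormedDivisionRing D] [IsUltrametricDist D]
  {E : Subgroup (Matrix n n D)ˣ}

/-- the congruence subgroups -/
def Kc (E : Subgroup (Matrix n n D)ˣ) (η : ℝ) (h0 : 0 ≤ η) (h1 : η ≤ 1) : Subgroup E where
  carrier := {g | Bd η (g.1.1 - 1) ∧ Bd η ((g.1⁻¹).1 - 1)}
  one_mem' := by
    refine ⟨?_, ?_⟩
    · show Bd η ((1 : Matrix n n D) - 1)
      rw [sub_self]; intro i j; rw [Matrix.zero_apply, norm_zero]; exact h0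
    · show Bd η (((1 : (Matrix n n D)ˣ)⁻¹).1 - 1)
      rw [inv_one]
      show Bd η ((1 : Matrix n n D) - 1)
      rw [sub_self]; intro i j; rw [Matrix.zero_apply, norm_zero]; exact h0
  mul_mem' := by
    have key : ∀ A B : Matrix n n D, Bd η (A - 1) → Bd η (B - 1) → Bd η (A * B - 1) := by
      intro A B hA hB
      have hB1 : Bd 1 B := by
        have := (hB.mono h1).add Bd.one
        rwa [sub_add_cancel] at this
      have e : A * B - 1 = (A - 1) * B + (B - 1) := by noncomm_ring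
      rw [e]
      refine Bd.add ?_ hB
      simpa using Bd.mul h0 zero_le_one hA hB1
    rintro a b ⟨ha, ha'⟩ ⟨hb, hb'⟩
    refine ⟨key _ _ ha hb, ?_⟩
    show Bd η (((a.1 * b.1)⁻¹).1 - 1)
    rw [_root_.mul_inv_rev]
    exact key _ _ hb' ha'
  inv_mem' := by
    rintro a ⟨ha, ha'⟩
    refine ⟨ha', ?_⟩
    show Bd η (((a.1)⁻¹⁻¹).1 - 1)
    rw [inv_inv]; exact ha

variable [ProperSpace D]

theorem isOpen_Kc {η : ℝ} (h0 : 0 < η) (h1 : η ≤ 1) : IsOpen (Kc E η h0.le h1 : Set E) :=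
  ((isOpen_bd h0.ne').preimage (continuous_valE.sub continuous_const)).inter
    ((isOpen_bd h0.ne').preimage (continuous_invE.sub continuous_const))

theorem isCompact_Kc (hE : IsClosedEmbedding fun g : E => g.1.1) {η : ℝ} (h0 : 0 < η)
    (h1 : η ≤ 1) : IsCompact (Kc E η h0.le h1 : Set E) := by
  refine (isCompact_bdE hE 1).of_isClosed_subset
    (Subgroup.isClosed_of_isOpen _ (isOpen_Kc h0 h1)) fun g hg => ?_
  have := (hg.1.mono h1).add (Bd.one (n := n) (D := D))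
  rwa [sub_add_cancel] at this

/-- **The compact open subgroups form a basis of neighbourhoods of `1`.** -/
theorem basis_of (hE : IsClosedEmbedding fun g : E => g.1.1) :
    ∀ V ∈ 𝓝 (1 : E), ∃ L : Subgroup E, IsOpen (L : Set E) ∧
      IsCompact (L : Set E) ∧ (L : Set E) ⊆ V := by
  intro V hV
  rw [hE.isInducing.nhds_eq_comap, Filter.mem_comap] at hV
  obtain ⟨O, hO, hOV⟩ := hV
  have hO' : O ∈ 𝓝 ((fun i j => (1 : Matrix n n D) i j : n → n → D)) := hO
  obtain ⟨η, hη, hb⟩ := Metric.mem_nhds_iff.1 hO'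
  have h0 : 0 < min (η / 2) 1 := by positivity
  refine ⟨Kc E (min (η / 2) 1) h0.le (min_le_right _ _), isOpen_Kc h0 _, isCompact_Kc hE h0 _, ?_⟩
  intro g hg
  apply hOV
  show g.1.1 ∈ O
  have h3 : dist (fun i j => g.1.1 i j : n → n → D) (fun i j => (1 : Matrix n n D) i j) < η := by
    refine lt_of_le_of_lt ?_ (half_lt_self hη)
    refine (dist_pi_le_iff (by positivity)).2 fun i => (dist_pi_le_iff (by positivity)).2 fun j => ?_
    rw [dist_eq_norm]
    exact (hg.1 i j).trans (min_le_left _ _)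
  exact hb (Metric.mem_ball.2 h3)

end basis

section gt

variable {n D : Type} [Fintype n] [DecidableEq n] [NormedDivisionRing D] [StarRing D]
  {ε : D} {J : Matrix n n D}

theorem nrm_GT (hF : Frm ε J) : Nrm J (GT ε J) := by
  intro A hA g hg
  have h : GT ε J ≤ (GT ε J).comap (MulAut.conj A).toMonoidHom := by
    conv_lhs => unfold GT
    rw [Subgroup.closure_le]
    rintro _ ⟨u, c, hu, hc, rfl⟩
    show A * tv J u c * A⁻¹ ∈ GT ε J
    rw [conj_tv' hA hu]
    exact tv_mem_GT (iso_vecMul (inv_mem hA) hu) hc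
  exact h hg

/-- Small elements from a large central one. -/
theorem sm_of {r : D} (hr : 1 < ‖r‖) : Sm D := by
  intro t ht
  have hr0 : r ≠ 0 := by
    rintro rfl
    rw [norm_zero] at hr
    linarith
  obtain ⟨N, hN⟩ := exists_pow_lt_of_lt_one ht (show ‖r⁻¹‖ < 1 by
    rw [norm_inv]; exact inv_lt_one_of_one_lt₀ hr)
  refine ⟨r⁻¹ ^ N, ?_, by rw [norm_pow]; exact hN⟩
  exact norm_pos_iff.2 (pow_ne_zero _ (inv_ne_zero hr0))

variable [IsUltrametricDist D] [ProperSpace D]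

/-- **The volume bound for the group generated by the transvections.** -/
theorem vol_GT (h2 : (2 : D) ≠ 0) (hF : Frm ε J) (hst : ∀ x : D, ‖star x‖ = ‖x‖)
    (hnc : ∃ a b : D, a * b ≠ b * a) {r : D} (hr : Cs r) (hr1 : 1 < ‖r‖)
    (hE : IsClosedEmbedding fun g : GT ε J => g.1.1)
    (hperf : ∀ φ : GT ε J →* ℝ≥0ˣ, φ = 1) :
    ∃ K : Subgroup (GT ε J), IsOpen (K : Set (GT ε J)) ∧ IsCompact (K : Set (GT ε J)) ∧
      ∀ U W : Subgroup (GT ε J), IsOpen (U : Set (GT ε J)) → IsOpen (W : Set (GT ε J)) →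
        IsCompact (W : Set (GT ε J)) → U ≤ W → U ≤ K → U.relIndex W ≤ U.relIndex K := by
  have hr0 : r ≠ 0 := by
    rintro rfl
    rw [norm_zero] at hr1
    linarith
  exact vol_of (sm_of hr1) h2 hF hst hnc (ϖ := r⁻¹)
    (by rw [norm_inv]; exact inv_lt_one_of_one_lt₀ hr1) (inv_ne_zero hr0) hr.inv.cm hE
    (nrm_GT hF) (GT_le hF) le_rfl hperf

end gt

end Vale.Agent.P092.H183.DV
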