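import Vale.Agent.P092.H183.VL2

/-!
P092, block VOL-CL (helper183), part 3: a compact group of isometries preserves a lattice on which
the form is integral and almost unimodular.
-/

set_option linter.all false

namespace Vale.Agent.P092.H183.Vol

open Matrix Topology Filter
open Vale.Agent.P092.H714.Cl
open Vale.Agent.P092.H303 (FormGroup)

variable {n : Type} [Fintype n] [DecidableEq n] {k : Type} [NontriviallyNormedField k]
  [IsUltrametricDist k] {σ : k →+* k} {ε : k} {J : Matrix n n k}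

theorem norm_hf_le (hσ : ∀ x, ‖σ x‖ = ‖x‖) (x y : n → k) :
    ‖hf σ J x y‖ ≤ ‖x‖ * (nm J * ‖y‖) := by
  unfold hf dotProduct mulVec dotProduct
  have h0 : 0 ≤ nm J * ‖y‖ := mul_nonneg (nm_nonneg _) (norm_nonneg y)
  refine IsUltrametricDist.norm_sum_le_of_forall_le_of_nonneg
    (mul_nonneg (norm_nonneg x) h0) fun i _ => ?_
  rw [norm_mul]
  refine mul_le_mul (norm_le_pi_norm x i) ?_ (norm_nonneg _) (norm_nonneg x)
  refine IsUltrametricDist.norm_sum_le_of_forall_le_of_nonneg h0 fun j _ => ?_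
  rw [norm_mul, hσ]
  exact mul_le_mul (bd_nm J i j) (norm_le_pi_norm y j) (norm_nonneg _) (nm_nonneg _)

omit [IsUltrametricDist k] in
theorem det_ne_zero (hF : Frm σ ε J) : J.det ≠ 0 := by
  intro h0
  obtain ⟨v, hv, hv0⟩ := Matrix.exists_vecMul_eq_zero_iff.2 h0
  obtain ⟨y, hy⟩ := hF.nondeg v hv
  apply hy
  unfold hf
  rw [dotProduct_mulVec, hv0, zero_dotProduct]

omit [IsUltrametricDist k] [DecidableEq n] in
theorem hf_row (x : n → k) (Y : Matrix n n k) (j : n) :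
    hf σ J x (Y j) = (x ᵥ* (J * st σ Y)) j := rfl

/-- A `W`-stable lattice on which the form is integral. -/
structure Lt (σ : k →+* k) (J : Matrix n n k) (W : Subgroup (SpecialLinearGroup n k))
    (M : AddSubgroup (n → k)) : Prop where
  sc : ∀ c : k, ‖c‖ ≤ 1 → ∀ x ∈ M, c • x ∈ M
  st : ∀ w ∈ W, ∀ x ∈ M, x ᵥ* w.1 ∈ M
  int : ∀ x ∈ M, ∀ y ∈ M, ‖hf σ J x y‖ ≤ 1
  ball : ∃ b : k, b ≠ 0 ∧ ∀ x : n → k, ‖x‖ ≤ ‖b‖ → x ∈ M

/-- The dual lattice. -/
def dual (σ : k →+* k) (J : Matrix n n k) (M : AddSubgroup (n → k)) : AddSubgroup (n → k) where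
  carrier := {y | ∀ x ∈ M, ‖hf σ J x y‖ ≤ 1}
  zero_mem' := fun x _ => by rw [hf_zero_right, norm_zero]; exact zero_le_one
  add_mem' := fun {y y'} hy hy' x hx => by
    rw [hf_add_right]
    exact (IsUltrametricDist.norm_add_le_max _ _).trans (max_le (hy x hx) (hy' x hx))
  neg_mem' := fun {y} hy x hx => by
    have h := hf_smul_right σ J (-1) x y
    rw [neg_one_smul] at h
    rw [h, map_neg, map_one, neg_one_mul, norm_neg]
    exact hy x hx

theorem mem_dual {M : AddSubgroup (n → k)} {y : n → k} :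
    y ∈ dual σ J M ↔ ∀ x ∈ M, ‖hf σ J x y‖ ≤ 1 := Iff.rfl

theorem dual_st {W : Subgroup (SpecialLinearGroup n k)} (hW : ∀ w ∈ W, w ∈ FormGroup σ J)
    {M : AddSubgroup (n → k)} (hM : ∀ w ∈ W, ∀ x ∈ M, x ᵥ* w.1 ∈ M)
    {w : SpecialLinearGroup n k} (hw : w ∈ W) {y : n → k}
    (hy : y ∈ dual σ J M) : y ᵥ* w.1 ∈ dual σ J M := by
  intro x hx
  have h1 := (mem_formGroup.1 (hW w hw)) (x ᵥ* (w⁻¹).1) y
  rw [← vecMul_mul', inv_mul_cancel, vecMul_one'] at h1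
  rw [h1]
  exact hy _ (hM _ (W.inv_mem hw) x hx)

theorem dual_sc (hσ : ∀ x, ‖σ x‖ = ‖x‖) {M : AddSubgroup (n → k)} {c : k} (hc : ‖c‖ ≤ 1)
    {y : n → k} (hy : y ∈ dual σ J M) : c • y ∈ dual σ J M := by
  intro x hx
  rw [hf_smul_right, norm_mul, hσ]
  have h1 := hy x hx
  have h2 := norm_nonneg (hf σ J x y)
  have h3 := norm_nonneg c
  nlinarith

/-- The herm symmetry for norms. -/
theorem norm_hf_symm (hσ : ∀ x, ‖σ x‖ = ‖x‖) (hF : Frm σ ε J) (x y : n → k) :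
    ‖hf σ J y x‖ = ‖hf σ J x y‖ := by
  have he : ‖ε‖ = 1 := by
    have h1 : ‖ε‖ * ‖ε‖ = 1 := by rw [← norm_mul, hF.eps, norm_one]
    nlinarith [norm_nonneg ε, sq_nonneg (‖ε‖ - 1)]
  rw [hF.herm x y, norm_mul, hσ, he, one_mul]

theorem hult (a b : n → k) : ‖a + b‖ ≤ max ‖a‖ ‖b‖ := by
  rw [pi_norm_le_iff_of_nonneg (le_max_of_le_left (norm_nonneg a))]
  intro i
  exact (IsUltrametricDist.norm_add_le_max _ _).trans
    (max_le_max (norm_le_pi_norm a i) (norm_le_pi_norm b i))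

/-- A first lattice. -/
theorem exists_start [ProperSpace k] (hσ : ∀ x, ‖σ x‖ = ‖x‖)
    {W : Subgroup (SpecialLinearGroup n k)}
    {R : ℝ} (hR : ∀ w ∈ W, Bd R w.1) : ∃ M, Lt σ J W M := by
  have hR0 : 0 < max R 1 := lt_max_of_lt_right one_pos
  have hR' : ∀ w ∈ W, Bd (max R 1) w.1 := fun w hw => (hR w hw).mono (le_max_left _ _)
  obtain ⟨ρ, hρ0, hρ⟩ : ∃ ρ : ℝ, 0 < ρ ∧ ρ * (nm J * ρ) ≤ 1 := by
    have h1 : 0 ≤ nm J := nm_nonneg _
    refine ⟨1 / (nm J + 1), by positivity, ?_⟩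
    rw [div_mul_eq_mul_div, one_mul, div_le_one (by positivity), mul_one_div,
      div_le_iff₀ (by positivity)]
    nlinarith
  refine ⟨{ carrier := {x | ∀ w ∈ W, ‖x ᵥ* w.1‖ ≤ ρ}
            zero_mem' := fun w _ => by rw [zero_vecMul, norm_zero]; exact hρ0.le
            add_mem' := fun {x y} hx hy w hw => by
              rw [add_vecMul]
              exact (hult _ _).trans (max_le (hx w hw) (hy w hw))
            neg_mem' := fun {x} hx w hw => by
              rw [neg_vecMul, norm_neg]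
              exact hx w hw }, ?_, ?_, ?_, ?_⟩
  · intro c hc x hx w hw
    rw [smul_vecMul, norm_smul]
    have h1 := hx w hw
    have h2 := norm_nonneg (x ᵥ* w.1)
    have h3 := norm_nonneg c
    nlinarith
  · intro w hw x hx w' hw'
    rw [← vecMul_mul']
    exact hx _ (W.mul_mem hw hw')
  · intro x hx y hy
    have h1 := hx 1 W.one_mem
    have h2 := hy 1 W.one_mem
    rw [vecMul_one'] at h1 h2
    refine (norm_hf_le hσ x y).trans (le_trans ?_ hρ)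
    have := nm_nonneg J
    gcongr
  · obtain ⟨b, hb0, hb⟩ := NormedField.exists_norm_lt k (show 0 < ρ / max R 1 by positivity)
    refine ⟨b, norm_pos_iff.1 hb0, fun x hx w hw => ?_⟩
    refine (norm_vecMul_le hR0.le (hR' w hw) x).trans ?_
    have h1 : ‖x‖ ≤ ρ / max R 1 := hx.trans hb.le
    rwa [le_div_iff₀ hR0] at h1

/-- The dual lattice is bounded. -/
theorem dual_bdd (hσ : ∀ x, ‖σ x‖ = ‖x‖) (hF : Frm σ ε J) {M : AddSubgroup (n → k)}
    {b : k} (hb0 : b ≠ 0) (hb : ∀ x : n → k, ‖x‖ ≤ ‖b‖ → x ∈ M) :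
    ∃ R : ℝ, 0 ≤ R ∧ ∀ y ∈ dual σ J M, ‖y‖ ≤ R := by
  have hbn : 0 < ‖b‖ := norm_pos_iff.2 hb0
  have hu : IsUnit J.det := isUnit_iff_ne_zero.2 (det_ne_zero hF)
  refine ⟨nm J⁻¹ * ‖b‖⁻¹, mul_nonneg (nm_nonneg _) (by positivity), fun y hy => ?_⟩
  have h1 : ∀ i, ‖(J *ᵥ fun l => σ (y l)) i‖ ≤ ‖b‖⁻¹ := by
    intro i
    have h2 : (b • (Pi.single i (1 : k) : n → k)) ∈ M := by
      refine hb _ ?_
      rw [norm_smul]
      have : ‖(Pi.single i (1 : k) : n → k)‖ ≤ 1 := by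
        rw [pi_norm_le_iff_of_nonneg zero_le_one]
        intro l
        by_cases hl : l = i
        · subst hl; simp
        · rw [Pi.single_eq_of_ne hl]; simp
      nlinarith
    have h3 := hy _ h2
    rw [hf_smul_left, norm_mul] at h3
    have h4 : hf σ J (Pi.single i 1) y = (J *ᵥ fun l => σ (y l)) i := by
      unfold hf
      rw [single_one_dotProduct]
    rw [h4] at h3
    rw [← one_div, le_div_iff₀' hbn]
    exact h3
  have h5 : (fun l => σ (y l)) = J⁻¹ *ᵥ (J *ᵥ fun l => σ (y l)) := by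
    rw [mulVec_mulVec, nonsing_inv_mul _ hu, one_mulVec]
  rw [pi_norm_le_iff_of_nonneg (mul_nonneg (nm_nonneg _) (by positivity))]
  intro i
  have h6 : ‖y i‖ = ‖(J⁻¹ *ᵥ (J *ᵥ fun l => σ (y l))) i‖ := by
    rw [← h5, hσ]
  rw [h6]
  unfold mulVec dotProduct
  refine IsUltrametricDist.norm_sum_le_of_forall_le_of_nonneg
    (mul_nonneg (nm_nonneg _) (by positivity)) fun j _ => ?_
  rw [norm_mul]
  exact mul_le_mul (bd_nm _ i j) (h1 j) (norm_nonneg _) (nm_nonneg _)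

/-- Enlarging the lattice. -/
theorem improve (hσ : ∀ x, ‖σ x‖ = ‖x‖) (hF : Frm σ ε J) {W : Subgroup (SpecialLinearGroup n k)}
    (hW : ∀ w ∈ W, w ∈ FormGroup σ J) {a : k} (ha1 : ‖a‖ < 1) (s : ℕ) {M : AddSubgroup (n → k)}
    (hM : Lt σ J W M) (h : ∀ y ∈ dual σ J M, a ^ (s + 2) • y ∈ M) :
    ∃ M', Lt σ J W M' ∧ ∀ y ∈ dual σ J M', a ^ (s + 1) • y ∈ M' := by
  have hpow : ∀ m : ℕ, ‖a ^ m‖ ≤ 1 := fun m => by
    rw [norm_pow]
    exact pow_le_one₀ (norm_nonneg a) ha1.le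
  refine ⟨{ carrier := {z | ∃ x ∈ M, ∃ y ∈ dual σ J M, z = x + a ^ (s + 1) • y}
            zero_mem' := ⟨0, M.zero_mem, 0, (dual σ J M).zero_mem, by rw [smul_zero, add_zero]⟩
            add_mem' := ?_
            neg_mem' := ?_ }, ⟨?_, ?_, ?_, ?_⟩, ?_⟩
  · rintro _ _ ⟨x, hx, y, hy, rfl⟩ ⟨x', hx', y', hy', rfl⟩
    exact ⟨x + x', M.add_mem hx hx', y + y', (dual σ J M).add_mem hy hy', by
      rw [smul_add]; abel⟩
  · rintro _ ⟨x, hx, y, hy, rfl⟩
    exact ⟨-x, M.neg_mem hx, -y, (dual σ J M).neg_mem hy, by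
      rw [smul_neg]; abel⟩
  · rintro c hc _ ⟨x, hx, y, hy, rfl⟩
    exact ⟨c • x, hM.sc c hc x hx, c • y, dual_sc hσ hc hy, by
      rw [smul_add, smul_comm]⟩
  · rintro w hw _ ⟨x, hx, y, hy, rfl⟩
    exact ⟨x ᵥ* w.1, hM.st w hw x hx, y ᵥ* w.1, dual_st hW hM.st hw hy, by
      rw [add_vecMul, smul_vecMul]⟩
  · rintro _ ⟨x, hx, y, hy, rfl⟩ _ ⟨x', hx', y', hy', rfl⟩
    rw [hf_add_left, hf_add_right, hf_add_right]
    have h1 : ‖hf σ J x x'‖ ≤ 1 := hM.int x hx x' hx'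
    have h2 : ‖hf σ J x (a ^ (s + 1) • y')‖ ≤ 1 := dual_sc hσ (hpow _) hy' x hx
    have h3 : ‖hf σ J (a ^ (s + 1) • y) x'‖ ≤ 1 := by
      rw [← norm_hf_symm hσ hF]
      exact dual_sc hσ (hpow _) hy x' hx'
    have h4 : ‖hf σ J (a ^ (s + 1) • y) (a ^ (s + 1) • y')‖ ≤ 1 := by
      have h5 := hy' _ (h y hy)
      rw [hf_smul_left, norm_mul] at h5
      rw [hf_smul_left, hf_smul_right, norm_mul, norm_mul, hσ, norm_pow]
      rw [norm_pow] at h5
      have h6 : ‖a‖ ^ (s + 1) * (‖a‖ ^ (s + 1) * ‖hf σ J y y'‖) =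
          ‖a‖ ^ s * (‖a‖ ^ (s + 2) * ‖hf σ J y y'‖) := by ring
      rw [h6]
      have h7 : ‖a‖ ^ s ≤ 1 := pow_le_one₀ (norm_nonneg a) ha1.le
      have h8 : 0 ≤ ‖a‖ ^ s := by positivity
      have h9 : 0 ≤ ‖a‖ ^ (s + 2) * ‖hf σ J y y'‖ := by positivity
      nlinarith
    exact (IsUltrametricDist.norm_add_le_max _ _).trans (max_le
      ((IsUltrametricDist.norm_add_le_max _ _).trans (max_le h1 h2))
      ((IsUltrametricDist.norm_add_le_max _ _).trans (max_le h3 h4)))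
  · obtain ⟨b, hb0, hb⟩ := hM.ball
    exact ⟨b, hb0, fun x hx => ⟨x, hb x hx, 0, (dual σ J M).zero_mem, by
      rw [smul_zero, add_zero]⟩⟩
  · intro y hy
    refine ⟨0, M.zero_mem, y, fun x hx => hy x ⟨x, hx, 0, (dual σ J M).zero_mem, by
      rw [smul_zero, add_zero]⟩, by rw [zero_add]⟩

/-- An almost unimodular stable lattice. -/
theorem exists_almost [ProperSpace k] (hσ : ∀ x, ‖σ x‖ = ‖x‖) (hF : Frm σ ε J)
    {W : Subgroup (SpecialLinearGroup n k)} (hW : ∀ w ∈ W, w ∈ FormGroup σ J)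
    {R : ℝ} (hR : ∀ w ∈ W, Bd R w.1) {a : k} (ha1 : ‖a‖ < 1) :
    ∃ M, Lt σ J W M ∧ ∀ y ∈ dual σ J M, a • y ∈ M := by
  have key : ∀ r : ℕ, (∃ M, Lt σ J W M ∧ ∀ y ∈ dual σ J M, a ^ (r + 1) • y ∈ M) →
      ∃ M, Lt σ J W M ∧ ∀ y ∈ dual σ J M, a • y ∈ M := by
    intro r
    induction r with
    | zero =>
      rintro ⟨M, hM, h⟩
      exact ⟨M, hM, fun y hy => by simpa using h y hy⟩
    | succ s ih =>
      rintro ⟨M, hM, h⟩
      exact ih (improve hσ hF hW ha1 s hM h)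
  obtain ⟨M, hM⟩ := exists_start (J := J) hσ hR
  obtain ⟨b, hb0, hb⟩ := hM.ball
  obtain ⟨Q, hQ0, hQ⟩ := dual_bdd hσ hF hb0 hb
  have hbn : 0 < ‖b‖ := norm_pos_iff.2 hb0
  obtain ⟨r, hr⟩ := exists_pow_lt_of_lt_one (show 0 < ‖b‖ / (Q + 1) by positivity) ha1
  refine key r ⟨M, hM, fun y hy => hb _ ?_⟩
  rw [norm_smul, norm_pow]
  have h1 : ‖a‖ ^ (r + 1) ≤ ‖a‖ ^ r := pow_le_pow_of_le_one (norm_nonneg a) ha1.le (Nat.le_succ r)
  have h2 : ‖a‖ ^ (r + 1) ≤ ‖b‖ / (Q + 1) := h1.trans hr.le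
  rw [le_div_iff₀ (by positivity)] at h2
  have h3 := hQ y hy
  have h4 : 0 ≤ ‖a‖ ^ (r + 1) := by positivity
  nlinarith

/-- A lattice has a basis. -/
theorem exists_basis [ProperSpace k] {M : AddSubgroup (n → k)} {b : k} (hb0 : b ≠ 0)
    (hb : ∀ x : n → k, ‖x‖ ≤ ‖b‖ → x ∈ M) {R : ℝ} (hR : ∀ x ∈ M, ‖x‖ ≤ R) :
    ∃ B : Matrix n n k, B.det ≠ 0 ∧ (∀ i, B i ∈ M) ∧ ∀ x ∈ M, ∀ i, ‖(x ᵥ* B⁻¹) i‖ ≤ 1 := by
  have hbn : 0 < ‖b‖ := norm_pos_iff.2 hb0
  have hopen : IsOpen (M : Set (n → k)) := by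
    refine AddSubgroup.isOpen_of_mem_nhds (g := 0) M ?_
    refine mem_of_superset (Metric.ball_mem_nhds 0 hbn) fun x hx => hb x ?_
    rw [Metric.mem_ball, dist_zero_right] at hx
    exact hx.le
  have hcl : IsClosed (M : Set (n → k)) := AddSubgroup.isClosed_of_isOpen M hopen
  have hc : IsCompact (M : Set (n → k)) := by
    refine (isCompact_closedBall (0 : n → k) R).of_isClosed_subset hcl fun x hx => ?_
    rw [Metric.mem_closedBall, dist_zero_right]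
    exact hR x hx
  have hT : IsCompact (Set.pi Set.univ fun _ : n => (M : Set (n → k))) :=
    isCompact_univ_pi fun _ => hc
  have hf1 : (fun j : n => (Pi.single j b : n → k)) ∈
      Set.pi Set.univ fun _ : n => (M : Set (n → k)) := by
    intro j _
    refine hb _ ?_
    rw [pi_norm_le_iff_of_nonneg hbn.le]
    intro l
    show ‖(Pi.single j b : n → k) l‖ ≤ ‖b‖
    by_cases hl : l = j
    · subst hl; simp
    · rw [Pi.single_eq_of_ne hl, norm_zero]; exact hbn.le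
  have hcont : Continuous fun f : n → n → k => ‖(Matrix.of f).det‖ :=
    (Continuous.matrix_det (by exact continuous_id)).norm
  obtain ⟨f, hf, hmax⟩ := hT.exists_isMaxOn ⟨_, hf1⟩ hcont.continuousOn
  have hmax' : ∀ f' ∈ Set.pi Set.univ (fun _ : n => (M : Set (n → k))),
      ‖(Matrix.of f').det‖ ≤ ‖(Matrix.of f).det‖ := fun f' hf' => hmax hf'
  have hdet : (Matrix.of f).det ≠ 0 := by
    have h1 := hmax' _ hf1
    have h2 : (Matrix.of fun j : n => (Pi.single j b : n → k)).det = b ^ Fintype.card n := by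
      have : (Matrix.of fun j : n => (Pi.single j b : n → k)) =
          Matrix.diagonal fun _ => b := by
        ext i j
        rw [Matrix.of_apply, Matrix.diagonal_apply, Pi.single_apply]
        by_cases h : i = j
        · subst h; simp
        · simp [h, Ne.symm h]
      rw [this, Matrix.det_diagonal]
      simp
    rw [h2] at h1
    intro h0
    rw [h0, norm_zero] at h1
    exact pow_ne_zero _ hb0 (norm_le_zero_iff.mp h1)
  refine ⟨Matrix.of f, hdet, fun i => hf i trivial, fun x hx i => ?_⟩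
  have hu : IsUnit (Matrix.of f).det := isUnit_iff_ne_zero.2 hdet
  have e1 := congrFun (Matrix.det_smul_inv_vecMul_eq_cramer_transpose (Matrix.of f) x hu) i
  rw [Pi.smul_apply, smul_eq_mul, Matrix.cramer_transpose_apply] at e1
  have e3 : ‖((Matrix.of f).updateRow i x).det‖ ≤ ‖(Matrix.of f).det‖ := by
    have h3 : (Matrix.of f).updateRow i x = Matrix.of (Function.update f i x) := rfl
    rw [h3]
    refine hmax' _ fun l _ => ?_
    by_cases h : l = i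
    · subst h; rw [Function.update_self]; exact hx
    · rw [Function.update_of_ne h]; exact hf l trivial
  rw [← e1, norm_mul] at e3
  have h4 : 0 < ‖(Matrix.of f).det‖ := norm_pos_iff.mpr hdet
  exact le_of_mul_le_mul_left (by rwa [mul_one]) h4

/-- The Gram matrix of an almost unimodular stable lattice. -/
theorem exists_gram [ProperSpace k] (hσ : ∀ x, ‖σ x‖ = ‖x‖) (hF : Frm σ ε J)
    {W : Subgroup (SpecialLinearGroup n k)} (hW : ∀ w ∈ W, w ∈ FormGroup σ J)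
    {R : ℝ} (hR : ∀ w ∈ W, Bd R w.1) {a : k} (ha0 : a ≠ 0) (ha1 : ‖a‖ < 1) :
    ∃ B : Matrix n n k, B.det ≠ 0 ∧ Bd 1 (B * J * st σ B) ∧
      (∃ T, B * J * st σ B * T = 1 ∧ Bd ‖a‖⁻¹ T) ∧ ∀ w ∈ W, Bd 1 (B * w.1 * B⁻¹) := by
  obtain ⟨M, hM, hd⟩ := exists_almost hσ hF hW hR ha1
  obtain ⟨b, hb0, hb⟩ := hM.ball
  obtain ⟨Q, hQ0, hQ⟩ := dual_bdd hσ hF hb0 hb
  obtain ⟨B, hB, hBM, hBx⟩ := exists_basis hb0 hb (R := Q) fun x hx =>
    hQ x fun y hy => hM.int y hy x hx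
  have hu : IsUnit B.det := isUnit_iff_ne_zero.2 hB
  have huJ : IsUnit J.det := isUnit_iff_ne_zero.2 (det_ne_zero hF)
  refine ⟨B, hB, ?_, ?_, ?_⟩
  · intro i j
    have h1 : (B * J * st σ B) i j = hf σ J (B i) (B j) := by
      rw [hf_row, Matrix.mul_assoc]
      rfl
    rw [h1]
    exact hM.int _ (hBM i) _ (hBM j)
  · have hinv := hF.inv
    set Y : Matrix n n k := st σ (J⁻¹ * B⁻¹) with hY
    have hYs : st σ Y = J⁻¹ * B⁻¹ := st_st hinv _
    have h1 : ∀ j, Y j ∈ dual σ J M := by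
      intro j x hx
      rw [hf_row, hYs, ← Matrix.mul_assoc, mul_nonsing_inv _ huJ, Matrix.one_mul]
      exact hBx x hx j
    have h2 : Bd 1 (a • (Y * B⁻¹)) := by
      intro i j
      have h3 := hBx _ (hd _ (h1 i)) j
      rw [smul_vecMul] at h3
      exact h3
    refine ⟨(σ a)⁻¹ • st σ (a • (Y * B⁻¹)), ?_, ?_⟩
    · have h4 : st σ (a • (Y * B⁻¹)) = σ a • (st σ B⁻¹ * (J⁻¹ * B⁻¹)) := by
        rw [st_smul, st_mul, hYs]
      have ha' : σ a ≠ 0 := (map_ne_zero σ).2 ha0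
      rw [h4, smul_smul, inv_mul_cancel₀ ha', one_smul]
      have h5 : st σ B * st σ B⁻¹ = 1 := by
        rw [← st_mul, nonsing_inv_mul _ hu, st_one]
      calc B * J * st σ B * (st σ B⁻¹ * (J⁻¹ * B⁻¹))
          = B * J * (st σ B * st σ B⁻¹) * J⁻¹ * B⁻¹ := by simp only [Matrix.mul_assoc]
        _ = B * (J * J⁻¹) * B⁻¹ := by rw [h5, Matrix.mul_one]; simp only [Matrix.mul_assoc]
        _ = 1 := by rw [mul_nonsing_inv _ huJ, Matrix.mul_one, mul_nonsing_inv _ hu]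
    · have h6 := (Bd.st hσ h2).smul (σ a)⁻¹
      rwa [norm_inv, hσ, mul_one] at h6
  · intro w hw i j
    have h3 := hBx _ (hM.st w hw _ (hBM i)) j
    rw [vecMul_vecMul] at h3
    have h4 : (B * w.1 * B⁻¹) i j = (B i ᵥ* (w.1 * B⁻¹)) j := by
      rw [Matrix.mul_assoc]
      rfl
    rw [h4]
    exact h3

end Vale.Agent.P092.H183.Vol
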