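import Vale.Agent.P092.H628.VC4
import Vale.Agent.P092.H714.Cl9
import Vale.Agent.P092.H183.VL3
import Vale.Agent.P092.H678.GoodCl
import Vale.Agent.P092.H183.BFac

/-!
P092, block VOL-CL (helper183): the volume bound for the symplectic and the special unitary groups,
from helper628's `haar_max`.
-/

set_option linter.all false

open Matrix Topology MeasureTheory MeasureTheory.Measure
open scoped ENNReal NNReal

namespace Vale.Agent.P092.H183.Vol

open Vale.Agent.P092.H714.Cl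
open Vale.Agent.P092.H303 (FormGroup)
open Vale.Agent.P092.H628 (VC.Uiso VC.BP VC.Nrm VC.mdG VC.cjs)

variable {n : Type} [Fintype n] [DecidableEq n] {k : Type} [NontriviallyNormedField k]
  {σ : k →+* k} {ε : k} {J : Matrix n n k}

theorem mem_uiso {g : GL n k} : g ∈ VC.Uiso σ J ↔ g ∈ IG σ J := by
  have key : ∀ x y, hf σ J (x ᵥ* g.1) (y ᵥ* g.1) = x ⬝ᵥ ((g.1 * J * (g.1.map σ)ᵀ) *ᵥ
      fun i => σ (y i)) := by
    intro x y
    unfold hf
    have e : (fun i => σ ((y ᵥ* g.1) i)) = (g.1.map σ)ᵀ *ᵥ fun i => σ (y i) := by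
      funext i
      simp only [vecMul, dotProduct, mulVec, transpose_apply, Matrix.map_apply, _root_.map_sum,
        map_mul]
      exact Finset.sum_congr rfl fun j _ => mul_comm _ _
    rw [e, mulVec_mulVec, ← dotProduct_mulVec, mulVec_mulVec, ← Matrix.mul_assoc]
  constructor
  · intro hg x y
    have hg' : g.1 * J * (g.1.map σ)ᵀ = J := hg
    rw [key, hg']
    rfl
  · intro h
    change g.1 * J * (g.1.map σ)ᵀ = J
    ext i j
    have h1 := h (Pi.single i 1) (Pi.single j 1)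
    rw [key] at h1
    have e : (fun l => σ ((Pi.single j (1 : k) : n → k) l)) = Pi.single j 1 := by
      funext l
      by_cases hl : l = j
      · subst hl; simp
      · simp [Pi.single_eq_of_ne hl]
    unfold hf at h1
    rw [e, mulVec_single_one, mulVec_single_one, single_one_dotProduct, single_one_dotProduct] at h1
    exact h1

theorem uiso_eq : VC.Uiso σ J = IG σ J := by
  ext g
  exact mem_uiso

/-! ### Powers of quasi-reflections -/

section pow

/-- The powers of `x ↦ x + a h(x, v) v`. -/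
theorem pow_R {v : n → k} {a : k} {R : GL n k} (hv : hf σ J v v ≠ 0)
    (hR : ∀ x, x ᵥ* R.1 = x + (a * hf σ J x v) • v) (m : ℕ) (x : n → k) :
    x ᵥ* (R ^ m).1 = x + ((((1 + a * hf σ J v v) ^ m - 1) * (hf σ J v v)⁻¹) * hf σ J x v) • v := by
  induction m generalizing x with
  | zero =>
    rw [pow_zero, vm_one, pow_zero, sub_self, zero_mul, zero_mul, zero_smul, add_zero]
  | succ m ih =>
    rw [pow_succ, vm_mul, ih, hR, hf_add_left, hf_smul_left, add_assoc, ← add_smul]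
    congr 2
    field_simp
    ring

end pow

section ultra

variable [IsUltrametricDist k]

/-- A matrix given by `x ↦ x + c h(x, v) v` with bounded `c` is bounded. -/
theorem bd_of_rank {v : n → k} {A : Matrix n n k} {c : k} {r : ℝ} (hσ : ∀ x, ‖σ x‖ = ‖x‖)
    (hc : ‖c‖ ≤ r) (hA : ∀ x, x ᵥ* A = x + (c * hf σ J x v) • v) :
    ∀ i j, ‖A i j‖ ≤ 1 + r * (nm J * ‖v‖) * ‖v‖ := by
  intro i j
  have h1 := hA (Pi.single i 1)
  have h2 : A i j = ((Pi.single i (1 : k) : n → k) ᵥ* A) j := by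
    rw [single_one_vecMul]; rfl
  have h3 : ‖(Pi.single i (1 : k) : n → k)‖ ≤ 1 := by
    rw [pi_norm_le_iff_of_nonneg zero_le_one]
    intro l
    by_cases hl : l = i
    · subst hl; simp
    · rw [Pi.single_eq_of_ne hl]; simp
  have hr : 0 ≤ r := (norm_nonneg c).trans hc
  have h4 : ‖hf σ J (Pi.single i 1) v‖ ≤ 1 * (nm J * ‖v‖) := by
    refine (norm_hf_le hσ _ v).trans ?_
    exact mul_le_mul_of_nonneg_right h3 (mul_nonneg (nm_nonneg _) (norm_nonneg _))
  rw [one_mul] at h4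
  rw [h2, h1]
  refine (norm_le_pi_norm _ j).trans ((norm_add_le _ _).trans (add_le_add h3 ?_))
  rw [norm_smul, norm_mul]
  have h5 : ‖c‖ * ‖hf σ J (Pi.single i 1) v‖ ≤ r * (nm J * ‖v‖) :=
    mul_le_mul hc h4 (norm_nonneg _) hr
  exact mul_le_mul_of_nonneg_right h5 (norm_nonneg v)

/-- Quasi-reflections have bounded powers. -/
theorem bp_R (hσ : ∀ x, ‖σ x‖ = ‖x‖) {v : n → k} {a : k} {R : GL n k} (hv : hf σ J v v ≠ 0)
    (h1 : ‖1 + a * hf σ J v v‖ = 1)
    (hR : ∀ x, x ᵥ* R.1 = x + (a * hf σ J x v) • v) : VC.BP R := by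
  set lam : k := 1 + a * hf σ J v v with hlam
  have hl0 : lam ≠ 0 := norm_pos_iff.1 (by rw [h1]; exact one_pos)
  -- the inverse
  have hRi : ∀ x, x ᵥ* (R⁻¹).1 = x + ((-a * lam⁻¹) * hf σ J x v) • v := by
    intro x
    have h2 : (x + ((-a * lam⁻¹) * hf σ J x v) • v) ᵥ* R.1 = x := by
      rw [hR, hf_add_left, hf_smul_left, add_assoc, ← add_smul]
      have h3 : (-a * lam⁻¹) * hf σ J x v +
          a * (hf σ J x v + -a * lam⁻¹ * hf σ J x v * hf σ J v v) = 0 := by
        have h4 : a * hf σ J v v = lam - 1 := by rw [hlam]; ring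
        have h5 : (-a * lam⁻¹) * hf σ J x v +
          a * (hf σ J x v + -a * lam⁻¹ * hf σ J x v * hf σ J v v) =
          a * hf σ J x v * (1 - lam⁻¹ * (1 + a * hf σ J v v)) := by ring
        rw [h5, ← hlam, inv_mul_cancel₀ hl0, sub_self, mul_zero]
      rw [h3, zero_smul, add_zero]
    have h6 := vm_cancel_inv (x + ((-a * lam⁻¹) * hf σ J x v) • v) R
    rw [h2] at h6
    exact h6
  have hli : 1 + -a * lam⁻¹ * hf σ J v v = lam⁻¹ := by
    have h4 : a * hf σ J v v = lam - 1 := by rw [hlam]; ring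
    have h5 : -a * lam⁻¹ * hf σ J v v = -(a * hf σ J v v) * lam⁻¹ := by ring
    rw [h5, h4]
    field_simp
    ring
  have hb : ∀ μ : k, ‖μ‖ = 1 → ∀ m : ℕ,
      ‖(μ ^ m - 1) * (hf σ J v v)⁻¹‖ ≤ ‖hf σ J v v‖⁻¹ := by
    intro μ hμ m
    rw [norm_mul, norm_inv]
    have h7 : ‖μ ^ m - 1‖ ≤ 1 := by
      rw [sub_eq_add_neg]
      refine (IsUltrametricDist.norm_add_le_max _ _).trans (max_le ?_ ?_)
      · rw [norm_pow, hμ, one_pow]
      · rw [norm_neg, norm_one]
    have h8 : 0 ≤ ‖hf σ J v v‖⁻¹ := by positivity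
    nlinarith
  refine ⟨1 + ‖hf σ J v v‖⁻¹ * (nm J * ‖v‖) * ‖v‖, fun m => ⟨?_, ?_⟩⟩
  · exact bd_of_rank hσ (hb lam h1 m) (pow_R hv hR m)
  · have h9 : ‖lam⁻¹‖ = 1 := by rw [norm_inv, h1, inv_one]
    have h10 := pow_R hv hRi m
    rw [hli] at h10
    exact bd_of_rank hσ (hb lam⁻¹ h9 m) h10

/-- An anisotropic vector. -/
theorem exists_aniso (hF : Frm σ ε J) (hne : ∃ c : k, σ c ≠ c) : ∃ v, hf σ J v v ≠ 0 := by
  by_contra hcon
  push Not at hcon
  obtain ⟨c, hc⟩ := hne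
  obtain ⟨u, hu, -⟩ := hF.iso
  obtain ⟨y, hy⟩ := hF.nondeg u hu
  have h0 : ∀ d : k, σ d * hf σ J u y + d * hf σ J y u = 0 := by
    intro d
    have h1 := hcon (u + d • y)
    have h2 := hcon u
    have h3 := hcon y
    rw [hf_add_left, hf_add_right, hf_add_right, hf_smul_left, hf_smul_right, hf_smul_left,
      hf_smul_right, h2, h3] at h1
    linear_combination h1
  have h1 := h0 1
  have h2 := h0 c
  rw [map_one, one_mul, one_mul] at h1
  have h3 : (σ c - c) * hf σ J u y = 0 := by linear_combination h2 - c * h1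
  exact hy ((mul_eq_zero.1 h3).resolve_left (sub_ne_zero.2 hc))

theorem det_iso (hF : Frm σ ε J) {A : GL n k} (hA : A ∈ VC.Uiso σ J) :
    A.1.det * σ A.1.det = 1 := by
  have h1 : A.1 * J * (A.1.map σ)ᵀ = J := hA
  have h2 := congrArg Matrix.det h1
  rw [det_mul, det_mul, det_transpose] at h2
  have h3 : (A.1.map σ).det = σ A.1.det := by
    have := (RingHom.map_det σ A.1).symm
    rwa [RingHom.mapMatrix_apply] at this
  rw [h3] at h2
  have h4 := det_ne_zero hF
  have h5 : (A.1.det * σ A.1.det - 1) * J.det = 0 := by linear_combination h2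
  rcases mul_eq_zero.1 h5 with h | h
  · linear_combination h
  · exact absurd h h4

theorem norm_det_iso (hσ : ∀ x, ‖σ x‖ = ‖x‖) (hF : Frm σ ε J) {A : GL n k}
    (hA : A ∈ VC.Uiso σ J) :
    ‖A.1.det‖ = 1 := by
  have h1 := congrArg norm (det_iso hF hA)
  rw [norm_mul, hσ, norm_one] at h1
  nlinarith [norm_nonneg A.1.det, sq_nonneg (‖A.1.det‖ - 1)]

/-- Isometries of determinant one come from the special linear group. -/
theorem mem_of_det_one {A : GL n k} (hA : A ∈ VC.Uiso σ J) (h1 : A.1.det = 1) :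
    ∃ s ∈ FormGroup σ J, A = SpecialLinearGroup.toGL s :=
  ⟨⟨A.1, h1⟩, hA, Units.ext rfl⟩

/-- Every isometry is the product of an element of `SU` and a quasi-reflection. -/
theorem gen_su (hσ : ∀ x, ‖σ x‖ = ‖x‖) (hF : Frm σ ε J) (hne : ∃ c : k, σ c ≠ c)
    {A : GL n k} (hA : A ∈ VC.Uiso σ J) : A ∈ Subgroup.closure
      ({B : GL n k | ∃ s ∈ FormGroup σ J, B = SpecialLinearGroup.toGL s} ∪
        {B | B ∈ VC.Uiso σ J ∧ VC.BP B}) := by
  obtain ⟨v, hv⟩ := exists_aniso hF hne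
  set d := A.1.det with hd
  have hd1 : d * σ d = 1 := det_iso hF hA
  by_cases hdd : d = 1
  · obtain ⟨s, hs, rfl⟩ := mem_of_det_one hA hdd
    exact Subgroup.subset_closure (Or.inl ⟨s, hs, rfl⟩)
  set a : k := (d - 1) * (hf σ J v v)⁻¹ with ha
  have ha0 : a ≠ 0 := mul_ne_zero (sub_ne_zero.2 hdd) (inv_ne_zero hv)
  have hav : a * hf σ J v v = d - 1 := by
    rw [ha, mul_assoc, inv_mul_cancel₀ hv, mul_one]
  have hQ : QR σ ε J v a := by
    have hs : σ (hf σ J v v) = ε * hf σ J v v := by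
      have h1 := hF.herm v v
      have h2 : ε * hf σ J v v = ε * ε * σ (hf σ J v v) := by
        rw [mul_assoc, ← h1]
      rw [h2, hF.eps, one_mul]
    have hsa : σ a * (ε * hf σ J v v) = σ d - 1 := by
      rw [← hs, ← map_mul, hav, map_sub, map_one]
    unfold QR
    have h3 : (a + ε * σ a + ε * (a * σ a) * hf σ J v v) * hf σ J v v = 0 := by
      have h4 : (a + ε * σ a + ε * (a * σ a) * hf σ J v v) * hf σ J v v =
          a * hf σ J v v + σ a * (ε * hf σ J v v) +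
            (a * hf σ J v v) * (σ a * (ε * hf σ J v v)) := by ring
      rw [h4, hav, hsa]
      linear_combination hd1
    exact (mul_eq_zero.1 h3).resolve_right hv
  obtain ⟨R, hR⟩ := exists_R hF ha0 hQ
  have hRI : R ∈ VC.Uiso σ J := mem_uiso.2 (iso_QR hF hQ hR)
  have hRd : R.1.det = d := by
    have h5 : R.1 = rk σ J v v a := by
      refine ext_iff_vecMul.mpr fun x => ?_
      rw [hR, vecMul_rk]
    rw [h5, det_rk, hav]
    ring
  have hdn : ‖d‖ = 1 := norm_det_iso hσ hF hA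
  have hd0 : d ≠ 0 := norm_pos_iff.1 (by rw [hdn]; exact one_pos)
  have hRbp : VC.BP R := bp_R hσ hv (by rw [hav, add_sub_cancel, hdn]) hR
  have hAR : (A * R⁻¹) ∈ VC.Uiso σ J :=
    (VC.Uiso σ J).mul_mem hA ((VC.Uiso σ J).inv_mem hRI)
  have hAR1 : (A * R⁻¹).1.det = 1 := by
    have h6 : (A * R⁻¹).1 * R.1 = A.1 := by
      rw [← Units.val_mul, inv_mul_cancel_right]
    have h7 := congrArg Matrix.det h6
    rw [det_mul, hRd, ← hd] at h7
    exact mul_right_cancel₀ hd0 (by rw [h7, one_mul])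
  obtain ⟨s, hs, hs1⟩ := mem_of_det_one hAR hAR1
  have h8 : A = (A * R⁻¹) * R := by rw [inv_mul_cancel_right]
  rw [h8]
  refine Subgroup.mul_mem _ (Subgroup.subset_closure (Or.inl ⟨s, hs, hs1⟩))
    (Subgroup.subset_closure (Or.inr ⟨hRI, hRbp⟩))

/-- The special isometry group is normal in the isometry group. -/
theorem nrm_form : VC.Nrm σ J (FormGroup σ J) := by
  intro A hA g hg
  have h1 : SpecialLinearGroup.toGL (VC.cjs A g) = A * SpecialLinearGroup.toGL g * A⁻¹ := by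
    apply Units.ext
    rfl
  have h2 : (A * SpecialLinearGroup.toGL g * A⁻¹) ∈ VC.Uiso σ J :=
    (VC.Uiso σ J).mul_mem ((VC.Uiso σ J).mul_mem hA hg) ((VC.Uiso σ J).inv_mem hA)
  rw [← h1] at h2
  exact h2

theorem hrm (hσ : ∀ x, ‖σ x‖ = ‖x‖) (hF : Frm σ ε J) : H628.VC.Hrm σ J where
  nrm := hσ
  inv := hF.inv
  sym := fun x y => norm_hf_symm hσ hF x y
  det := isUnit_iff_ne_zero.2 (det_ne_zero hF)

theorem exists_Inv (hσ : ∀ x, ‖σ x‖ = ‖x‖) (hF : Frm σ ε J) :
    ∃ C : ℝ, H628.VC.Inv n σ ε C := by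
  obtain ⟨C, hC⟩ := exists_sec (k := k) hF.inv hF.eps hF.seps
  refine ⟨C, hσ, hF.inv, hF.eps, hF.seps, hC.1, fun E r hE hr => ?_⟩
  have hE' : Tv σ ε E := hE
  obtain ⟨D, hD, hDb⟩ := hE'.exists_bd hF.inv hF.eps hF.seps hC
  by_cases hn : IsEmpty n
  · exact ⟨D, hD, fun i => (hn.false i).elim⟩
  · rw [not_isEmpty_iff] at hn
    obtain ⟨i⟩ := hn
    have hr0 : 0 ≤ r := (norm_nonneg _).trans (hr i i)
    exact ⟨D, hD, hDb r hr0 hr⟩

variable [ProperSpace k]

/-- **The volume bound** for the symplectic and the special unitary groups. -/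
theorem bvol_form (hσ : ∀ x, ‖σ x‖ = ‖x‖) (hF : Frm σ ε J)
    (hGT : FormGroup σ J = GT σ ε J) : BVol (FormGroup σ J) := by
  have hG : IsClosed (FormGroup σ J : Set (SpecialLinearGroup n k)) :=
    H303.isClosed_formGroup (AddMonoidHomClass.isometry_of_norm σ hσ).continuous _
  have CG : Cl.ClG σ ε J (FormGroup σ J) := ⟨hσ, hF, hGT.ge, le_rfl, hG⟩
  have hperf : commutator (FormGroup σ J) = ⊤ := H678.ClC.perfectG CG hGT.le
  obtain ⟨C, hC⟩ := exists_Inv (n := n) hσ hF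
  haveI : LocallyCompactSpace (Matrix n n k) :=
    inferInstanceAs (LocallyCompactSpace (n → n → k))
  haveI : LocallyCompactSpace (FormGroup σ J) :=
    (H628.VC.isClosedEmbedding_val hG).locallyCompactSpace
  letI : MeasurableSpace (FormGroup σ J) := borel _
  haveI : BorelSpace (FormGroup σ J) := ⟨rfl⟩
  have hGU : ∀ g ∈ FormGroup σ J, SpecialLinearGroup.toGL g ∈ VC.Uiso σ J := fun g hg => hg
  have hmd : ∀ A : VC.Uiso σ J, VC.mdG nrm_form A = 1 := by
    by_cases hne : ∃ c : k, σ c ≠ c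
    · exact H628.VC.mdG_one hG nrm_form hperf hGU fun A hA => gen_su hσ hF hne hA
    · push Not at hne
      intro A
      have h1 : ((A ^ 2 : VC.Uiso σ J).1).1.det = 1 := by
        have h2 := det_iso hF A.2
        rw [hne] at h2
        rw [Subgroup.coe_pow, Units.val_pow_eq_pow_val, det_pow, pow_two]
        exact h2
      obtain ⟨s, hs, hs1⟩ := mem_of_det_one (A ^ 2 : VC.Uiso σ J).2 h1
      have h3 := H628.VC.mdG_of_mem nrm_form hperf hGU hs
      have h4 : (⟨SpecialLinearGroup.toGL s, hGU s hs⟩ : VC.Uiso σ J) = A ^ 2 :=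
        Subtype.ext hs1.symm
      rw [h4, map_pow] at h3
      have h6 : (((VC.mdG nrm_form A : ℝ≥0) : ℝ)) ^ 2 = 1 := by exact_mod_cast h3
      have h7 : (0 : ℝ) ≤ ((VC.mdG nrm_form A : ℝ≥0) : ℝ) := NNReal.coe_nonneg _
      have h8 : ((VC.mdG nrm_form A : ℝ≥0) : ℝ) = 1 := by nlinarith
      exact_mod_cast h8
  obtain ⟨K, hKo, hKc, hK⟩ := H628.VC.haar_max hC (hrm hσ hF) (tv_frm hF) hG nrm_form
    (fun g hg => hg) hmd
  refine ⟨K, hKo, hKc, fun W U hW hWc hU hUW hUK => ?_⟩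
  have h1 := hK W hWc
  rw [H632.haar_eq_index hU hW hWc hUW, H632.haar_eq_index hU hKo hKc hUK] at h1
  have h3 : (haar (U : Set (FormGroup σ J)) : ℝ≥0∞) ≠ 0 :=
    (hU.measure_pos _ ⟨1, Subgroup.one_mem _⟩).ne'
  have h4 : (haar (U : Set (FormGroup σ J)) : ℝ≥0∞) ≠ ∞ :=
    (hWc.of_isClosed_subset (Subgroup.isClosed_of_isOpen _ hU) hUW).measure_lt_top.ne
  have h5 := (ENNReal.mul_le_mul_iff_left h3 h4).mp h1
  exact_mod_cast h5

end ultra

end Vale.Agent.P092.H183.Vol
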