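import Vale.Agent.P092.H736.RpAtt
import Vale.Agent.P092.H213.Rp.Cls

/-!
P092, project RP, block P9 (helper183): the data of helper736's volume bound for the groups of the
class `RP`: logarithms are derivations, the Killing form, small exponentials lie in the group.
-/

set_option linter.all false

open Filter Topology Module Matrix
open scoped Nat

namespace Vale.Agent.P092.H183.RD

open Vale.Agent.P092.H736.Rp
open Vale.Agent.P092.H213.Rp

section cauchy

variable {k V : Type} [NontriviallyNormedField k] [NormedAddCommGroup V] [NormedSpace k V]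
  [CompleteSpace V]

/-- The Cauchy product for a bilinear map. -/
theorem cauchy (c : V →L[k] V →L[k] V) {f g : ℕ → V} (hf : Summable fun i => ‖f i‖)
    (hg : Summable fun i => ‖g i‖) :
    c (∑' i, f i) (∑' j, g j) = ∑' m, ∑ ij ∈ Finset.HasAntidiagonal.antidiagonal m, c (f ij.1) (g ij.2) := by
  have hf' : Summable f := hf.of_norm
  have hg' : Summable g := hg.of_norm
  have hp : Summable fun x : ℕ × ℕ => c (f x.1) (g x.2) := by
    refine Summable.of_norm_bounded (g := fun x : ℕ × ℕ => ‖c‖ * (‖f x.1‖ * ‖g x.2‖))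
      ((hf.mul_of_nonneg hg (fun _ => norm_nonneg _) (fun _ => norm_nonneg _)).mul_left _) ?_
    intro x
    calc ‖c (f x.1) (g x.2)‖ ≤ ‖c‖ * ‖f x.1‖ * ‖g x.2‖ := c.le_opNorm₂ _ _
      _ = _ := by ring
  have h1 : HasSum (fun i => c (f i) (∑' j, g j)) (c (∑' i, f i) (∑' j, g j)) :=
    (c.flip (∑' j, g j)).hasSum hf'.hasSum
  have h2 : ∀ i, HasSum (fun j => c (f i) (g j)) (c (f i) (∑' j, g j)) := fun i =>
    (c (f i)).hasSum hg'.hasSum
  have h3 : HasSum (fun i => c (f i) (∑' j, g j)) (∑' x : ℕ × ℕ, c (f x.1) (g x.2)) :=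
    HasSum.prod_fiberwise hp.hasSum h2
  rw [h1.unique h3]
  conv_rhs => congr; ext; rw [← Finset.sum_finset_coe, ← tsum_fintype (L := .unconditional _)]
  rw [← Finset.HasAntidiagonal.sigmaAntidiagonalEquivProd.tsum_eq
    (fun x : ℕ × ℕ => c (f x.1) (g x.2))]
  refine Summable.tsum_sigma' (fun n => (hasSum_fintype _).summable) ?_
  exact Finset.HasAntidiagonal.sigmaAntidiagonalEquivProd.summable_iff.2 hp

end cauchy

section prime

/-- The residue characteristic. -/
theorem exists_prime (k : Type) [NontriviallyNormedField k] [IsUltrametricDist k] [ProperSpace k]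
    [CharZero k] : ∃ p : ℕ, p.Prime ∧ ‖(p : k)‖ < 1 ∧ (p : k) ≠ 0 := by
  by_contra hcon
  push Not at hcon
  have h1 : ∀ p : ℕ, p.Prime → ‖(p : k)‖ = 1 := by
    intro p hp
    by_contra h
    have h2 : ‖(p : k)‖ < 1 := lt_of_le_of_ne (IsUltrametricDist.norm_natCast_le_one k p) h
    exact (Nat.cast_ne_zero.2 hp.ne_zero) (hcon p hp h2)
  have h2 : ∀ m : ℕ, m ≠ 0 → ‖(m : k)‖ = 1 := by
    intro m
    induction m using Nat.recOnMul with
    | zero => intro h; exact absurd rfl h
    | one => intro _; simp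
    | prime p hp => intro _; exact h1 p hp
    | mul a b ha hb =>
      intro h
      rw [Nat.cast_mul, norm_mul, ha (left_ne_zero_of_mul h), hb (right_ne_zero_of_mul h), one_mul]
  have hc : IsCompact (Metric.closedBall (0 : k) 1) := isCompact_closedBall _ _
  have hmem : ∀ m : ℕ, (m : k) ∈ Metric.closedBall (0 : k) 1 := fun m => by
    rw [mem_closedBall_zero_iff]
    exact IsUltrametricDist.norm_natCast_le_one k m
  obtain ⟨a, -, θ, hθ, hlim⟩ := hc.tendsto_subseq hmem
  have hcs := hlim.cauchySeq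
  rw [Metric.cauchySeq_iff] at hcs
  obtain ⟨M, hM⟩ := hcs 1 one_pos
  have h3 := hM (M + 1) (by omega) M le_rfl
  have h4 : θ M < θ (M + 1) := hθ (Nat.lt_succ_self M)
  have h5 := h2 (θ (M + 1) - θ M) (by omega)
  rw [Nat.cast_sub h4.le] at h5
  simp only [Function.comp_apply, dist_eq_norm] at h3
  rw [h5] at h3
  exact lt_irrefl _ h3

end prime

section iota

variable {k : Type} [Field k] {L : Type} [LieRing L] [LieAlgebra k L] {n : ℕ} {G : Type} [Group G]

/-- the matrix representation -/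
noncomputable def phi (b : Basis (Fin n) k L) (ρ : G →* Module.End k L) : G →* Mt n k :=
  (LinearMap.toMatrixAlgEquiv b).toMulEquiv.toMonoidHom.comp ρ

theorem phi_apply (b : Basis (Fin n) k L) (ρ : G →* Module.End k L) (g : G) :
    phi b ρ g = LinearMap.toMatrix b b (ρ g) := rfl

/-- the adjoint representation in coordinates -/
noncomputable def iota (b : Basis (Fin n) k L) : (Fin n → k) →ₗ[k] Mt n k :=
  (LinearMap.toMatrix b b).toLinearMap ∘ₗ
    ((LieAlgebra.ad k L : L →ₗ[k] Module.End k L)) ∘ₗ b.equivFun.symm.toLinearMap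

theorem iota_apply (b : Basis (Fin n) k L) (c : Fin n → k) :
    iota b c = LinearMap.toMatrix b b (LieAlgebra.ad k L (b.equivFun.symm c)) := rfl

theorem iota_single (b : Basis (Fin n) k L) (i : Fin n) :
    iota b (Pi.single i 1) = LinearMap.toMatrix b b (LieAlgebra.ad k L (b i)) := by
  rw [iota_apply]
  congr 2
  rw [Basis.equivFun_symm_apply]
  rw [Finset.sum_eq_single i]
  · rw [Pi.single_eq_same, one_smul]
  · intro j _ hj; rw [Pi.single_eq_of_ne hj, zero_smul]
  · intro h; exact absurd (Finset.mem_univ i) h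

end iota

section gram

variable {k : Type} [NontriviallyNormedField k] {L : Type} [LieRing L] [LieAlgebra k L]
  [Module.Finite k L] {n : ℕ}

theorem gram_eq (b : Basis (Fin n) k L) :
    gram (iota b) = LinearMap.BilinForm.toMatrix b (killingForm k L) := by
  ext i j
  rw [LinearMap.BilinForm.toMatrix_apply]
  show (iota b (Pi.single i 1) * iota b (Pi.single j 1)).trace = _
  rw [iota_single, iota_single, ← LinearMap.toMatrix_comp b b b, killingForm_apply_apply,
    LinearMap.trace_eq_matrix_trace k b]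

/-- **(A2)** -/
theorem gram_det [LieAlgebra.IsKilling k L] (b : Basis (Fin n) k L) : (gram (iota b)).det ≠ 0 := by
  rw [gram_eq]
  exact (LinearMap.BilinForm.nondegenerate_iff_det_ne_zero b).1
    (LieAlgebra.IsKilling.killingForm_nondegenerate k L)

theorem iota_inj [LieAlgebra.IsKilling k L] (b : Basis (Fin n) k L) :
    Function.Injective (iota b) := by
  rw [← LinearMap.ker_eq_bot, LinearMap.ker_eq_bot']
  intro c hc
  refine Matrix.eq_zero_of_mulVec_eq_zero (gram_det b) ?_
  funext i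
  have h1 := gram_apply (iota b) (Pi.single i 1) c
  rw [hc, mul_zero, Matrix.trace_zero, single_one_dotProduct] at h1
  exact h1

end gram

section lim

variable {k V : Type} [NontriviallyNormedField k] [NormedAddCommGroup V] [NormedSpace k V]

/-- A pointwise limit of infinitesimal automorphisms is a derivation. -/
theorem der_of_lim (c : V →L[k] V →L[k] V) {s : ℕ → k} (hs : Tendsto s atTop (𝓝 0))
    {D : ℕ → (V →L[k] V)} {X : V →L[k] V} (hD : ∀ u, Tendsto (fun j => D j u) atTop (𝓝 (X u)))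
    (h : ∀ j u v, D j (c u v) = c (D j u) v + c u (D j v) + s j • c (D j u) (D j v)) :
    X ∈ DerB c := by
  intro u v
  have hb : ∀ (x y : ℕ → V) (x' y' : V), Tendsto x atTop (𝓝 x') →
      Tendsto y atTop (𝓝 y') → Tendsto (fun j => c (x j) (y j)) atTop (𝓝 (c x' y')) := by
    intro x y x' y' hx hy
    have hcc : Continuous fun z : V × V => c z.1 z.2 :=
      (c.continuous.comp continuous_fst).clm_apply continuous_snd
    exact (hcc.tendsto (x', y')).comp (hx.prodMk_nhds hy)
  have h4 : Tendsto (fun j => c (D j u) v + c u (D j v) + s j • c (D j u) (D j v)) atTop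
      (𝓝 (c (X u) v + c u (X v) + (0 : k) • c (X u) (X v))) :=
    ((hb _ _ _ _ (hD u) tendsto_const_nhds).add (hb _ _ _ _ tendsto_const_nhds (hD v))).add
      (hs.smul (hb _ _ _ _ (hD u) (hD v)))
  rw [zero_smul, add_zero] at h4
  simp only [← h] at h4
  exact tendsto_nhds_unique (hD _) h4

/-- Automorphisms are infinitesimally derivations. -/
theorem autB_diff {c : V →L[k] V →L[k] V} {D : V →L[k] V} {s : k} (hs : s ≠ 0)
    (h : AutB c (1 + s • D)) (u v : V) :
    D (c u v) = c (D u) v + c u (D v) + s • c (D u) (D v) := by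
  have h1 := h u v
  simp only [ContinuousLinearMap.add_apply, ContinuousLinearMap.one_apply,
    ContinuousLinearMap.smul_apply, map_add, map_smul] at h1
  have h2 : s • D (c u v) = s • (c (D u) v + c u (D v) + s • c (D u) (D v)) := by
    have h3 := congrArg (fun w => w - c u v) h1
    simp only [add_sub_cancel_left] at h3
    rw [h3]
    simp only [smul_add]
    abel
  exact smul_right_injective _ hs h2

end lim

section main

variable {k : Type} [NontriviallyNormedField k] [IsUltrametricDist k] [ProperSpace k] [CharZero k]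
  {L : Type} [LieRing L] [LieAlgebra k L] [Module.Finite k L] {n : ℕ}

attribute [local instance] mnr mna mu mc mp
attribute [-instance] instTopologicalSpaceMatrix Matrix.instUniformSpace

/-- evaluation at a vector -/
noncomputable def ev (u : Fin n → k) : Mt n k →L[k] (Fin n → k) :=
  LinearMap.toContinuousLinearMap
    { toFun := fun M => (m2c M : (Fin n → k) →L[k] (Fin n → k)) u
      map_add' := fun M M' => by rw [map_add]; rfl
      map_smul' := fun a M => by rw [map_smul]; rfl }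

theorem ev_apply (u : Fin n → k) (M : Mt n k) :
    ev u M = (m2c M : (Fin n → k) →L[k] (Fin n → k)) u := rfl

theorem ep_lim {π : ℝ} (hπ : Pi k π) {s : ℕ → k} (hs0 : ∀ j, s j ≠ 0)
    (hs : Tendsto s atTop (𝓝 0)) (X : Mt n k) :
    Tendsto (fun j => (s j)⁻¹ • (ep (s j • X) - 1)) atTop (𝓝 X) := by
  have hsn : Tendsto (fun j => ‖s j‖) atTop (𝓝 0) := by
    have := hs.norm
    rwa [norm_zero] at this
  rw [tendsto_iff_norm_sub_tendsto_zero]
  have h1 : Tendsto (fun j => ‖s j‖ * (‖X‖ * ‖X‖ / π)) atTop (𝓝 0) := by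
    have := hsn.mul_const (‖X‖ * ‖X‖ / π)
    rwa [zero_mul] at this
  refine squeeze_zero' (Eventually.of_forall fun j => norm_nonneg _) ?_ h1
  have h2 : ∀ᶠ j in atTop, ‖s j‖ * ‖X‖ < π := by
    have h3 := hsn.mul_const ‖X‖
    rw [zero_mul] at h3
    exact h3.eventually (gt_mem_nhds hπ.1)
  filter_upwards [h2] with j hj
  have h4 : ‖s j • X‖ < π := by rw [norm_smul]; exact hj
  have h5 := ep_close hπ (norm_nonneg (s j • X)) h4 (s j • X) 0 le_rfl
    (by rw [norm_zero]; exact norm_nonneg _)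
  rw [ep_zero, sub_zero] at h5
  have e : (s j)⁻¹ • (ep (s j • X) - 1) - X = (s j)⁻¹ • (ep (s j • X) - 1 - s j • X) := by
    rw [smul_sub (s j)⁻¹ (ep (s j • X) - 1), smul_smul, inv_mul_cancel₀ (hs0 j), one_smul]
  rw [e, norm_smul, norm_inv]
  have h6 : 0 < ‖s j‖ := norm_pos_iff.2 (hs0 j)
  rw [inv_mul_le_iff₀ h6]
  refine h5.trans (le_of_eq ?_)
  rw [norm_smul]
  ring

theorem m2c_inj : Function.Injective (m2c (k := k) (n := n)) := by
  intro M M' h
  have h1 : Matrix.toLin' M = Matrix.toLin' M' := by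
    refine LinearMap.ext fun v => ?_
    exact congrArg (fun T : (Fin n → k) →L[k] (Fin n → k) => T v) h
  exact Matrix.toLin'.injective h1

/-- **(A1)** -/
theorem log_der [LieAlgebra.IsKilling k L] (b : Basis (Fin n) k L) {X : Mt n k}
    (hX : ∀ m : ℕ, ∃ T : Module.End k L, (∀ x y : L, T ⁅x, y⁆ = ⁅T x, T y⁆) ∧
      LinearMap.toMatrix b b T = ep ((m : k) • X)) : ∃ c, iota b c = X := by
  obtain ⟨p, hp, hpk, hp0⟩ := exists_prime k
  obtain ⟨π, hπ⟩ := exists_pi (k := k)
  have hπ' : Pi k π := hπ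
  obtain ⟨s, hs⟩ : ∃ s : ℕ → k, s = fun j => ((p ^ j : ℕ) : k) := ⟨_, rfl⟩
  have hs0 : ∀ j, s j ≠ 0 := fun j => by
    rw [hs]
    push_cast
    exact pow_ne_zero _ hp0
  have hst : Tendsto s atTop (𝓝 0) := by
    rw [hs]
    push_cast
    exact tendsto_pow_atTop_nhds_zero_of_norm_lt_one hpk
  have hlim := ep_lim hπ' hs0 hst X
  have hXD : m2c X ∈ DerB (brk b) := by
    refine der_of_lim (brk b) hst (D := fun j => m2c ((s j)⁻¹ • (ep (s j • X) - 1))) ?_ ?_
    · intro u
      exact ((ev u).continuous.tendsto X).comp hlim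
    · intro j u v
      refine autB_diff (hs0 j) ?_ u v
      obtain ⟨T, hT, hTX⟩ := hX (p ^ j)
      have hA : AutB (brk b) (m2c (ep (s j • X))) := by
        rw [hs]
        show AutB (brk b) (m2c (ep (((p ^ j : ℕ) : k) • X)))
        rw [← hTX, m2c_toMatrix]
        exact autB_clm b hT
      have e : m2c (ep (s j • X)) = 1 + s j • m2c ((s j)⁻¹ • (ep (s j • X) - 1)) := by
        rw [map_smul, smul_smul, mul_inv_cancel₀ (hs0 j), one_smul, map_sub, m2c_one,
          add_sub_cancel]
      rw [← e]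
      exact hA
  obtain ⟨z, hz⟩ := exists_ad b hXD
  refine ⟨b.equivFun z, ?_⟩
  rw [iota_apply, LinearEquiv.symm_apply_apply]
  apply m2c_inj
  rw [m2c_toMatrix, hz]

/-- **(A3), first half: the exponential of a small derivation is an automorphism.** -/
theorem exp_aut (b : Basis (Fin n) k L) {π : ℝ} (hπ : Pi k π) {z : L}
    (hz : ‖(LinearMap.toMatrix b b (LieAlgebra.ad k L z) : Mt n k)‖ < π) :
    AutB (brk b) (m2c (ep (LinearMap.toMatrix b b (LieAlgebra.ad k L z)))) := by
  obtain ⟨X, hX⟩ : ∃ X : Mt n k, X = LinearMap.toMatrix b b (LieAlgebra.ad k L z) := ⟨_, rfl⟩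
  rw [← hX] at hz ⊢
  have hsum := summ hπ X hz
  -- the terms
  have hpow : ∀ m : ℕ, X ^ m = LinearMap.toMatrix b b ((LieAlgebra.ad k L z) ^ m) := by
    intro m
    rw [hX]
    have := map_pow (LinearMap.toMatrixAlgEquiv b) (LieAlgebra.ad k L z) m
    exact this.symm
  obtain ⟨f, hf⟩ : ∃ f : (Fin n → k) → ℕ → (Fin n → k), f = fun u m =>
      ev u ((((m ! : ℕ) : k))⁻¹ • X ^ m) := ⟨_, rfl⟩
  have hfe : ∀ u m, f u m = (((m ! : ℕ) : k))⁻¹ •
      b.equivFun (((LieAlgebra.ad k L z) ^ m) (b.equivFun.symm u)) := by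
    intro u m
    rw [hf]
    show ev u ((((m ! : ℕ) : k))⁻¹ • X ^ m) = _
    rw [map_smul, hpow, ev_apply, m2c_toMatrix, clm_apply]
  have hval : ∀ u, m2c (ep X) u = ∑' m, f u m := by
    intro u
    have h1 : ep X = ∑' m : ℕ, (((m ! : ℕ) : k))⁻¹ • X ^ m := exp_def (k := k) X
    rw [hf, h1, ← ev_apply, (ev u).map_tsum hsum]
  have hnorm : ∀ u, Summable fun m => ‖f u m‖ := by
    intro u
    rw [← summable_nat_add_iff 1]
    have hq : ‖X‖ / π < 1 := (div_lt_one hπ.1).2 hz
    refine Summable.of_nonneg_of_le (fun m => norm_nonneg _) (fun m => ?_)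
      (((summable_geometric_of_lt_one (div_nonneg (norm_nonneg _) hπ.1.le) hq).mul_right
        ‖X‖).mul_left ‖(ev u : Mt n k →L[k] (Fin n → k))‖)
    have h1 := term_sub hπ X 0 (norm_nonneg X) le_rfl (by simpa using norm_nonneg X) m
    rw [zero_pow (Nat.succ_ne_zero m), smul_zero, sub_zero, sub_zero] at h1
    rw [hf]
    refine ((ev u).le_opNorm _).trans ?_
    exact mul_le_mul_of_nonneg_left h1 (norm_nonneg _)
  intro u v
  rw [hval, hval, hval, cauchy (brk b) (hnorm u) (hnorm v)]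
  congr 1
  funext m
  -- Leibniz
  have hD := LieDerivation.iterate_apply_lie (LieDerivation.ad k L z) m (b.equivFun.symm u)
    (b.equivFun.symm v)
  have hit : ∀ (j : ℕ) (x : L), (LieDerivation.ad k L z)^[j] x = ((LieAlgebra.ad k L z) ^ j) x := by
    intro j x
    induction j with
    | zero => rfl
    | succ j ih =>
      rw [Function.iterate_succ_apply', ih, pow_succ', Module.End.mul_apply,
        LieDerivation.ad_apply_apply, LieAlgebra.ad_apply]
  simp only [hit] at hD
  rw [hfe, brk_apply, LinearEquiv.symm_apply_apply, hD, map_sum, Finset.smul_sum]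
  refine Finset.sum_congr rfl fun ij hij => ?_
  rw [hfe, hfe, map_nsmul, (brk b).map_smul, ContinuousLinearMap.smul_apply,
    ContinuousLinearMap.map_smul, brk_apply, LinearEquiv.symm_apply_apply,
    LinearEquiv.symm_apply_apply]
  rw [← Nat.cast_smul_eq_nsmul k, smul_smul, smul_smul]
  congr 1
  rw [Finset.HasAntidiagonal.mem_antidiagonal] at hij
  have h1 : (((m.choose ij.1 : ℕ) : k)) * ((ij.1 ! : ℕ) : k) * ((ij.2 ! : ℕ) : k) =
      ((m ! : ℕ) : k) := by
    have h2 := Nat.choose_mul_factorial_mul_factorial (n := m) (k := ij.1) (by omega)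
    have h3 : m - ij.1 = ij.2 := by omega
    rw [h3] at h2
    exact_mod_cast h2
  have e1 : ((ij.1 ! : ℕ) : k) ≠ 0 := Nat.cast_ne_zero.2 (Nat.factorial_ne_zero _)
  have e2 : ((ij.2 ! : ℕ) : k) ≠ 0 := Nat.cast_ne_zero.2 (Nat.factorial_ne_zero _)
  have e3 : ((m ! : ℕ) : k) ≠ 0 := Nat.cast_ne_zero.2 (Nat.factorial_ne_zero _)
  have e4 : ((m.choose ij.1 : ℕ) : k) ≠ 0 := Nat.cast_ne_zero.2
    (Nat.choose_pos (by omega)).ne'
  rw [← h1]
  field_simp

/-- **(A3)**: the exponential of a small derivation, as an automorphism of `L`. -/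
theorem exists_exp (b : Basis (Fin n) k L) : ∃ ε > 0, ∀ z : L,
    ‖(LinearMap.toMatrix b b (LieAlgebra.ad k L z) : Mt n k)‖ ≤ ε → ∃ T : Module.End k L,
      IsAut T ∧ LinearMap.toMatrix b b T = ep (LinearMap.toMatrix b b (LieAlgebra.ad k L z)) := by
  obtain ⟨π, hπ⟩ := exists_pi (k := k)
  have hπ' : Pi k π := hπ
  refine ⟨π / 2, half_pos hπ.1, fun z hz => ?_⟩
  obtain ⟨X, hX⟩ : ∃ X : Mt n k, X = LinearMap.toMatrix b b (LieAlgebra.ad k L z) := ⟨_, rfl⟩
  rw [← hX] at hz ⊢
  have hz' : ‖X‖ < π := hz.trans_lt (half_lt_self hπ.1)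
  have h1 : AutB (brk b) (m2c (ep X)) := by
    rw [hX]
    exact exp_aut b hπ' (by rw [← hX]; exact hz')
  obtain ⟨T, hT⟩ : ∃ T : Module.End k L, LinearMap.toMatrix b b T = ep X :=
    ⟨Matrix.toLin b b (ep X), LinearMap.toMatrix_toLin b b _⟩
  obtain ⟨S, hS⟩ : ∃ S : Module.End k L, LinearMap.toMatrix b b S = ep (-X) :=
    ⟨Matrix.toLin b b (ep (-X)), LinearMap.toMatrix_toLin b b _⟩
  have hXn : ‖-X‖ < π := by rw [norm_neg]; exact hz'
  have e1 : ep X * ep (-X) = 1 := by
    have h2 : ep (X + -X) = ep X * ep (-X) :=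
      exp_add hπ' (Commute.neg_right (Commute.refl X)) hz' hXn
    rw [← h2, add_neg_cancel, ep_zero]
  have e2 : ep (-X) * ep X = 1 := by
    have h2 : ep (-X + X) = ep (-X) * ep X :=
      exp_add hπ' (Commute.neg_left (Commute.refl X)) hXn hz'
    rw [← h2, neg_add_cancel, ep_zero]
  refine ⟨T, isAut_of_inv (S := S) (lie_of_autB b ?_) ?_ ?_, hT⟩
  · rw [← m2c_toMatrix, hT]; exact h1
  · apply (LinearMap.toMatrix b b).injective
    rw [Module.End.mul_eq_comp, LinearMap.toMatrix_comp b b b, hT, hS, LinearMap.toMatrix_one, e1]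
  · apply (LinearMap.toMatrix b b).injective
    rw [Module.End.mul_eq_comp, LinearMap.toMatrix_comp b b b, hT, hS, LinearMap.toMatrix_one, e2]

variable {G : Type} [Group G] [TopologicalSpace G] {b : Basis (Fin n) k L}
  {ρ : G →* Module.End k L}

/-- **The data of the volume bound.** -/
theorem dat (hρ : RP b ρ) : Dat (phi b ρ) (iota b) := by
  haveI := hρ.simple
  haveI : LieAlgebra.IsKilling k L := inferInstance
  refine ⟨hρ.emb.isEmbedding, ⟨iota_inj b, fun X hX => log_der b fun m => ?_⟩, gram_det b, ?_⟩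
  · obtain ⟨g, hg⟩ := hX m
    exact ⟨ρ g, hρ.lie g, hg⟩
  · obtain ⟨ε, hε, h⟩ := exists_exp b
    obtain ⟨π, hπ⟩ := exists_pi (k := k)
    have hπ' : Pi k π := hπ
    have hN : Submodule.span k {z | Crv b ρ (⊤ : Subgroup G) z} = ⊤ := by
      rw [eq_top_iff, ← span_all hρ.simple hρ.iso]
      exact Submodule.span_mono fun x hx => crv_nil hρ hx fun _ _ _ => Subgroup.mem_top _
    have h1 : ∀ᶠ M in 𝓝 (1 : Mt n k), (∃ T : Module.End k L, IsAut T ∧
        LinearMap.toMatrix b b T = M) → ∃ g ∈ (⊤ : Subgroup G), LinearMap.toMatrix b b (ρ g) = M :=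
      inv hρ.simple b ρ hρ.lie ⊤ hN
    obtain ⟨δ, hδ, h2⟩ := Metric.eventually_nhds_iff.1 h1
    refine ⟨min ε (min (δ / 2) (π / 2)), lt_min hε (lt_min (half_pos hδ) (half_pos hπ.1)),
      fun c hc => ?_⟩
    obtain ⟨T, hT, hTe⟩ := h (b.equivFun.symm c) (hc.trans (min_le_left _ _))
    have hc1 : ‖iota b c‖ ≤ δ / 2 := hc.trans ((min_le_right _ _).trans (min_le_left _ _))
    have hc2 : ‖iota b c‖ ≤ π / 2 := hc.trans ((min_le_right _ _).trans (min_le_right _ _))
    have h3 : dist (ep (iota b c)) 1 < δ := by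
      rw [dist_eq_norm, ep_sub_one hπ' _ (hc2.trans_lt (half_lt_self hπ.1))]
      exact hc1.trans_lt (half_lt_self hδ)
    obtain ⟨g, -, hg⟩ := h2 h3 ⟨T, hT, hTe⟩
    exact ⟨g, hg⟩

/-- **[RP-P9]: the field `vol` of `QC.Td`.** -/
theorem vol_rp (hρ : RP b ρ) : ∃ K : Subgroup G, IsOpen (K : Set G) ∧ IsCompact (K : Set G) ∧
    ∀ U W : Subgroup G, IsOpen (U : Set G) → IsOpen (W : Set G) → IsCompact (W : Set G) →
      U ≤ W → U ≤ K → U.relIndex W ≤ U.relIndex K := by
  haveI := topGroup hρ.emb.isEmbedding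
  exact vol_max (dat hρ)

end main

end Vale.Agent.P092.H183.RD
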