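import Vale.Agent.P092.H962.AllR
import Vale.Agent.P092.QC.Mau
import Vale.Agent.P092.QC.Erg
import Vale.Agent.P092.H971.QGrpF
import Vale.Agent.P092.H761.FinR
import Vale.Agent.P092.H183.BCl

/-!
P092, project B (helper183): all amplifications, any number of factors of the class `BFac`
(all classical groups over non-archimedean local fields), all ICC groups `Λ`.
-/

set_option linter.all false

open scoped InnerProductSpace Topology
open Filter Topology ContinuousLinearMap MeasureTheory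

namespace Vale.Agent.P092.H183

open Vale.Agent.P092.H160 Vale.Agent.P092.H103 Vale.Agent.P092.SR
open Vale.Agent.P092.H333 (NoClsT)
open Vale.Agent.P092.H632 (flt flt_up flt_inf flt_conj)

/-- Products of sequences: weak limits of translates are fixed. -/
theorem wfixS_of_mauU {H : Type} [Group H] [TopologicalSpace H] [IsTopologicalGroup H]
    {b : ℕ → H} (h : QC.MauU H b) :
    H761.WFixS b := by
  intro 𝓗 _ _ _ σ hσ ξ
  obtain ⟨U, hU⟩ : ∃ U : Ultrafilter ℕ, (U : Filter ℕ) ≤ atTop :=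
    ⟨Ultrafilter.of atTop, Ultrafilter.of_le _⟩
  obtain ⟨w, hw⟩ := H201.exists_weak U (fun N => σ (b N) ξ) ‖ξ‖
    (Eventually.of_forall fun N => (hσ.iso _ _).le)
  refine ⟨U, inferInstance, hU, w, ?_, hw⟩
  have hinv : ∀ u (x y : 𝓗), ⟪x, σ u y⟫_ℂ = ⟪σ u⁻¹ x, y⟫_ℂ := by
    intro u x y
    have e1 : ⟪σ u (σ u⁻¹ x), σ u y⟫_ℂ = ⟪σ u⁻¹ x, y⟫_ℂ := hσ.inner_map _ _ _
    have e2 : σ u (σ u⁻¹ x) = x := by
      have e3 : (σ u * σ u⁻¹) x = x := by rw [← map_mul, mul_inv_cancel, map_one]; rfl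
      exact e3
    rwa [e2] at e1
  have hfix : ∀ u, (∃ γ : ℕ → H, Tendsto γ U (𝓝 u) ∧
      Tendsto (fun N => (b N)⁻¹ * γ N * b N) U (𝓝 1)) → σ u w = w := by
    rintro u ⟨γ, hγ, hγ1⟩
    refine ext_inner_left ℂ fun z => ?_
    have e0 : Tendsto (fun N => σ (γ N)⁻¹ z) U (𝓝 (σ u⁻¹ z)) := by
      have e4 : Tendsto (fun N => ‖σ (γ N) (σ u⁻¹ z) - z‖) U (𝓝 0) := by
        have e9 : Tendsto (fun N => γ N * u⁻¹) U (𝓝 1) := by
          have := hγ.mul_const u⁻¹
          rwa [mul_inv_cancel] at this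
        have e10 := (((hσ.cont z).comp e9).sub_const z).norm
        rw [sub_self, norm_zero] at e10
        refine e10.congr fun N => ?_
        have e3 : σ (γ N * u⁻¹) z = σ (γ N) (σ u⁻¹ z) := by rw [map_mul]; rfl
        exact congrArg (fun y => ‖y - z‖) e3
      rw [tendsto_iff_norm_sub_tendsto_zero]
      refine e4.congr fun N => ?_
      have e5 : σ (γ N) (σ (γ N)⁻¹ z - σ u⁻¹ z) = -(σ (γ N) (σ u⁻¹ z) - z) := by
        have e3 : σ (γ N) (σ (γ N)⁻¹ z) = z := by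
          have : (σ (γ N) * σ (γ N)⁻¹) z = z := by rw [← map_mul, mul_inv_cancel, map_one]; rfl
          exact this
        rw [map_sub, e3, neg_sub]
      rw [← hσ.iso (γ N) (σ (γ N)⁻¹ z - σ u⁻¹ z), e5, norm_neg]
    have e1 : Tendsto (fun N => ⟪z, σ (γ N) (σ (b N) ξ)⟫_ℂ) U (𝓝 ⟪z, σ u w⟫_ℂ) := by
      rw [hinv]
      have e6 : Tendsto (fun N => ⟪σ (γ N)⁻¹ z - σ u⁻¹ z, σ (b N) ξ⟫_ℂ) U (𝓝 0) := by
        rw [tendsto_zero_iff_norm_tendsto_zero]
        have e7 : Tendsto (fun N => ‖σ (γ N)⁻¹ z - σ u⁻¹ z‖ * ‖ξ‖) U (𝓝 0) := by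
          have := (tendsto_iff_norm_sub_tendsto_zero.1 e0).mul_const ‖ξ‖
          rwa [zero_mul] at this
        refine squeeze_zero (fun N => norm_nonneg _) (fun N => ?_) e7
        refine (norm_inner_le_norm _ _).trans ?_
        rw [hσ.iso]
      have e8 := e6.add (hw (σ u⁻¹ z))
      rw [zero_add] at e8
      refine e8.congr fun N => ?_
      rw [hinv (γ N) z (σ (b N) ξ), inner_sub_left]
      ring
    have e2 : Tendsto (fun N => ⟪z, σ (γ N) (σ (b N) ξ) - σ (b N) ξ⟫_ℂ) U (𝓝 0) := by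
      rw [tendsto_zero_iff_norm_tendsto_zero]
      have e3 : Tendsto (fun N => ‖z‖ * ‖σ ((b N)⁻¹ * γ N * b N) ξ - ξ‖) U (𝓝 0) := by
        have hc : Tendsto (fun g => σ g ξ) (𝓝 1) (𝓝 ξ) := hσ.cont ξ
        have e4 := ((hc.comp hγ1).sub_const ξ).norm.const_mul ‖z‖
        rw [sub_self, norm_zero, mul_zero] at e4
        exact e4
      refine squeeze_zero (fun N => norm_nonneg _) (fun N => ?_) e3
      refine (norm_inner_le_norm _ _).trans ?_
      have e5 : σ (γ N) (σ (b N) ξ) = σ (b N) (σ ((b N)⁻¹ * γ N * b N) ξ) := by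
        have e7 : (σ (γ N) * σ (b N)) ξ = (σ (b N) * σ ((b N)⁻¹ * γ N * b N)) ξ := by
          rw [← map_mul, ← map_mul]
          congr 2
          group
        exact e7
      rw [e5, ← map_sub, hσ.iso]
    have e8 : Tendsto (fun N => ⟪z, σ (γ N) (σ (b N) ξ)⟫_ℂ) U (𝓝 ⟪z, w⟫_ℂ) := by
      have e9 := e2.add (hw z)
      rw [zero_add] at e9
      refine e9.congr fun N => ?_
      rw [inner_sub_right]
      ring
    exact tendsto_nhds_unique e1 e8
  have hlen : H933.Len fun g => dist (σ g w) w := by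
    refine H933.Len.ofAction (fun g x => σ g x) (fun g g' x => ?_) w ?_ (fun g x y => ?_) ?_
    · rw [map_mul]; rfl
    · rw [map_one]; rfl
    · rw [dist_eq_norm, dist_eq_norm, ← map_sub, hσ.iso]
    · exact hσ.cont w
  intro g
  exact dist_eq_zero.1 (h U hU _ hlen (fun u hu => by
    show dist (σ u w) w = 0
    rw [hfix u hu, dist_self]) g)

/-- A factor with the volume bound is a totally disconnected factor of project Q. -/
theorem BFac.td {G : Type} [Group G] [TopologicalSpace G] {r : ℕ} (h : BFac G r) (hV : BVol G) :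
    QC.Td G := by
  haveI := h.top
  obtain ⟨K, h1, h2, h3⟩ := hV
  exact ⟨h.basis, fun W hW hne => H678.ClC.isCompact_of_hmg h.hm W hW hne,
    K, h1, h2, fun U W hU hW hWc hUW hUK => h3 W U hW hWc hU hUW hUK⟩

section fam

variable {r : ℕ} {E : Fin r → Type} [∀ i, Group (E i)] [∀ i, TopologicalSpace (E i)]
  {rk : Fin r → ℕ}

/-- **[FIN-R]** for the class. -/
theorem fin_bfac (hB : ∀ i, BFac (E i) (rk i)) (Γ : Subgroup (∀ i, E i))
    (hL : H515.St.IsLattice Γ) {ι ι' ℋ : Type} [Fintype ι] [Fintype ι'] [NormedAddCommGroup ℋ]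
    [InnerProductSpace ℂ ℋ] [CompleteSpace ℋ] {V R₁ R₂ : Γ →* (ℋ →L[ℂ] ℋ)} {ξ : ι → ℋ}
    {ξ' : ι' → ℋ} (hT : SR.Tri V R₁ R₂ ξ) (hT' : SR.Tri R₁ V R₂ ξ')
    (htr : ∀ v, v ≠ 1 → ∑ k, ⟪ξ k, V v (ξ k)⟫_ℂ = 0) (i : Fin r) :
    ∃ j, SR.FinN (H761.pjA Γ i) (H761.pjA Γ j) V R₁ (Set.range R₂) := by
  haveI := fun i => (hB i).top
  haveI := fun i => (hB i).lc
  haveI := fun i => (hB i).sc
  haveI := fun i => (hB i).t2
  haveI hdisc : DiscreteTopology Γ := hL.disc
  letI : MeasurableSpace ((∀ j, E j) ⧸ Γ) := borel _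
  haveI : BorelSpace ((∀ j, E j) ⧸ Γ) := ⟨rfl⟩
  letI : ∀ j, MeasurableSpace (E j) := fun j => borel _
  haveI : ∀ j, BorelSpace (E j) := fun j => ⟨rfl⟩
  obtain ⟨ν, hν1, hν⟩ := H515.IsLattice.exists_prob (Λ := Γ) ⟨hL.disc, hL.covol⟩
  haveI := hν1
  have hchn : ∀ i, ∃ C : H701.HChain (E i) (rk i), ∀ hr : 0 < rk i,
      Tendsto (C.b ⟨0, hr⟩) atTop (cocompact (E i)) := fun i => (hB i).chn
  choose C hC using hchn
  exact H761.fin_r_gen hν hT (H761.pf_of_tri hT') htr C (fun i => (hB i).pos)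
    (fun i => (hB i).tgt) (fun i => (hB i).basis) i fun s hs => wfixS_of_mauU
      (QC.mauU_pi fun j : {j // j ≠ i} =>
        (QC.MauU.of (hB j.1).hm (hC j.1 (hB j.1).pos)).comp hs.tendsto_atTop)

/-- Relative ICC at every place. -/
theorem ricc_bfac (hB : ∀ i, BFac (E i) (rk i)) {Γ : Type} [Group Γ] (q : ∀ i, Γ →* E i)
    (hi : ∀ g, (∀ i, q i g = 1) → g = 1) (hlat : H515.St.IsLattice (MonoidHom.pi q).range)
    (hicc : ∀ g : Γ, g ≠ 1 → Set.Infinite {y : Γ | ∃ h, y = h * g * h⁻¹}) (i : Fin r)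
    (hd : DenseRange (q i)) {h : Γ} (hh : h ≠ 1) (U : Subgroup (E i))
    (hU : IsOpen (U : Set (E i))) :
    {x : Γ | ∃ g ∈ U.comap (q i), x = g * h * g⁻¹}.Infinite := by
  haveI := fun i => (hB i).top
  haveI := fun i => (hB i).lc
  haveI := fun i => (hB i).sc
  haveI := fun i => (hB i).t2
  refine H971.infinite_lift (q i) (QuotientGroup.mk' (Subgroup.center (E i)))
    (QuotientGroup.isOpenMap_coe) ?_ (H971.ricc_quot q hi hlat hicc (fun i => (hB i).compC)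
      (fun i => (hB i).good.recur) i hd (hB i).good.cent hh) U hU
  rw [QuotientGroup.ker_mk']
  haveI := (hB i).cfin
  exact Set.toFinite _

/-- Ergodicity of the one-leg model, all `Λ`. -/
theorem ergU_bfac (hB : ∀ i, BFac (E i) (rk i)) (hV : ∀ i, BVol (E i)) {Γ : Type} [Group Γ]
    (q : ∀ i, Γ →* E i) (hi : ∀ g, (∀ i, q i g = 1) → g = 1)
    (hlat : H515.St.IsLattice (MonoidHom.pi q).range) (hd : ∀ i, DenseRange (q i))
    (hicc : ∀ g : Γ, g ≠ 1 → Set.Infinite {y : Γ | ∃ h, y = h * g * h⁻¹})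
    {Λ : Type} [Group Λ] (hΛ : ∀ s : Λ, s ≠ 1 → Set.Infinite {y : Λ | ∃ h, y = h * s * h⁻¹})
    {I : Type} [Fintype I] {α : Γ → (Ell2 (I × Λ) →L[ℂ] Ell2 (I × Λ))} (hα : AF α) (j : Fin r)
    (U : Subgroup (E j)) (hU : IsOpen (U : Set (E j))) : H333.ErgU α {g | q j g ∈ U} := by
  haveI := (hB j).top
  obtain ⟨Θ, hΘ, hvol⟩ := ((hB j).td (hV j)).volBd (hd j)
  have hr := fun {h : Γ} (hh : h ≠ 1) (U : Subgroup (E j)) (hU : IsOpen (U : Set (E j))) =>
    ricc_bfac hB q hi hlat hicc j (hd j) hh U hU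
  refine H333.ergU_of (Θ := U.comap (q j)) hα (fun g hg => hr hg U hU) ?_
  refine H632.T.noClsT hα hΛ (𝒰 := flt (q j)) (fun U hU S hS => flt_up hU hS)
    (fun U hU U' hU' => flt_inf hU hU') (fun U hU g => flt_conj hU g) ?_ hvol ?_
  · rintro S ⟨K, hK, -, hKS⟩ h hh
    refine (hr hh K hK).mono ?_
    rintro x ⟨g, hg, rfl⟩
    exact ⟨g, hKS hg, rfl⟩
  · obtain ⟨L, hL, hLc, hLU⟩ := (hB j).basis (U : Set (E j)) (hU.mem_nhds U.one_mem)
    exact ⟨L, hL, hLc, Subgroup.comap_mono hLU⟩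

/-- **All amplifications, any number of factors of the class, all ICC groups `Λ`.** -/
theorem superAll_bfac (hB : ∀ i, BFac (E i) (rk i)) (hV : ∀ i, BVol (E i)) {Γ : Type} [Group Γ]
    (q : ∀ i, Γ →* E i) (hi : ∀ g, (∀ i, q i g = 1) → g = 1)
    (hlat : H515.St.IsLattice (MonoidHom.pi q).range) (hd : ∀ i, DenseRange (q i))
    (hicc : ∀ g : Γ, g ≠ 1 → Set.Infinite {y : Γ | ∃ h, y = h * g * h⁻¹})
    {Λ : Type} [Group Λ] (hΛ : ∀ s : Λ, s ≠ 1 → Set.Infinite {y : Λ | ∃ h, y = h * s * h⁻¹})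
    {m : ℕ} {p : H103.St.MOp m Λ} (hp : H103.St.IsProj p) (θ : H103.St.CornerIso Γ Λ m p) :
    H103.St.mtr p = 1 ∧ H103.St.CanonicalM θ := by
  haveI := fun i => (hB i).top
  haveI := fun i => (hB i).lc
  haveI := fun i => (hB i).sc
  haveI := fun i => (hB i).t2
  haveI := fun i => (hB i).cfin
  have hplc := H971.plc_quot q hi hlat hd hicc (fun i => (hB i).compC)
    fun i => (hB i).good.basis
  have hinj : Function.Injective (MonoidHom.pi q) := by
    rw [injective_iff_map_eq_one]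
    intro g hg
    exact hi g fun i => congrFun hg i
  refine H962.superAll_abs (fun i => (hB i).good) q hplc hicc hΛ hp θ
    (fun j U hUo => ergU_bfac hB hV q hi hlat hd hicc hΛ (H103.af_of hicc hp θ) j U hUo) ?_
  intro ι ι' ℋ _ _ _ _ _ V R₁ R₂ ξ ξ' hT hT' i
  set Γ' := (MonoidHom.pi q).range with hΓ'
  let e : Γ ≃* Γ' := MonoidHom.ofInjective hinj
  have htr : ∀ v : Γ', v ≠ 1 → ∑ l, ⟪ξ l, (V.comp (e.symm : Γ' →* Γ)) v (ξ l)⟫_ℂ = 0 :=
    fun v hv => H962.tr0 hicc hT hT' (e.symm v) (by simpa using hv)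
  obtain ⟨j, hj⟩ := fin_bfac hB Γ' hlat (H962.tri_equiv e.symm hT) (H962.tri_equiv e.symm hT')
    htr i
  have hV' : (V.comp (e.symm : Γ' →* Γ)).comp (e : Γ →* Γ') = V := by
    ext g; simp
  have hR₁ : (R₁.comp (e.symm : Γ' →* Γ)).comp (e : Γ →* Γ') = R₁ := by
    ext g; simp
  have hR₂ : Set.range (R₂.comp (e.symm : Γ' →* Γ)) = Set.range R₂ := by
    ext x
    constructor
    · rintro ⟨g, rfl⟩; exact ⟨e.symm g, rfl⟩
    · rintro ⟨g, rfl⟩; exact ⟨e g, by simp⟩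
  have hadj : ∀ g, adjoint ((R₁.comp (e.symm : Γ' →* Γ)) g) = (R₁.comp (e.symm : Γ' →* Γ)) g⁻¹ :=
    (H962.tri_equiv e.symm hT).adj₁
  have hq : ∀ l, (H761.pjA Γ' l).comp (e : Γ →* Γ') = q l := fun l => by
    ext g
    rfl
  have h := H962.finN_equiv e _ _ _ _ _ hadj hj
  rw [hV', hR₁, hR₂, hq, hq] at h
  exact ⟨j, h⟩

end fam

/-- `Γ` is an ICC lattice in a product of finitely many classical groups over non-archimedean local
fields, with dense projections to all the factors. -/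
def St.PadicLatticeC (Γ : Type) [Group Γ] : Prop :=
  SR.St.ICC Γ ∧ ∃ (r : ℕ) (G : Fin r → Type) (_ : ∀ j, Group (G j))
    (_ : ∀ j, TopologicalSpace (G j)) (i : Γ →* ∀ j, G j), (∀ j, St.PCls (G j)) ∧
      SR.St.DenseLattice i

/-- **The final theorem of project B for the classical groups.** -/
theorem superAll_cls (Γ : Type) [Group Γ] (h : St.PadicLatticeC Γ) : SR.St.SuperAll Γ := by
  obtain ⟨hicc, r, G, _, _, i, hG, hi⟩ := h
  choose rk hB hV using fun j => pcls_bfac (hG j)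
  intro Λ _ _ hΛ n p hp θ
  have e : MonoidHom.pi (fun j => (Pi.evalMonoidHom G j).comp i) = i := by
    ext g j
    rfl
  refine superAll_bfac hB hV (fun j => (Pi.evalMonoidHom G j).comp i) (fun g hg => ?_) ?_
    hi.dense hicc hΛ hp θ
  · refine hi.inj ?_
    rw [map_one]
    exact funext hg
  · rw [e]
    exact hi.lat

end Vale.Agent.P092.H183
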