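import Vale.Agent.P092.H714.Cl1
import Vale.Agent.P092.H933.Cartan

/-!
P092, block VOL-CL (helper183), part 1: bounded matrices, trace-valued hermitian matrices, and the
orbits of the integral general linear group on them.
-/

set_option linter.all false

namespace Vale.Agent.P092.H183.Vol

open Matrix Topology Filter
open Vale.Agent.P092.H714.Cl

section alg

variable {n : Type} [Fintype n] [DecidableEq n] {k : Type} [Field k] {σ : k →+* k} {ε : k}

/-- The conjugate transpose. -/
def st (σ : k →+* k) (A : Matrix n n k) : Matrix n n k := (A.map σ)ᵀ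

theorem st_apply (A : Matrix n n k) (i j : n) : st σ A i j = σ (A j i) := rfl

theorem st_mul (A B : Matrix n n k) : st σ (A * B) = st σ B * st σ A := by
  unfold st
  rw [Matrix.map_mul, transpose_mul]

theorem st_one : st σ (1 : Matrix n n k) = 1 := by
  unfold st
  rw [Matrix.map_one σ (map_zero σ) (map_one σ), transpose_one]

theorem st_st (hinv : ∀ x, σ (σ x) = x) (A : Matrix n n k) : st σ (st σ A) = A := by
  ext i j
  rw [st_apply, st_apply, hinv]

theorem st_add (A B : Matrix n n k) : st σ (A + B) = st σ A + st σ B := by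
  ext i j
  rw [st_apply, Matrix.add_apply, Matrix.add_apply, map_add, st_apply, st_apply]

theorem st_neg (A : Matrix n n k) : st σ (-A) = -st σ A := by
  ext i j
  rw [st_apply, Matrix.neg_apply, Matrix.neg_apply, map_neg, st_apply]

theorem st_smul (c : k) (A : Matrix n n k) : st σ (c • A) = σ c • st σ A := by
  ext i j
  rw [st_apply, Matrix.smul_apply, Matrix.smul_apply, smul_eq_mul, smul_eq_mul, map_mul, st_apply]

/-- Trace-valued hermitian matrices. -/
def Tv (σ : k →+* k) (ε : k) (S : Matrix n n k) : Prop := ∃ F : Matrix n n k, S = F + ε • st σ F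

theorem Tv.star (hinv : ∀ x, σ (σ x) = x) (he : ε * ε = 1) (hse : σ ε = ε) {S : Matrix n n k}
    (h : Tv σ ε S) : st σ S = ε • S := by
  obtain ⟨F, rfl⟩ := h
  rw [st_add, st_smul, st_st hinv, hse, smul_add, smul_smul, he, one_smul, add_comm]

theorem Tv.conj (hinv : ∀ x, σ (σ x) = x) {S : Matrix n n k} (h : Tv σ ε S) (X : Matrix n n k) :
    Tv σ ε (X * S * st σ X) := by
  obtain ⟨F, rfl⟩ := h
  refine ⟨X * F * st σ X, ?_⟩
  rw [st_mul, st_mul, st_st hinv, Matrix.mul_add, Matrix.add_mul, Matrix.mul_smul, Matrix.smul_mul,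
    ← Matrix.mul_assoc]

theorem Tv.sub {S S' : Matrix n n k} (h : Tv σ ε S) (h' : Tv σ ε S') : Tv σ ε (S - S') := by
  obtain ⟨F, rfl⟩ := h
  obtain ⟨F', rfl⟩ := h'
  refine ⟨F - F', ?_⟩
  rw [sub_eq_add_neg F F', st_add, st_neg, smul_add, smul_neg]
  abel

/-- The matrix of a form with the properties `Frm` is trace-valued. -/
theorem tv_frm {J : Matrix n n k} (hF : Frm σ ε J) : Tv σ ε J := by
  classical
  have hs : ∀ i j : n, hf σ J (Pi.single i 1) (Pi.single j 1) = J i j := by
    intro i j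
    unfold hf
    have e : (fun l => σ ((Pi.single j (1 : k) : n → k) l)) = Pi.single j 1 := by
      funext l
      by_cases hl : l = j
      · subst hl; simp
      · simp [Pi.single_eq_of_ne hl]
    rw [e, mulVec_single_one, single_one_dotProduct]
    rfl
  have hh : ∀ i j, J j i = ε * σ (J i j) := by
    intro i j
    have := hF.herm (Pi.single i 1) (Pi.single j 1)
    rwa [hs, hs] at this
  have ht : ∀ i, ∃ β, J i i = β + ε * σ β := by
    intro i
    obtain ⟨β, hβ⟩ := hF.tv (Pi.single i 1)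
    exact ⟨β, by rwa [hs] at hβ⟩
  choose β hβ using ht
  let e := Fintype.equivFin n
  refine ⟨Matrix.of fun i j => if e i < e j then J i j else if i = j then β i else 0, ?_⟩
  ext i j
  rw [Matrix.add_apply, Matrix.smul_apply, st_apply, smul_eq_mul, Matrix.of_apply, Matrix.of_apply]
  rcases lt_trichotomy (e i) (e j) with h | h | h
  · have h1 : ¬ e j < e i := not_lt.2 h.le
    have h2 : j ≠ i := by rintro rfl; exact lt_irrefl _ h
    simp only [h, h1, h2, if_true, if_false, map_zero, mul_zero, add_zero]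
  · have h1 : i = j := e.injective h
    subst h1
    simp only [lt_irrefl, if_false, if_true]
    exact hβ i
  · have h1 : ¬ e i < e j := not_lt.2 h.le
    have h2 : i ≠ j := by rintro rfl; exact lt_irrefl _ h
    simp only [h, h1, h2, if_true, if_false, zero_add]
    exact hh j i

end alg

section norm

variable {n : Type} [Fintype n] [DecidableEq n] {k : Type} [NontriviallyNormedField k]
  {σ : k →+* k} {ε : k}

/-- The entries are bounded by `r`. -/
def Bd (r : ℝ) (A : Matrix n n k) : Prop := ∀ i j, ‖A i j‖ ≤ r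

theorem Bd.mono {r s : ℝ} {A : Matrix n n k} (h : Bd r A) (hrs : r ≤ s) : Bd s A :=
  fun i j => (h i j).trans hrs

theorem Bd.neg {r : ℝ} {A : Matrix n n k} (h : Bd r A) : Bd r (-A) := fun i j => by
  rw [Matrix.neg_apply, norm_neg]; exact h i j

theorem Bd.one : Bd 1 (1 : Matrix n n k) := fun i j => by
  rw [Matrix.one_apply]; split_ifs <;> simp

theorem Bd.st (hσ : ∀ x, ‖σ x‖ = ‖x‖) {r : ℝ} {A : Matrix n n k} (h : Bd r A) :
    Bd r (st σ A) := fun i j => by
  rw [st_apply, hσ]; exact h j i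

theorem Bd.smul {r : ℝ} {A : Matrix n n k} (h : Bd r A) (c : k) : Bd (‖c‖ * r) (c • A) :=
  fun i j => by
    rw [Matrix.smul_apply, smul_eq_mul, norm_mul]
    exact mul_le_mul_of_nonneg_left (h i j) (norm_nonneg c)

variable [IsUltrametricDist k]

theorem Bd.add {r : ℝ} {A B : Matrix n n k} (hA : Bd r A) (hB : Bd r B) : Bd r (A + B) :=
  fun i j => (IsUltrametricDist.norm_add_le_max _ _).trans (max_le (hA i j) (hB i j))

theorem Bd.mul {a b : ℝ} (ha : 0 ≤ a) (hb : 0 ≤ b) {A B : Matrix n n k} (hA : Bd a A)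
    (hB : Bd b B) : Bd (a * b) (A * B) := fun i j =>
  H933.mul_entry_le' ha hb hA hB i j

/-- The norm of a row vector. -/
theorem norm_vecMul_le {r : ℝ} (hr : 0 ≤ r) {A : Matrix n n k} (hA : Bd r A) (x : n → k) :
    ‖x ᵥ* A‖ ≤ ‖x‖ * r := by
  rw [pi_norm_le_iff_of_nonneg (mul_nonneg (norm_nonneg x) hr)]
  intro j
  unfold vecMul dotProduct
  refine IsUltrametricDist.norm_sum_le_of_forall_le_of_nonneg
    (mul_nonneg (norm_nonneg x) hr) fun i _ => ?_
  rw [norm_mul]
  exact mul_le_mul (norm_le_pi_norm x i) (hA i j) (norm_nonneg _) (norm_nonneg x)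

/-- `1 + X` preserves the norm for small `X`. -/
theorem norm_vecMul_one_add {q : ℝ} (hq0 : 0 ≤ q) (hq : q < 1) {X : Matrix n n k} (hX : Bd q X)
    (x : n → k) : ‖x ᵥ* (1 + X)‖ = ‖x‖ := by
  rw [vecMul_add, vecMul_one]
  by_cases hx : x = 0
  · subst hx; simp
  have hx0 : 0 < ‖x‖ := norm_pos_iff.2 hx
  have h1 : ‖x ᵥ* X‖ < ‖x‖ := by
    refine (norm_vecMul_le hq0 hX x).trans_lt ?_
    nlinarith
  have hult : ∀ a b : n → k, ‖a + b‖ ≤ max ‖a‖ ‖b‖ := by
    intro a b
    rw [pi_norm_le_iff_of_nonneg (le_max_of_le_left (norm_nonneg a))]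
    intro i
    exact (IsUltrametricDist.norm_add_le_max _ _).trans
      (max_le_max (norm_le_pi_norm a i) (norm_le_pi_norm b i))
  refine le_antisymm ((hult _ _).trans (max_le le_rfl h1.le)) ?_
  have h2 := hult (x + x ᵥ* X) (-(x ᵥ* X))
  rw [add_neg_cancel_right, norm_neg] at h2
  rcases le_max_iff.1 h2 with h | h
  · exact h
  · exact absurd h (not_le.2 h1)

/-- `1 + X` is invertible over the integers for small `X`. -/
theorem exists_inv_one_add {q : ℝ} (hq0 : 0 ≤ q) (hq : q < 1) {X : Matrix n n k} (hX : Bd q X) :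
    ∃ Y : Matrix n n k, Bd 1 Y ∧ (1 + X) * Y = 1 := by
  have hd : (1 + X).det ≠ 0 := by
    intro h0
    obtain ⟨v, hv, hv0⟩ := Matrix.exists_vecMul_eq_zero_iff.2 h0
    have := norm_vecMul_one_add hq0 hq hX v
    rw [hv0, norm_zero] at this
    exact hv (norm_eq_zero.1 this.symm)
  have hu : IsUnit (1 + X).det := isUnit_iff_ne_zero.2 hd
  refine ⟨(1 + X)⁻¹, fun i j => ?_, mul_nonsing_inv _ hu⟩
  have h1 : ((Pi.single i (1 : k) : n → k) ᵥ* (1 + X)⁻¹) ᵥ* (1 + X) = Pi.single i 1 := by
    rw [vecMul_vecMul, nonsing_inv_mul _ hu, vecMul_one]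
  have h2 := norm_vecMul_one_add hq0 hq hX ((Pi.single i (1 : k) : n → k) ᵥ* (1 + X)⁻¹)
  rw [h1] at h2
  have h3 : ‖(Pi.single i (1 : k) : n → k)‖ ≤ 1 := by
    rw [pi_norm_le_iff_of_nonneg zero_le_one]
    intro l
    by_cases hl : l = i
    · subst hl; simp
    · rw [Pi.single_eq_of_ne hl]; simp
  have h4 : ((Pi.single i (1 : k) : n → k) ᵥ* (1 + X)⁻¹) j = (1 + X)⁻¹ i j := by
    rw [single_one_vecMul]
    rfl
  rw [← h4]
  exact (norm_le_pi_norm _ j).trans (h2 ▸ h3)

/-- A bounded section of `β ↦ β + ε σ(β)`. -/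
def Sec (σ : k →+* k) (ε : k) (C : ℝ) : Prop :=
  1 ≤ C ∧ ∀ β : k, ∃ β' : k, β' + ε * σ β' = β + ε * σ β ∧ ‖β'‖ ≤ C * ‖β + ε * σ β‖

omit [IsUltrametricDist k] in
theorem exists_sec (hinv : ∀ x, σ (σ x) = x) (he : ε * ε = 1) (hse : σ ε = ε) :
    ∃ C : ℝ, Sec σ ε C := by
  by_cases hid : ∀ c, σ c = c
  · by_cases h1 : 1 + ε = 0
    · refine ⟨1, le_rfl, fun β => ⟨0, ?_, by simp⟩⟩
      rw [map_zero, hid]
      linear_combination -β * h1
    · refine ⟨max 1 ‖1 + ε‖⁻¹, le_max_left _ _, fun β => ⟨β, rfl, ?_⟩⟩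
      have h2 : β + ε * σ β = (1 + ε) * β := by rw [hid]; ring
      have h3 : 0 < ‖1 + ε‖ := norm_pos_iff.2 h1
      rw [h2, norm_mul]
      calc ‖β‖ = ‖1 + ε‖⁻¹ * (‖1 + ε‖ * ‖β‖) := by field_simp
        _ ≤ max 1 ‖1 + ε‖⁻¹ * (‖1 + ε‖ * ‖β‖) :=
          mul_le_mul_of_nonneg_right (le_max_right _ _) (by positivity)
  · push Not at hid
    obtain ⟨c, hc⟩ := hid
    obtain ⟨x, hx⟩ : ∃ x : k, x + σ x ≠ 0 := by
      by_contra hcon
      push Not at hcon
      have h1 := hcon 1
      rw [map_one] at h1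
      have h2 := hcon c
      apply hc
      linear_combination h2 - c * h1
    set t : k := x / (x + σ x) with ht
    have ht1 : t + σ t = 1 := by
      have h1 : σ (x + σ x) = x + σ x := by rw [map_add, hinv, add_comm]
      rw [ht, map_div₀, h1, ← add_div, div_self hx]
    refine ⟨max 1 ‖t‖, le_max_left _ _, fun β => ⟨t * (β + ε * σ β), ?_, ?_⟩⟩
    · rw [map_mul, map_add, map_mul, hinv, hse]
      linear_combination (β + ε * σ β) * ht1 + σ t * β * he
    · rw [norm_mul]
      exact mul_le_mul_of_nonneg_right (le_max_right _ _) (norm_nonneg _)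

omit [IsUltrametricDist k] in
/-- A bounded half of a trace-valued matrix. -/
theorem Tv.exists_bd (hinv : ∀ x, σ (σ x) = x) (he : ε * ε = 1) (hse : σ ε = ε) {C : ℝ}
    (hC : Sec σ ε C) {S : Matrix n n k} (h : Tv σ ε S) :
    ∃ F : Matrix n n k, S = F + ε • st σ F ∧ ∀ r : ℝ, 0 ≤ r → Bd r S → Bd (C * r) F := by
  classical
  have hst := h.star hinv he hse
  have hh : ∀ i j, S i j = ε * σ (S j i) := by
    intro i j
    have h1 : σ (S j i) = ε * S i j := congrFun (congrFun hst i) j
    rw [h1, ← mul_assoc, he, one_mul]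
  obtain ⟨F₀, hF₀⟩ := h
  have hd : ∀ i, S i i = F₀ i i + ε * σ (F₀ i i) := fun i => by
    conv_lhs => rw [hF₀]
    rw [Matrix.add_apply, Matrix.smul_apply, st_apply, smul_eq_mul]
  choose β hβ hβn using fun i : n => hC.2 (F₀ i i)
  let e := Fintype.equivFin n
  refine ⟨Matrix.of fun i j => if e i < e j then S i j else if i = j then β i else 0, ?_, ?_⟩
  · ext i j
    rw [Matrix.add_apply, Matrix.smul_apply, st_apply, smul_eq_mul, Matrix.of_apply,
      Matrix.of_apply]
    rcases lt_trichotomy (e i) (e j) with h | h | h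
    · have h1 : ¬ e j < e i := not_lt.2 h.le
      have h2 : j ≠ i := by rintro rfl; exact lt_irrefl _ h
      simp only [h, h1, h2, if_true, if_false, map_zero, mul_zero, add_zero]
    · have h1 : i = j := e.injective h
      subst h1
      simp only [lt_irrefl, if_false, if_true]
      rw [hβ, ← hd]
    · have h1 : ¬ e i < e j := not_lt.2 h.le
      have h2 : i ≠ j := by rintro rfl; exact lt_irrefl _ h
      simp only [h, h1, h2, if_true, if_false, zero_add]
      exact hh i j
  · intro r hr hS i j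
    have hrC : r ≤ C * r := by nlinarith [hC.1]
    show ‖(if e i < e j then S i j else if i = j then β i else 0 : k)‖ ≤ C * r
    split_ifs with h1 h2
    · exact (hS i j).trans hrC
    · refine (hβn i).trans ?_
      rw [← hd]
      exact mul_le_mul_of_nonneg_left (hS i i) (zero_le_one.trans hC.1)
    · rw [norm_zero]
      exact mul_nonneg (zero_le_one.trans hC.1) hr

/-- One step of the approximation of a trace-valued matrix in the orbit. -/
theorem step (hσ : ∀ x, ‖σ x‖ = ‖x‖) (hinv : ∀ x, σ (σ x) = x) (he : ε * ε = 1)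
    (hse : σ ε = ε) {C : ℝ} (hC : Sec σ ε C) {c p e : ℝ} (hc : 0 ≤ c) (hp : 0 ≤ p) (he0 : 0 ≤ e)
    {P T S' : Matrix n n k} (hP : Tv σ ε P) (hS' : Tv σ ε S') (hPT : P * T = 1) (hT : Bd c T)
    (hPb : Bd p P) (hE : Bd e (S' - P)) :
    ∃ X : Matrix n n k, Bd (C * e * c) X ∧
      Bd (C * e * c * p * (C * e * c)) (S' - (1 + X) * P * st σ (1 + X)) := by
  obtain ⟨F, hF, hFb⟩ := (hS'.sub hP).exists_bd hinv he hse hC
  have hC0 : 0 ≤ C := zero_le_one.trans hC.1
  have hTP : T * P = 1 := mul_eq_one_comm.1 hPT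
  have hX : Bd (C * e * c) (F * T) := (hFb e he0 hE).mul (by positivity) hc hT
  have e1 : F * T * P = F := by rw [Matrix.mul_assoc, hTP, Matrix.mul_one]
  have e2 : P * st σ T = ε • (1 : Matrix n n k) := by
    have h1 : st σ P * st σ T = 1 := by rw [← st_mul, hTP, st_one]
    rw [hP.star hinv he hse, Matrix.smul_mul] at h1
    rw [← h1, smul_smul, he, one_smul]
  have e3 : P * st σ (F * T) = ε • st σ F := by
    rw [st_mul, ← Matrix.mul_assoc, e2, Matrix.smul_mul, Matrix.one_mul]
  refine ⟨F * T, hX, ?_⟩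
  have e4 : S' - (1 + F * T) * P * st σ (1 + F * T) = -(F * T * P * st σ (F * T)) := by
    have h1 : S' = P + (F + ε • st σ F) := by rw [← hF]; abel
    rw [st_add, st_one, Matrix.add_mul, Matrix.one_mul, Matrix.add_mul, Matrix.mul_add,
      Matrix.mul_one, e3, e1, Matrix.mul_add, Matrix.mul_one, h1]
    abel
  rw [e4]
  exact ((hX.mul (by positivity) hp hPb).mul (by positivity) (by positivity)
    (Bd.st hσ hX)).neg

end norm

end Vale.Agent.P092.H183.Vol
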