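import Vale.Agent.P092.H183.VL1

/-!
P092, block VOL-CL (helper183), part 2: the integral general linear group has open orbits on the
nondegenerate trace-valued hermitian matrices; finitely many orbits on compact sets of them.
-/

set_option linter.all false

namespace Vale.Agent.P092.H183.Vol

open Matrix Topology Filter
open Vale.Agent.P092.H714.Cl

variable {n : Type} [Fintype n] [DecidableEq n] {k : Type} [NontriviallyNormedField k]
  {σ : k →+* k} {ε : k}

omit [Fintype n] [DecidableEq n] in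
theorem isCompact_Bd [ProperSpace k] (R : ℝ) : IsCompact {f : Matrix n n k | Bd R f} := by
  have : {f : Matrix n n k | Bd R f} =
      Set.pi Set.univ (fun _ : n => Set.pi Set.univ fun _ : n => Metric.closedBall (0 : k) R) := by
    ext f
    constructor
    · intro h i _ j _
      exact mem_closedBall_zero_iff.2 (h i j)
    · intro h i j
      exact mem_closedBall_zero_iff.1 (h i trivial j trivial)
  rw [this]
  exact isCompact_univ_pi fun _ => isCompact_univ_pi fun _ => isCompact_closedBall _ _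

/-- The pairs of mutually inverse integral matrices. -/
def GO (n : Type) [Fintype n] [DecidableEq n] (k : Type) [NontriviallyNormedField k] :
    Set (Matrix n n k × Matrix n n k) :=
  {p | Bd 1 p.1 ∧ Bd 1 p.2 ∧ p.1 * p.2 = 1}

theorem isCompact_GO [ProperSpace k] : IsCompact (GO n k) := by
  have h1 : IsCompact ({f : Matrix n n k | Bd 1 f} ×ˢ {f : Matrix n n k | Bd 1 f}) :=
    (isCompact_Bd 1).prod (isCompact_Bd 1)
  have h2 : IsClosed {p : Matrix n n k × Matrix n n k | p.1 * p.2 = 1} :=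
    isClosed_eq (continuous_fst.matrix_mul continuous_snd) continuous_const
  refine (h1.inter_right h2).of_isClosed_subset ?_ fun p hp => ⟨⟨hp.1, hp.2.1⟩, hp.2.2⟩
  have : GO n k = ({f : Matrix n n k | Bd 1 f} ×ˢ {f : Matrix n n k | Bd 1 f}) ∩
      {p : Matrix n n k × Matrix n n k | p.1 * p.2 = 1} := by
    ext p
    exact ⟨fun hp => ⟨⟨hp.1, hp.2.1⟩, hp.2.2⟩, fun hp => ⟨hp.1.1, hp.1.2, hp.2⟩⟩
  rw [this]
  exact (h1.inter_right h2).isClosed

/-- The size of a matrix. -/
noncomputable def nm (A : Matrix n n k) : ℝ := ‖(fun i j => A i j : n → n → k)‖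

theorem nm_nonneg (A : Matrix n n k) : 0 ≤ nm A := norm_nonneg _

theorem bd_nm (A : Matrix n n k) : Bd (nm A) A := fun i j =>
  (norm_le_pi_norm (fun j => A i j) j).trans (norm_le_pi_norm (fun i j => A i j : n → n → k) i)

theorem nm_le {A : Matrix n n k} {r : ℝ} (hr : 0 ≤ r) (h : Bd r A) : nm A ≤ r := by
  unfold nm
  rw [pi_norm_le_iff_of_nonneg hr]
  intro i
  rw [pi_norm_le_iff_of_nonneg hr]
  exact h i

theorem continuous_nm : Continuous (nm : Matrix n n k → ℝ) := by
  have h : Continuous fun A : Matrix n n k => (fun i j => A i j : n → n → k) := continuous_id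
  exact continuous_norm.comp h

theorem eq_of_nm {A B : Matrix n n k} (h : nm (A - B) = 0) : A = B := by
  have h1 := bd_nm (A - B)
  rw [h] at h1
  ext i j
  have h2 := norm_le_zero_iff.1 (h1 i j)
  rw [Matrix.sub_apply] at h2
  exact sub_eq_zero.1 h2

theorem continuous_st (hσc : Continuous σ) : Continuous (st σ : Matrix n n k → Matrix n n k) := by
  refine continuous_matrix fun i j => ?_
  exact hσc.comp (continuous_id.matrix_elem j i)

variable [IsUltrametricDist k]

/-- One step inside the compact group. -/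
theorem step2 (hσ : ∀ x, ‖σ x‖ = ‖x‖) (hinv : ∀ x, σ (σ x) = x) (he : ε * ε = 1)
    (hse : σ ε = ε) {C : ℝ} (hC : Sec σ ε C) {c p e : ℝ} (hc : 0 ≤ c) (hp : 0 ≤ p) (he0 : 0 ≤ e)
    (hs1 : C * e * c < 1) {S T S' g g' : Matrix n n k} (hS : Tv σ ε S) (hS' : Tv σ ε S')
    (hST : S * T = 1) (hT : Bd c T) (hSb : Bd p S) (hg : (g, g') ∈ GO n k)
    (hE : Bd e (S' - g * S * st σ g)) :
    ∃ q ∈ GO n k, Bd (C * e * c * p * (C * e * c)) (S' - q.1 * S * st σ q.1) := by
  have hC0 : 0 ≤ C := zero_le_one.trans hC.1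
  obtain ⟨hg1, hg2, hgg⟩ := hg
  have hg1 : Bd 1 g := hg1
  have hg2 : Bd 1 g' := hg2
  have hgg : g * g' = 1 := hgg
  have hg'g : g' * g = 1 := mul_eq_one_comm.1 hgg
  have hPT : (g * S * st σ g) * (st σ g' * T * g') = 1 := by
    have h1 : st σ g * st σ g' = 1 := by rw [← st_mul, hg'g, st_one]
    calc (g * S * st σ g) * (st σ g' * T * g') = g * S * (st σ g * st σ g') * T * g' := by
          simp only [Matrix.mul_assoc]
      _ = g * (S * T) * g' := by rw [h1, Matrix.mul_one]; simp only [Matrix.mul_assoc]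
      _ = 1 := by rw [hST, Matrix.mul_one, hgg]
  have hTb : Bd c (st σ g' * T * g') := by
    have := ((Bd.st hσ hg2).mul zero_le_one hc hT).mul (by positivity) zero_le_one hg2
    rwa [one_mul, mul_one] at this
  have hPb : Bd p (g * S * st σ g) := by
    have := (hg1.mul zero_le_one hp hSb).mul (by positivity) zero_le_one (Bd.st hσ hg1)
    rwa [one_mul, mul_one] at this
  have hPv : Tv σ ε (g * S * st σ g) := hS.conj hinv g
  obtain ⟨X, hX, hX2⟩ := step hσ hinv he hse hC hc hp he0 hPv hS' hPT hTb hPb hE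
  have hq0 : 0 ≤ C * e * c := by positivity
  obtain ⟨Y, hY, hXY⟩ := exists_inv_one_add hq0 hs1 hX
  have hX1 : Bd 1 (1 + X) := Bd.one.add (hX.mono hs1.le)
  refine ⟨((1 + X) * g, g' * Y), ⟨?_, ?_, ?_⟩, ?_⟩
  · have := hX1.mul zero_le_one zero_le_one hg1
    rwa [one_mul] at this
  · have := hg2.mul zero_le_one zero_le_one hY
    rwa [one_mul] at this
  · show (1 + X) * g * (g' * Y) = 1
    calc (1 + X) * g * (g' * Y) = (1 + X) * (g * g') * Y := by simp only [Matrix.mul_assoc]
      _ = 1 := by rw [hgg, Matrix.mul_one, hXY]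
  · have h4 : (1 + X) * g * S * st σ ((1 + X) * g) = (1 + X) * (g * S * st σ g) * st σ (1 + X) := by
      rw [st_mul]; simp only [Matrix.mul_assoc]
    show Bd _ (S' - (1 + X) * g * S * st σ ((1 + X) * g))
    rw [h4]
    exact hX2

theorem num_aux {C c p e x : ℝ} (hC : 0 ≤ C) (hc : 0 ≤ c) (hp : 0 ≤ p) (hx : 0 ≤ x) (hxe : x ≤ e)
    (hs2 : C * e * c * p * (C * c) < 1) (h : x ≤ C * x * c * p * (C * x * c)) : x = 0 := by
  by_contra hne0
  have hpos : 0 < x := lt_of_le_of_ne hx (Ne.symm hne0)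
  have h7 : C * x * c * p * (C * c) < 1 := by
    refine lt_of_le_of_lt ?_ hs2
    gcongr
  have h8 : C * x * c * p * (C * x * c) = (C * x * c * p * (C * c)) * x := by ring
  rw [h8] at h
  have h9 : (C * x * c * p * (C * c)) * x < 1 * x := mul_lt_mul_of_pos_right h7 hpos
  linarith

/-- A trace-valued matrix close to a nondegenerate one lies in its orbit. -/
theorem orbit [ProperSpace k] (hσ : ∀ x, ‖σ x‖ = ‖x‖) (hinv : ∀ x, σ (σ x) = x) (he : ε * ε = 1)
    (hse : σ ε = ε) {C : ℝ} (hC : Sec σ ε C) {c p e : ℝ} (hc : 0 ≤ c) (hp : 0 ≤ p) (he0 : 0 ≤ e)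
    (hs1 : C * e * c < 1) (hs2 : C * e * c * p * (C * c) < 1)
    {S T S' : Matrix n n k} (hS : Tv σ ε S) (hS' : Tv σ ε S') (hST : S * T = 1) (hT : Bd c T)
    (hSb : Bd p S) (hE : Bd e (S' - S)) :
    ∃ g g' : Matrix n n k, Bd 1 g ∧ Bd 1 g' ∧ g * g' = 1 ∧ g * S * st σ g = S' := by
  have hC0 : 0 ≤ C := zero_le_one.trans hC.1
  have hσc : Continuous σ := (AddMonoidHomClass.isometry_of_norm σ hσ).continuous
  have hcont : Continuous fun q : Matrix n n k × Matrix n n k => nm (S' - q.1 * S * st σ q.1) :=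
    continuous_nm.comp (continuous_const.sub
      ((continuous_fst.matrix_mul continuous_const).matrix_mul
        ((continuous_st hσc).comp continuous_fst)))
  have h11 : ((1 : Matrix n n k), (1 : Matrix n n k)) ∈ GO n k := ⟨Bd.one, Bd.one, Matrix.one_mul 1⟩
  obtain ⟨⟨g, g'⟩, hg, hmin⟩ := isCompact_GO.exists_isMinOn ⟨_, h11⟩ hcont.continuousOn
  have he₀e : nm (S' - g * S * st σ g) ≤ e := by
    have h1 := hmin h11
    have h2 : nm (S' - g * S * st σ g) ≤ nm (S' - 1 * S * st σ 1) := h1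
    rw [st_one, Matrix.one_mul, Matrix.mul_one] at h2
    exact h2.trans (nm_le he0 hE)
  have hq : C * nm (S' - g * S * st σ g) * c < 1 := by
    refine lt_of_le_of_lt ?_ hs1
    gcongr
  obtain ⟨q, hq1, hq2⟩ := step2 hσ hinv he hse hC hc hp (nm_nonneg _) hq hS hS' hST hT hSb hg
    (bd_nm _)
  have h3 : nm (S' - g * S * st σ g) ≤ nm (S' - q.1 * S * st σ q.1) := hmin hq1
  have h5 := h3.trans (nm_le (by have := nm_nonneg (S' - g * S * st σ g); positivity) hq2)
  have h6 := num_aux hC0 hc hp (nm_nonneg _) he₀e hs2 h5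
  exact ⟨g, g', hg.1, hg.2.1, hg.2.2, (eq_of_nm h6).symm⟩

/-- Finitely many orbits on the integral trace-valued matrices with bounded inverse. -/
theorem fin_orbits [ProperSpace k] (hσ : ∀ x, ‖σ x‖ = ‖x‖) (hinv : ∀ x, σ (σ x) = x)
    (he : ε * ε = 1) (hse : σ ε = ε) (c : ℝ) (hc : 0 ≤ c) :
    ∃ t : Set (Matrix n n k), t.Finite ∧ ∀ S' : Matrix n n k, Tv σ ε S' → Bd 1 S' →
      (∃ T', S' * T' = 1 ∧ Bd c T') → ∃ S ∈ t, ∃ g g' : Matrix n n k, Bd 1 g ∧ Bd 1 g' ∧
        g * g' = 1 ∧ g * S * st σ g = S' := by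
  obtain ⟨C, hC⟩ := exists_sec (k := k) hinv he hse
  have hC0 : 0 < C := zero_lt_one.trans_le hC.1
  set e : ℝ := 1 / (2 * (C * c + 1) * (C * c + 1)) with hedef
  have hD : 0 ≤ C * c := mul_nonneg hC0.le hc
  have he0 : 0 < e := by positivity
  have hs1 : C * e * c < 1 := by
    have h1 : C * e * c = (C * c) / (2 * (C * c + 1) * (C * c + 1)) := by
      rw [hedef]; ring
    rw [h1, div_lt_one (by positivity)]
    nlinarith
  have hs2 : C * e * c * 1 * (C * c) < 1 := by
    have h1 : C * e * c * 1 * (C * c) = (C * c) * (C * c) / (2 * (C * c + 1) * (C * c + 1)) := by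
      rw [hedef]; ring
    rw [h1, div_lt_one (by positivity)]
    nlinarith
  have htb : TotallyBounded {S : n → n → k | Tv σ ε (Matrix.of S) ∧ Bd 1 (Matrix.of S) ∧
    ∃ T' : Matrix n n k, (Matrix.of S) * T' = 1 ∧ Bd c T'} := by
    have h1 : IsCompact {f : n → n → k | Bd 1 (Matrix.of f)} := isCompact_Bd (n := n) (k := k) 1
    exact h1.totallyBounded.subset fun S hS => hS.2.1
  obtain ⟨t, ht1, ht2, ht3⟩ := Metric.finite_approx_of_totallyBounded htb e he0
  refine ⟨Matrix.of '' t, ht2.image _, fun S' hS' hb hT' => ?_⟩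
  have h1 := ht3 (show (Matrix.of.symm S') ∈ {S : n → n → k | Tv σ ε (Matrix.of S) ∧
    Bd 1 (Matrix.of S) ∧ ∃ T' : Matrix n n k, (Matrix.of S) * T' = 1 ∧ Bd c T'} from
      ⟨hS', hb, hT'⟩)
  simp only [Set.mem_iUnion, Metric.mem_ball, exists_prop] at h1
  obtain ⟨S, hSt, hd⟩ := h1
  obtain ⟨hSv, hSb, T, hST, hTb⟩ := ht1 hSt
  refine ⟨Matrix.of S, ⟨S, hSt, rfl⟩,
    orbit hσ hinv he hse hC hc zero_le_one he0.le hs1 hs2 hSv hS' hST hTb hSb ?_⟩
  intro i j
  rw [dist_eq_norm] at hd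
  rw [Matrix.sub_apply]
  exact ((norm_le_pi_norm ((Matrix.of.symm S' - S) i) j).trans
    (norm_le_pi_norm (Matrix.of.symm S' - S) i)).trans hd.le

end Vale.Agent.P092.H183.Vol
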