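import Vale.Agent.P092.H183.VL3

/-!
P092, block VOL-CL (helper183), part 4: up to isometries, a compact group of isometries preserves
one of finitely many lattices.
-/

set_option linter.all false

namespace Vale.Agent.P092.H183.Vol

open Matrix Topology Filter
open Vale.Agent.P092.H714.Cl
open Vale.Agent.P092.H303 (FormGroup)

variable {n : Type} [Fintype n] [DecidableEq n] {k : Type} [NontriviallyNormedField k]
  [IsUltrametricDist k] {σ : k →+* k} {ε : k} {J : Matrix n n k}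

omit [IsUltrametricDist k] in
theorem bdd_of_compact {W : Subgroup (SpecialLinearGroup n k)}
    (hW : IsCompact (W : Set (SpecialLinearGroup n k))) : ∃ R : ℝ, ∀ w ∈ W, Bd R w.1 := by
  have h1 : Continuous fun w : SpecialLinearGroup n k => nm w.1 :=
    continuous_nm.comp continuous_subtype_val
  obtain ⟨R, hR⟩ := hW.bddAbove_image h1.continuousOn
  exact ⟨R, fun w hw => (bd_nm w.1).mono (hR ⟨w, hw, rfl⟩)⟩

/-- Up to isometries, a compact group of isometries is integral in one of finitely many bases. -/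
theorem lat_fin [ProperSpace k] (hσ : ∀ x, ‖σ x‖ = ‖x‖) (hF : Frm σ ε J) :
    ∃ Z : Finset (Matrix n n k), (∀ z ∈ Z, z.det ≠ 0) ∧
      ∀ W : Subgroup (SpecialLinearGroup n k), IsCompact (W : Set (SpecialLinearGroup n k)) →
        (∀ w ∈ W, w ∈ FormGroup σ J) → ∃ z ∈ Z, ∃ g g' : Matrix n n k, g * g' = 1 ∧
          g * J * (g.map σ)ᵀ = J ∧ ∀ w ∈ W, ∀ i j, ‖(z * g * w.1 * g' * z⁻¹) i j‖ ≤ 1 := by
  classical
  have hinv := hF.inv
  obtain ⟨a, ha0, ha1⟩ := NormedField.exists_norm_lt_one k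
  have ha0' : a ≠ 0 := norm_pos_iff.1 ha0
  obtain ⟨t, ht, htO⟩ := fin_orbits (n := n) hσ hF.inv hF.eps hF.seps ‖a‖⁻¹ (by positivity)
  have hz : ∀ S : Matrix n n k, ∃ z : Matrix n n k,
      (∃ z' : Matrix n n k, z'.det ≠ 0 ∧ z' * J * st σ z' = S) → z.det ≠ 0 ∧ z * J * st σ z = S := by
    intro S
    by_cases h : ∃ z' : Matrix n n k, z'.det ≠ 0 ∧ z' * J * st σ z' = S
    · obtain ⟨z', h1⟩ := h
      exact ⟨z', fun _ => h1⟩
    · exact ⟨1, fun h' => absurd h' h⟩
  choose z hz using hz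
  refine ⟨(ht.toFinset.image z).filter fun z => z.det ≠ 0, fun y hy => (Finset.mem_filter.1 hy).2,
    fun W hW hWJ => ?_⟩
  obtain ⟨R, hR⟩ := bdd_of_compact hW
  obtain ⟨B, hB, hBi, hBT, hBW⟩ := exists_gram hσ hF hWJ hR ha0' ha1
  have hTv : Tv σ ε (B * J * st σ B) := (tv_frm hF).conj hinv B
  obtain ⟨S, hSt, h, h', hh1, hh'1, hhh, hS⟩ := htO _ hTv hBi hBT
  have hh'h : h' * h = 1 := mul_eq_one_comm.1 hhh
  have huB : IsUnit B.det := isUnit_iff_ne_zero.2 hB
  have hSB : (h' * B) * J * st σ (h' * B) = S := by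
    have h1 : st σ h * st σ h' = 1 := by rw [← st_mul, hh'h, st_one]
    calc (h' * B) * J * st σ (h' * B) = h' * (B * J * st σ B) * st σ h' := by
          rw [st_mul]; simp only [Matrix.mul_assoc]
      _ = (h' * h) * S * (st σ h * st σ h') := by rw [← hS]; simp only [Matrix.mul_assoc]
      _ = S := by rw [hh'h, h1, Matrix.one_mul, Matrix.mul_one]
  have hdet' : (h' * B).det ≠ 0 := by
    rw [det_mul]
    refine mul_ne_zero ?_ hB
    intro h0
    have := congrArg Matrix.det hh'h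
    rw [det_mul, h0, zero_mul, det_one] at this
    exact one_ne_zero this.symm
  obtain ⟨hz0, hz1⟩ := hz S ⟨h' * B, hdet', hSB⟩
  have huz : IsUnit (z S).det := isUnit_iff_ne_zero.2 hz0
  refine ⟨z S, Finset.mem_filter.2 ⟨Finset.mem_image.2 ⟨S, ht.mem_toFinset.2 hSt, rfl⟩, hz0⟩,
    (z S)⁻¹ * (h' * B), B⁻¹ * h * z S, ?_, ?_, ?_⟩
  · calc (z S)⁻¹ * (h' * B) * (B⁻¹ * h * z S) = (z S)⁻¹ * (h' * (B * B⁻¹) * h) * z S := by
          simp only [Matrix.mul_assoc]
      _ = 1 := by rw [mul_nonsing_inv _ huB, Matrix.mul_one, hh'h, Matrix.mul_one,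
          nonsing_inv_mul _ huz]
  · show (z S)⁻¹ * (h' * B) * J * st σ ((z S)⁻¹ * (h' * B)) = J
    have h2 : st σ (z S) * st σ (z S)⁻¹ = 1 := by rw [← st_mul, nonsing_inv_mul _ huz, st_one]
    calc (z S)⁻¹ * (h' * B) * J * st σ ((z S)⁻¹ * (h' * B))
        = (z S)⁻¹ * ((h' * B) * J * st σ (h' * B)) * st σ (z S)⁻¹ := by
          rw [st_mul]; simp only [Matrix.mul_assoc]
      _ = (z S)⁻¹ * (z S * J * st σ (z S)) * st σ (z S)⁻¹ := by rw [hSB, hz1]
      _ = ((z S)⁻¹ * z S) * J * (st σ (z S) * st σ (z S)⁻¹) := by simp only [Matrix.mul_assoc]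
      _ = J := by rw [nonsing_inv_mul _ huz, h2, Matrix.one_mul, Matrix.mul_one]
  · intro w hw
    have h3 : z S * ((z S)⁻¹ * (h' * B)) * w.1 * (B⁻¹ * h * z S) * (z S)⁻¹ =
        h' * (B * w.1 * B⁻¹) * h := by
      calc z S * ((z S)⁻¹ * (h' * B)) * w.1 * (B⁻¹ * h * z S) * (z S)⁻¹
          = (z S * (z S)⁻¹) * h' * (B * w.1 * B⁻¹) * h * (z S * (z S)⁻¹) := by
            simp only [Matrix.mul_assoc]
        _ = h' * (B * w.1 * B⁻¹) * h := by
            rw [mul_nonsing_inv _ huz, Matrix.one_mul, Matrix.mul_one]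
    rw [h3]
    have h4 := (hh'1.mul zero_le_one zero_le_one (hBW w hw)).mul (by norm_num) zero_le_one hh1
    rwa [one_mul, one_mul] at h4

end Vale.Agent.P092.H183.Vol
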